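import Vale.Agent.P167.H871.Q.Alt

/-!
# P167, general `q`: the strands `lrs` over the special points of a row

Locality, reduction to one row, alternation, the turning of the strands.
-/

namespace Vale.Agent.P167.H871.Q

open Finset
open Vale.Agent.P167.FK
open Vale.Agent.P167.Top
open Vale.Agent.P167.E6 (IsPolygon Encloses dir)
open Vale.Agent.P167.BR (be)
open Vale.Agent.P167.XDL (bS mem_bS)
open Vale.Agent.P167.H199 (strand ret Returns mem_strand ret_min ret_le)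
open Vale.Agent.P167.QX (exc mem_exc exc_last ExtPot out_stays returns_good)
open Vale.Agent.P167.H825.Q (Row)
open Vale.Agent.P167.H945.Q (face faces lrs SP tipL tipR jn)

variable {r : Row} {b : Bool} {v : ℤ × ℤ} {k : ℕ} {ω ω' : Cfg} {B : Finset (ℤ × ℤ)} {e x : Ed}
  {I : Finset (ℤ × ℤ)} {A A' : Finset Ed} {lo hi : ℕ}

theorem mem_lrs : e ∈ lrs I A A' B ω ↔ e ∈ A ∧ e ∈ bS I ∧ hdv e ∉ I ∧ Returns (nx ω) (bS I) e ∧
    (nx ω)^[ret (nx ω) (bS I) e] e ∈ A' ∧ ∀ x ∈ strand (nx ω) (bS I) e, hdv x ∈ B := by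
  classical
  unfold lrs
  rw [mem_filter]

theorem stays_iff : Stays I (B : Set (ℤ × ℤ)) ω e ↔ ∀ x ∈ strand (nx ω) (bS I) e, hdv x ∈ B := by
  unfold Stays
  constructor
  · intro h x hx
    obtain ⟨k, hk, rfl⟩ := mem_strand.1 hx
    exact h k hk
  · intro h k hk
    exact h _ (mem_strand.2 ⟨k, hk, rfl⟩)

theorem lrs_eq : lrs I A A' B ω = lr I A A' (B : Set (ℤ × ℤ)) ω := by
  ext e
  rw [mem_lrs, mem_lr, mem_bS, ← stays_iff]
  tauto

/-! ### locality -/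

theorem iter_congr {m : ℕ} (h : ∀ v ∈ B, ω v = ω' v) (hs : ∀ k < m, hdv ((nx ω)^[k] e) ∈ B) :
    ∀ k ≤ m, (nx ω')^[k] e = (nx ω)^[k] e := by
  intro k
  induction k with
  | zero => intro _; rfl
  | succ k ih =>
    intro hk
    rw [Function.iterate_succ_apply', Function.iterate_succ_apply', ih (by omega)]
    exact (P167.nx_congr (h _ (hs k (by omega)))).symm

theorem ret_congr (h : ∀ v ∈ B, ω v = ω' v) (hr : Returns (nx ω) (bS I) e)
    (hs : Stays I (B : Set (ℤ × ℤ)) ω e) : Returns (nx ω') (bS I) e ∧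
      ret (nx ω') (bS I) e = ret (nx ω) (bS I) e ∧
      ∀ k ≤ ret (nx ω) (bS I) e, (nx ω')^[k] e = (nx ω)^[k] e := by
  have h1 := iter_congr (ω := ω) (ω' := ω') (e := e) h (m := ret (nx ω) (bS I) e) hs
  obtain ⟨h2, h3⟩ := hr.spec
  have hr' : Returns (nx ω') (bS I) e := ⟨_, h2, by rw [h1 _ le_rfl]; exact h3⟩
  refine ⟨hr', le_antisymm ?_ ?_, h1⟩
  · exact ret_le h2 (by rw [h1 _ le_rfl]; exact h3)
  · by_contra hlt
    push Not at hlt
    obtain ⟨h4, h5⟩ := hr'.spec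
    rw [h1 _ hlt.le] at h5
    exact ret_min h4 hlt h5

theorem lr_congr_sub (h : ∀ v ∈ B, ω v = ω' v) :
    lr I A A' (B : Set (ℤ × ℤ)) ω ⊆ lr I A A' (B : Set (ℤ × ℤ)) ω' := by
  intro e he
  obtain ⟨h1, h2, h3, h4, h5⟩ := mem_lr.1 he
  obtain ⟨g1, g2, g3⟩ := ret_congr h h3 h5
  refine mem_lr.2 ⟨h1, h2, g1, ?_, ?_⟩
  · rw [g2, g3 _ le_rfl]
    exact h4
  · intro k hk
    rw [g2] at hk
    rw [g3 _ hk.le]
    exact h5 k hk

/-- **Locality.** -/
theorem lrs_congr (h : ∀ v ∈ B, ω v = ω' v) : lrs I A A' B ω = lrs I A A' B ω' := by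
  rw [lrs_eq, lrs_eq]
  exact Subset.antisymm (lr_congr_sub h) (lr_congr_sub fun v hv => (h v hv).symm)

/-! ### reduction to one row -/

/-- The strand of an edge of the row `J`, for a larger set `I`. -/
theorem ret_sub {J : Finset (ℤ × ℤ)} (hJ : J ⊆ I) (h1 : hdv e ∉ I)
    (hr : Returns (nx ω) (bS I) e) (hx : (nx ω)^[ret (nx ω) (bS I) e] e ∈ bS J) :
    Returns (nx ω) (bS J) e ∧ ret (nx ω) (bS J) e = ret (nx ω) (bS I) e := by
  obtain ⟨h3, h4⟩ := hr.spec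
  have hr' : Returns (nx ω) (bS J) e := ⟨_, h3, hx⟩
  refine ⟨hr', le_antisymm (ret_le h3 hx) ?_⟩
  by_contra hlt
  push Not at hlt
  obtain ⟨h5, h6⟩ := hr'.spec
  have h7 := out_stays h1 hlt
  obtain ⟨m, hm⟩ : ∃ m, ret (nx ω) (bS J) e = m + 1 := ⟨ret (nx ω) (bS J) e - 1, by omega⟩
  have h8 := out_stays h1 (show m < ret (nx ω) (bS I) e by omega)
  rw [mem_bS, hm, Function.iterate_succ_apply', tlv_nx] at h6
  rw [hm, Function.iterate_succ_apply'] at h7
  rcases h6 with h6 | h6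
  · exact h7 (hJ h6.1)
  · exact h8 (hJ h6.2)

/-- The strand of an edge of the row `J` inside `B`, for a larger set `I` which agrees with `J` in
`B`. -/
theorem ret_sup {J : Finset (ℤ × ℤ)} (hJ : J ⊆ I) (hB : ∀ v ∈ B, v ∈ I → v ∈ J) (h1 : hdv e ∉ J)
    (hr : Returns (nx ω) (bS J) e)
    (hs : Stays J (B : Set (ℤ × ℤ)) ω e) :
    hdv e ∉ I ∧ Returns (nx ω) (bS I) e ∧ ret (nx ω) (bS I) e = ret (nx ω) (bS J) e := by
  obtain ⟨h3, h4⟩ := hr.spec
  have hout : ∀ k < ret (nx ω) (bS J) e, hdv ((nx ω)^[k] e) ∉ I := fun k hk h =>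
    out_stays h1 hk (hB _ (hs k hk) h)
  have h5 := exc_last h1 hr
  obtain ⟨m, hm⟩ : ∃ m, ret (nx ω) (bS J) e = m + 1 := ⟨ret (nx ω) (bS J) e - 1, by omega⟩
  have h6 : (nx ω)^[ret (nx ω) (bS J) e] e ∈ bS I := by
    rw [mem_bS]
    left
    refine ⟨hJ h5.1, ?_⟩
    rw [hm, Function.iterate_succ_apply', tlv_nx]
    exact hout m (by omega)
  have hr' : Returns (nx ω) (bS I) e := ⟨_, h3, h6⟩
  refine ⟨hout 0 (by omega), hr', le_antisymm (ret_le h3 h6) ?_⟩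
  by_contra hlt
  push Not at hlt
  obtain ⟨h7, h8⟩ := hr'.spec
  obtain ⟨l, hl⟩ : ∃ l, ret (nx ω) (bS I) e = l + 1 := ⟨ret (nx ω) (bS I) e - 1, by omega⟩
  rw [mem_bS, hl, Function.iterate_succ_apply', tlv_nx] at h8
  rcases h8 with h8 | h8
  · refine hout (l + 1) (by omega) ?_
    rw [Function.iterate_succ_apply']
    exact h8.1
  · exact hout l (by omega) h8.2

/-- **Reduction to one row.** -/
theorem lrs_loc {J : Finset (ℤ × ℤ)} (hJ : J ⊆ I) (hB : ∀ v ∈ B, v ∈ I → v ∈ J)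
    (hA : A ⊆ bS J) (hA' : A' ⊆ bS J) : lrs I A A' B ω = lrs J A A' B ω := by
  rw [lrs_eq, lrs_eq]
  ext e
  rw [mem_lr, mem_lr]
  constructor
  · rintro ⟨h1, ⟨h2, h2'⟩, h3, h4, h5⟩
    have g0 : hdv e ∉ J := fun h => h2 (hJ h)
    have g1 : tlv e ∈ J := by
      have := hA h1
      rw [mem_bS] at this
      rcases this with h | h
      · exact absurd h.1 g0
      · exact h.2
    obtain ⟨g2, g3⟩ := ret_sub hJ h2 h3 (hA' h4)
    refine ⟨h1, ⟨g0, g1⟩, g2, by rw [g3]; exact h4, ?_⟩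
    intro k hk
    rw [g3] at hk
    exact h5 k hk
  · rintro ⟨h1, ⟨h2, h2'⟩, h3, h4, h5⟩
    obtain ⟨g1, g2, g3⟩ := ret_sup hJ hB h2 h3 h5
    refine ⟨h1, ⟨g1, hJ h2'⟩, g2, by rw [g3]; exact h4, ?_⟩
    intro k hk
    rw [g3] at hk
    exact h5 k hk

theorem card_lrs_empty : (lrs I A A' ∅ ω).card = 0 := by
  rw [card_eq_zero, eq_empty_iff_forall_notMem]
  intro e he
  obtain ⟨-, -, -, h1, -, h2⟩ := mem_lrs.1 he
  exact absurd (h2 e (H199.self_mem_strand h1)) (notMem_empty _)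

/-! ### alternation -/

theorem rays_row {a1 b1 a2 b2 : ℤ} (h : if r.o then a2 ≤ r.x.2 ∧ r.x.2 < b2 else
    a1 ≤ r.x.1 ∧ r.x.1 < b1) :
    Rays r.I ((Ico a1 b1 ×ˢ Ico a2 b2 : Finset (ℤ × ℤ)) : Set (ℤ × ℤ)) := by
  apply rays_ico
  by_cases ho : r.o = true
  · left
    rw [if_pos ho] at h
    refine ⟨r.x.2, fun v hv => ?_, h⟩
    rw [mem_rI, if_pos ho] at hv
    exact hv.1
  · right
    rw [if_neg ho] at h
    refine ⟨r.x.1, fun v hv => ?_, h⟩
    rw [mem_rI, if_neg ho] at hv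
    exact hv.1

/-- **Alternation over the ends.** `b = !r.o`: right end, `b = r.o`: left end. -/
theorem alt_tip (hL : 1 ≤ r.L) (hg : Good ω) (hR : Rays r.I (B : Set (ℤ × ℤ)))
    (h0 : w0 r b ∉ B) (hI : r.I ⊆ I) (hB : ∀ v ∈ B, v ∈ I → v ∈ r.I) :
    |((lrs I (faces r b 0 r.L) (faces r (!b) 0 r.L) B ω).card : ℤ) -
      (lrs I (faces r (!b) 0 r.L) (faces r b 0 r.L) B ω).card| ≤ 3 := by
  rw [lrs_loc hI hB (faces_bS hL le_rfl) (faces_bS hL le_rfl),
    lrs_loc hI hB (faces_bS hL le_rfl) (faces_bS hL le_rfl), lrs_eq, lrs_eq]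
  exact alt_end hL hg hR (fun h => h0 (mem_coe.1 h))

/-- **Alternation over a junction**, face `b`. -/
theorem alt_jn (hL : 1 ≤ r.L) (hg : Good ω) (hR : Rays r.I (B : Set (ℤ × ℤ)))
    (h0 : w0 r b ∉ B) (h1 : w1 r b ∉ B) {m : ℕ} (hm : m ≤ r.L) (hI : r.I ⊆ I)
    (hB : ∀ v ∈ B, v ∈ I → v ∈ r.I) :
    |((lrs I (faces r b 0 m) (faces r b m r.L) B ω).card : ℤ) -
      (lrs I (faces r b m r.L) (faces r b 0 m) B ω).card| ≤ 3 := by
  rw [lrs_loc hI hB (faces_bS hL hm) (faces_bS hL le_rfl),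
    lrs_loc hI hB (faces_bS hL le_rfl) (faces_bS hL hm), lrs_eq, lrs_eq]
  exact alt_mid hL hg hR (fun h => h0 (mem_coe.1 h)) (fun h => h1 (mem_coe.1 h)) hm

/-! ### the turning -/

/-- The turning of a strand. -/
noncomputable def tr (I : Finset (ℤ × ℤ)) (ω : Cfg) (e : Ed) : ℤ :=
  ∑ k ∈ range (ret (nx ω) (bS I) e), trn ω ((nx ω)^[k] e)

/-- The number of a side of a face. -/
theorem idx_face (hL : 1 ≤ r.L) {i : ℕ} (h0 : i < 2 * r.L + 2)
    (h : be (rqr r b) (i : ZMod (2 * r.L + 2)) ∈ faces r b lo hi) (hh : hi ≤ r.L) :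
    i < r.L ∧ lo ≤ fk r b i ∧ fk r b i < hi := by
  unfold faces at h
  rw [mem_image] at h
  obtain ⟨k, h1, h2⟩ := h
  rw [mem_Ico] at h1
  have h3 : fk r b k < r.L := by unfold fk; split_ifs <;> omega
  have h4 : fk r b (fk r b k) = k := by unfold fk; split_ifs <;> omega
  have h5 : i = fk r b k := by
    by_contra hne
    refine XDL.be_ne (rqr_polygon (r := r) (b := b) hL) h0 (by omega) hne ?_
    rw [← h2, be_face hL h3, h4]
  rw [h5, h4]
  omega

theorem idx_face' (hL : 1 ≤ r.L) {i : ℕ} (hi : i < 2 * r.L + 2)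
    (h : be (rqr r b) (i : ZMod (2 * r.L + 2)) ∈ faces r (!b) 0 r.L) :
    r.L + 1 ≤ i ∧ i < 2 * r.L + 1 := by
  rw [← sides_face' hL, mem_sides] at h
  obtain ⟨k, h1, h2, h3⟩ := h
  have h5 : i = k := by
    by_contra hne
    exact XDL.be_ne (rqr_polygon (r := r) (b := b) hL) hi (by omega) hne h3.symm
  omega

theorem U1_lt {i : ℕ} (h : i < r.L) : U1 r.L i = 0 := by
  rw [U1_eq (by omega), U0, if_pos h]

theorem U1_gt {i : ℕ} (h : r.L + 1 ≤ i) (h' : i < 2 * r.L + 1) : U1 r.L i = 2 := by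
  rw [U1_eq (by omega), U0, if_neg (by omega), if_neg (by omega), if_pos (by omega)]

/-- **The turning over an end** is `4` from the face `b` to the face `!b` and `-4` back. -/
theorem tr_tip (hL : 1 ≤ r.L) (hR : Rays r.I (B : Set (ℤ × ℤ)))
    (h0 : w0 r b ∉ B) (hI : r.I ⊆ I) (hB : ∀ v ∈ B, v ∈ I → v ∈ r.I) :
    (e ∈ lrs I (faces r b 0 r.L) (faces r (!b) 0 r.L) B ω → tr I ω e = 4) ∧
      (e ∈ lrs I (faces r (!b) 0 r.L) (faces r b 0 r.L) B ω → tr I ω e = -4) := by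
  have key : ∀ {A A' : Finset Ed}, A ⊆ bS r.I → A' ⊆ bS r.I → e ∈ lrs I A A' B ω →
      ∃ i j, Foot (rqr r b) r.I ω e i j ∧ be (rqr r b) (i : ZMod (2 * r.L + 2)) ∈ A ∧
        be (rqr r b) (j : ZMod (2 * r.L + 2)) ∈ A' ∧
        tr I ω e = U1 r.L j - U1 r.L i + (if i < j then 2 else -2) := by
    intro A A' hA hA' he
    have hret : ret (nx ω) (bS r.I) e = ret (nx ω) (bS I) e := by
      rw [lrs_eq] at he
      obtain ⟨h1, ⟨h2, h2'⟩, h3, h4, h5⟩ := mem_lr.1 he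
      have g0 : hdv e ∉ r.I := fun h => h2 (hI h)
      have g1 : tlv e ∈ r.I := by
        have := hA h1
        rw [mem_bS] at this
        rcases this with h | h
        · exact absurd h.1 g0
        · exact h.2
      exact (ret_sub hI h2 h3 (hA' h4)).2
    rw [lrs_loc hI hB hA hA', lrs_eq] at he
    obtain ⟨h1, ⟨h2, h2'⟩, h3, h4, h5⟩ := mem_lr.1 he
    obtain ⟨i, j, φ, σ, F, -, -, -, -, hT⟩ :=
      row_pot (b := b) hL hR (fun h => h0 (mem_coe.1 h)) h2 h2' h3 h5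
    refine ⟨i, j, F, by rw [← F.e1]; exact h1, by rw [← F.e2]; exact h4, ?_⟩
    unfold tr
    rw [← hret]
    exact hT
  constructor
  · intro he
    obtain ⟨i, j, F, h1, h2, h3⟩ := key (faces_bS hL le_rfl) (faces_bS hL le_rfl) he
    obtain ⟨g1, -, -⟩ := idx_face hL F.hi h1 le_rfl
    obtain ⟨g2, g3⟩ := idx_face' hL F.hj h2
    rw [h3, U1_lt g1, U1_gt g2 g3, if_pos (by omega)]
    norm_num
  · intro he
    obtain ⟨i, j, F, h1, h2, h3⟩ := key (faces_bS hL le_rfl) (faces_bS hL le_rfl) he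
    obtain ⟨g1, -, -⟩ := idx_face hL F.hj h2 le_rfl
    obtain ⟨g2, g3⟩ := idx_face' hL F.hi h1
    rw [h3, U1_lt g1, U1_gt g2 g3, if_neg (by omega)]
    norm_num

/-- The turning of a strand between two squares of one face. -/
theorem tr_same (hL : 1 ≤ r.L) (hR : Rays r.I (B : Set (ℤ × ℤ)))
    (h0 : w0 r b ∉ B) (hI : r.I ⊆ I) (hB : ∀ v ∈ B, v ∈ I → v ∈ r.I) {k l : ℕ} (hk : k < r.L)
    (hl : l < r.L) (he : e ∈ lrs I {face r b k} {face r b l} B ω) :
    k ≠ l ∧ tr I ω e = if (k < l ↔ r.o = b) then -2 else 2 := by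
  have hf : ∀ {k : ℕ}, k < r.L → face r b k ∈ bS r.I := fun {k} hk =>
    faces_bS (b := b) hL le_rfl (mem_image_of_mem _ (mem_Ico.2 ⟨Nat.zero_le k, hk⟩))
  have hret : ret (nx ω) (bS r.I) e = ret (nx ω) (bS I) e := by
    rw [lrs_eq] at he
    obtain ⟨h1, ⟨h2, h2'⟩, h3, h4, h5⟩ := mem_lr.1 he
    have g0 : hdv e ∉ r.I := fun h => h2 (hI h)
    have g1 : tlv e ∈ r.I := by
      have := hf hk
      rw [← mem_singleton.1 h1, mem_bS] at this
      rcases this with h | h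
      · exact absurd h.1 g0
      · exact h.2
    exact (ret_sub hI h2 h3 (by rw [mem_singleton.1 h4]; exact hf hl)).2
  rw [lrs_loc hI hB (singleton_subset_iff.2 (hf hk)) (singleton_subset_iff.2 (hf hl)), lrs_eq] at he
  obtain ⟨h1, ⟨h2, h2'⟩, h3, h4, h5⟩ := mem_lr.1 he
  obtain ⟨i, j, φ, σ, F, -, -, -, -, hT⟩ :=
    row_pot (b := b) hL hR (fun h => h0 (mem_coe.1 h)) h2 h2' h3 h5
  have hi : i = fk r b k := by
    by_contra hne
    have h3 : fk r b k < r.L := by unfold fk; split_ifs <;> omega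
    have h4 : fk r b (fk r b k) = k := by unfold fk; split_ifs <;> omega
    refine XDL.be_ne (rqr_polygon (r := r) (b := b) hL) F.hi (by omega) hne ?_
    rw [← F.e1, mem_singleton.1 h1, be_face hL h3, h4]
  have hj : j = fk r b l := by
    by_contra hne
    have h3 : fk r b l < r.L := by unfold fk; split_ifs <;> omega
    have h4' : fk r b (fk r b l) = l := by unfold fk; split_ifs <;> omega
    refine XDL.be_ne (rqr_polygon (r := r) (b := b) hL) F.hj (by omega) hne ?_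
    rw [← F.e2, mem_singleton.1 h4, be_face hL h3, h4']
  have hij := F.ne (rqr_polygon (r := r) (b := b) hL) (rqr_encloses hL)
  have h6 : fk r b k < r.L ∧ fk r b l < r.L := by unfold fk; split_ifs <;> omega
  have h7 : tr I ω e = if i < j then 2 else -2 := by
    unfold tr
    rw [← hret, hT, U1_lt (by omega), U1_lt (by omega)]
    ring
  refine ⟨fun h => hij (by rw [hi, hj, h]), ?_⟩
  rw [h7, hi, hj]
  by_cases ho : r.o = b
  · have e1 : ∀ k, fk r b k = r.L - 1 - k := fun k => by unfold fk; rw [if_pos ho]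
    rw [hi, hj, e1, e1] at hij
    rw [e1, e1]
    by_cases hkl : k < l
    · rw [if_neg (by omega), if_pos (iff_of_true hkl ho)]
    · rw [if_pos (by omega), if_neg (fun h => hkl (h.2 ho))]
  · have e1 : ∀ k, fk r b k = k := fun k => by unfold fk; rw [if_neg ho]
    rw [hi, hj, e1, e1] at hij
    rw [e1, e1]
    by_cases hkl : k < l
    · rw [if_pos hkl, if_neg (fun h => ho (h.1 hkl))]
    · rw [if_neg hkl, if_pos (iff_of_false hkl ho)]

end Vale.Agent.P167.H871.Q
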