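import Vale.Agent.P167.H871.Q.ValD
import Vale.Agent.P167.H945.Q.TLoc

/-!
# P167, general `q`: the product of the relative weights of the small strands of a row

`G θ r d R ω`: the strands of the row which are small (box of radius `d`) or stay in one of the boxes
of radius `R` around the special points. The product of the relative weights is at most a constant
times `TT θ r.I r R ω`.
-/

namespace Vale.Agent.P167.H871.Q

open Finset
open Vale.Agent.P167.FK
open Vale.Agent.P167.Top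
open Vale.Agent.P167.A (plane plane_sg)
open Vale.Agent.P167.E6 (IsPolygon Encloses dir)
open Vale.Agent.P167.BR (be)
open Vale.Agent.P167.XDL (bS mem_bS)
open Vale.Agent.P167.H199 (strand ret Returns mem_strand ret_min ret_le)
open Vale.Agent.P167.QX (exc mem_exc exc_last exc_disj ExtPot out_stays returns_good rS natS ClT lst wS
  rS_nonneg)
open Vale.Agent.P167.H825.Q (Row)
open Vale.Agent.P167.H945.Q (face faces lrs SP tipL tipR jn natw relw tj Plain TT)

variable {r : Row} {b b' b'' : Bool} {v : ℤ × ℤ} {k l : ℕ} {ω ω' : Cfg} {B : Finset (ℤ × ℤ)}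
  {e e' x : Ed} {I : Finset (ℤ × ℤ)} {A A' : Finset Ed} {lo hi lo' hi' : ℕ} {θ z κ : ℝ} {n : ℕ}
  {d R : ℤ}

/-- **A small strand which does not stay in one of the boxes around the special points is natural**
(any small box). -/
theorem small_nat' (hθ : 0 < Real.sin θ) (hθ2 : Real.sin θ ≤ Real.sin (2 * θ)) (hL : 1 ≤ r.L)
    {D : ℤ} (hR : Rays r.I (B : Set (ℤ × ℤ))) (hB : ∀ u ∈ B, ∀ v ∈ B, nm (v - u) ≤ D)
    {TL TR TJ : Finset (ℤ × ℤ)}
    (hTL : ∀ v, nm (v - sqm r (-1)) ≤ D → v ∈ TL)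
    (hTR : ∀ v, nm (v - sqm r r.L) ≤ D → v ∈ TR)
    (hTJ : ¬ Plain r → ∀ v, nm (v - r.sq r.k0) ≤ D → v ∈ TJ)
    (hf : Frz r ω) (hs : Str r.I ω e) (hst : Stays r.I (B : Set (ℤ × ℤ)) ω e)
    (h1 : ¬ Stays r.I (TL : Set (ℤ × ℤ)) ω e) (h2 : ¬ Stays r.I (TR : Set (ℤ × ℤ)) ω e)
    (h3 : ¬ Plain r → ¬ Stays r.I (TJ : Set (ℤ × ℤ)) ω e) : rS θ r.I (r.wall θ z).a ω e = 1 := by
  have hmv : ∀ {u : ℤ × ℤ} {T : Finset (ℤ × ℤ)}, (∀ v, nm (v - u) ≤ D → v ∈ T) →
      u ∈ B → Stays r.I (T : Set (ℤ × ℤ)) ω e := fun hT hu k hk =>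
    hT _ (hB _ hu _ (hst k hk))
  have hnL : sqm r (-1) ∉ B := fun h => h1 (hmv hTL h)
  have hnR : sqm r r.L ∉ B := fun h => h2 (hmv hTR h)
  have hw : w0 r true ∉ B ∧ w1 r true ∉ B := by
    unfold w0 w1
    by_cases ho : r.o = true
    · rw [if_pos ho, if_pos ho]; exact ⟨hnR, hnL⟩
    · rw [if_neg ho, if_neg ho]; exact ⟨hnL, hnR⟩
  rcases cls hL hR hw.1 hs hst with ⟨b', k, l, hk, hl, g1, g2, ht, hne, hB⟩ |
    ⟨k, l, hk, hl, g1, g2, ht, hw', hB⟩ | ⟨k, l, hk, hl, g1, g2, ht, hw', hB⟩ | ⟨h, hB⟩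
  · refine val_same hθ hθ2 hL hR hw.1 hf hs hst g1 g2 ht ?_
    by_cases hp : Plain r
    · exact Or.inl hp
    · right
      by_contra hk0
      have h4 := hB r.k0 (by omega) (by omega)
      exact h3 hp (hmv (hTJ hp) h4.1)
  · exact absurd hw' hw.2
  · exact absurd hw' hw.2
  · exact absurd hB hw.2

/-! ### the boxes of the special points -/

/-- A rectangle around `c` which is almost the box of radius `R`. -/
def Alm (c : ℤ × ℤ) (R : ℤ) (B : Finset (ℤ × ℤ)) : Prop :=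
  ∃ a1 b1 a2 b2 : ℤ, B = Ico a1 b1 ×ˢ Ico a2 b2 ∧ (c.1 - R ≤ a1 ∧ a1 ≤ c.1 - R + 1) ∧
    (c.1 + R ≤ b1 ∧ b1 ≤ c.1 + R + 1) ∧ (c.2 - R ≤ a2 ∧ a2 ≤ c.2 - R + 1) ∧
    (c.2 + R ≤ b2 ∧ b2 ≤ c.2 + R + 1)

theorem Alm.mem {c : ℤ × ℤ} (h : Alm c R B) (hv : nm (v - c) ≤ R - 1) : v ∈ B := by
  obtain ⟨a1, b1, a2, b2, rfl, h1, h2, h3, h4⟩ := h
  unfold nm at hv
  simp only [Prod.fst_sub, Prod.snd_sub] at hv
  rw [max_le_iff, abs_le, abs_le] at hv
  rw [mem_product, mem_Ico, mem_Ico]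
  omega

theorem Alm.nm {c : ℤ × ℤ} (h : Alm c R B) (hv : v ∈ B) : nm (v - c) ≤ R := by
  obtain ⟨a1, b1, a2, b2, rfl, h1, h2, h3, h4⟩ := h
  rw [mem_product, mem_Ico, mem_Ico] at hv
  unfold P167.nm
  simp only [Prod.fst_sub, Prod.snd_sub]
  rw [max_le_iff, abs_le, abs_le]
  omega

theorem Alm.rays {c : ℤ × ℤ} (h : Alm c R B) (hR : 1 < R)
    (hc : if r.o then c.2 = r.x.2 else c.1 = r.x.1) : Rays r.I (B : Set (ℤ × ℤ)) := by
  obtain ⟨a1, b1, a2, b2, rfl, h1, h2, h3, h4⟩ := h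
  apply rays_row
  by_cases ho : r.o = true
  · rw [if_pos ho] at hc ⊢
    omega
  · rw [if_neg ho] at hc ⊢
    omega

theorem alm_L : Alm (r.sq 0) R ((tipL θ r).bx R) := by
  refine ⟨_, _, _, _, rfl, ?_, ?_, ?_, ?_⟩ <;> simp only [tipL] <;> push_cast <;> omega

theorem alm_R : Alm (r.sq (r.L - 1)) R ((tipR θ r).bx R) := by
  refine ⟨_, _, _, _, rfl, ?_, ?_, ?_, ?_⟩ <;> simp only [tipR] <;> push_cast <;> omega

theorem alm_J : Alm (r.sq r.k0) R ((jn θ r b).bx R) := by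
  refine ⟨_, _, _, _, rfl, ?_, ?_, ?_, ?_⟩ <;> simp only [jn] <;>
    (try split_ifs) <;> push_cast <;> omega

theorem jn_bx : (jn θ r b).bx R = (jn θ r b').bx R := rfl

/-- Distance along the row. -/
theorem nm_sqm {s t : ℤ} : nm (sqm r s - sqm r t) = |s - t| := by
  unfold nm sqm
  by_cases ho : r.o = true
  · rw [if_pos ho, if_pos ho]
    simp
  · rw [if_neg ho, if_neg ho]
    simp

theorem sq_sqm (k : ℕ) : r.sq k = sqm r k := rfl

theorem nm_tri {u v w : ℤ × ℤ} {s t : ℤ} (h1 : nm (u - v) ≤ s) (h2 : nm (v - w) ≤ t) :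
    nm (u - w) ≤ s + t := by
  unfold nm at h1 h2 ⊢
  simp only [Prod.fst_sub, Prod.snd_sub] at h1 h2 ⊢
  rw [max_le_iff, abs_le, abs_le] at h1 h2 ⊢
  omega

theorem nm_swap {u v : ℤ × ℤ} : nm (u - v) = nm (v - u) := by
  unfold nm
  simp only [Prod.fst_sub, Prod.snd_sub]
  rw [abs_sub_comm, abs_sub_comm u.2]

/-- Boxes far apart are disjoint. -/
theorem Alm.disj {c c' : ℤ × ℤ} {B' : Finset (ℤ × ℤ)} (h : Alm c R B) (h' : Alm c' R B')
    (hc : 2 * R < P167.nm (c - c')) (hv : v ∈ B) : v ∉ B' := by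
  intro hv'
  have h1 := h.nm hv
  have h2 := h'.nm hv'
  rw [nm_swap] at h1
  have := nm_tri h1 h2
  omega

theorem sq_line (k : ℕ) : if r.o then (r.sq k).2 = r.x.2 else (r.sq k).1 = r.x.1 := by
  unfold Row.sq
  by_cases ho : r.o = true
  · rw [if_pos ho, if_pos ho]
  · rw [if_neg ho, if_neg ho]

theorem sqm_not (h : Alm (r.sq k) R B) {t : ℤ} (ht : R < |t - k|) : sqm r t ∉ B := by
  intro hv
  have h1 := h.nm hv
  rw [sq_sqm, nm_sqm] at h1
  omega

open Classical in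
/-- The small strands of the row, and the strands which stay in one of the boxes around the special
points. -/
noncomputable def G (θ : ℝ) (r : Row) (d R : ℤ) (ω : Cfg) : Finset Ed :=
  (bS r.I).filter fun e => hdv e ∉ r.I ∧ (QX.InB (Bq (tlv e) d) r.I ω e ∨
    ∃ p, (p = tipL θ r ∨ p = tipR θ r ∨ (¬ Plain r ∧ (p = jn θ r true ∨ p = jn θ r false))) ∧
      QX.InB (p.bx R) r.I ω e)

theorem inB_stays (h : QX.InB B I ω e) : Stays I (B : Set (ℤ × ℤ)) ω e := fun k hk => h.2.2 k hk.le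

/-- Strands with both feet on long faces which stay in a box around a square of the row. -/
theorem inB_of (hs : Str r.I ω e) (hst : Stays r.I (B : Set (ℤ × ℤ)) ω e)
    {c : ℤ × ℤ} (h : Alm c R B) (hR : 1 < R) (hc : if r.o then c.2 = r.x.2 else c.1 = r.x.1)
    (h1 : e ∈ faces r b 0 r.L) (h2 : lst r.I ω e ∈ faces r b' 0 r.L) : QX.InB B r.I ω e := by
  obtain ⟨a1, b1, a2, b2, rfl, g1, g2, g3, g4⟩ := h
  -- the square of the row at an edge of a face is next to the other one, transversally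
  have key : ∀ {x : Ed} {b : Bool} {u v : ℤ × ℤ}, x ∈ faces r b 0 r.L →
      ((u = hdv x ∧ v = tlv x) ∨ (u = tlv x ∧ v = hdv x)) → u ∈ r.I → v ∉ r.I →
      v ∈ (Ico a1 b1 ×ˢ Ico a2 b2 : Finset (ℤ × ℤ)) →
      u ∈ (Ico a1 b1 ×ˢ Ico a2 b2 : Finset (ℤ × ℤ)) := by
    intro x b u v hx huv hu hv hvB
    unfold faces at hx
    obtain ⟨k, hk, rfl⟩ := mem_image.1 hx
    rw [mem_rI] at hu
    rw [mem_product, mem_Ico, mem_Ico] at hvB ⊢
    by_cases ho : r.o = true
    · rw [if_pos ho] at hu hc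
      have : u.1 = v.1 := by
        unfold face at huv
        rw [if_pos ho] at huv
        cases b <;> rcases huv with ⟨rfl, rfl⟩ | ⟨rfl, rfl⟩ <;> simp only [hdv, tlv] <;>
          split_ifs <;> rfl
      omega
    · rw [if_neg ho] at hu hc
      have : u.2 = v.2 := by
        unfold face at huv
        rw [if_neg ho] at huv
        cases b <;> rcases huv with ⟨rfl, rfl⟩ | ⟨rfl, rfl⟩ <;> simp only [hdv, tlv] <;>
          split_ifs <;> rfl
      omega
  have hm := hs.rt.spec.1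
  refine ⟨hs.rt, ?_, fun k hk => ?_⟩
  · exact key h1 (Or.inr ⟨rfl, rfl⟩) hs.tl hs.out (mem_coe.1 (hst 0 hm))
  · rcases Nat.lt_or_ge k (ret (nx ω) (bS r.I) e) with h' | h'
    · exact hst k h'
    · obtain rfl := le_antisymm hk h'
      have h3 := exc_last hs.out hs.rt
      exact key h2 (Or.inl ⟨rfl, rfl⟩) h3.1 h3.2 (mem_coe.1 (tl_last hs.rt hst))

/-- **The product of the relative weights of one row.** -/
theorem G_prod (hθ : 0 < Real.sin θ) (hc : 1 ≤ 2 * Real.cos θ) (hok : r.Ok θ κ n)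
    (hfr : ∀ v ∈ r.I, ω v = r.fr v) (hd : 1 ≤ d) (hdR : 2 * d + 2 ≤ R)
    (hR : 16 * (R : ℝ) ≤ κ * n) (z : ℝ) :
    ∏ e ∈ G θ r d R ω, rS θ r.I (r.wall θ z).a ω e ≤
      (1 / Real.sin θ) ^ 2 * TT θ r.I r R ω := by
  classical
  have hθ2 : Real.sin θ ≤ Real.sin (2 * θ) := by rw [Real.sin_two_mul]; nlinarith
  have hf := Frz.of_ok hok hfr
  have hLR : 16 * R ≤ (r.L : ℤ) := by
    have := hR.trans hok.len
    exact_mod_cast this
  have hL : 1 ≤ r.L := by omega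
  have hJ : ¬ Plain r → 16 * R ≤ (r.k0 : ℤ) ∧ (r.k0 : ℤ) + 16 * R ≤ r.L := by
    intro hp
    rcases hok.kind with h | ⟨-, h1, h2⟩
    · exact absurd h hp
    · constructor
      · exact_mod_cast hR.trans h1
      · have : (r.k0 : ℝ) + 16 * R ≤ r.L := by linarith
        exact_mod_cast this
  set TL := (tipL θ r).bx R with hTL
  set TR := (tipR θ r).bx R with hTR
  set TJ := (jn θ r true).bx R with hTJ
  have aL : Alm (r.sq 0) R TL := alm_L
  have aR : Alm (r.sq (r.L - 1)) R TR := alm_R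
  have aJ : Alm (r.sq r.k0) R TJ := alm_J
  have hR1 : 1 < R := by omega
  have rL : Rays r.I (TL : Set (ℤ × ℤ)) := aL.rays hR1 (sq_line _)
  have rR : Rays r.I (TR : Set (ℤ × ℤ)) := aR.rays hR1 (sq_line _)
  have rJ : Rays r.I (TJ : Set (ℤ × ℤ)) := aJ.rays hR1 (sq_line _)
  have dLR : ∀ v ∈ TL, v ∉ TR := fun v hv => aL.disj aR (by
    rw [sq_sqm, sq_sqm, nm_sqm, lt_abs]; right; omega) hv
  have dLJ : ¬ Plain r → ∀ v ∈ TL, v ∉ TJ := fun hp v hv => aL.disj aJ (by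
    have := hJ hp
    rw [sq_sqm, sq_sqm, nm_sqm, lt_abs]; right; omega) hv
  have dRJ : ¬ Plain r → ∀ v ∈ TR, v ∉ TJ := fun hp v hv => aR.disj aJ (by
    have := hJ hp
    rw [sq_sqm, sq_sqm, nm_sqm, lt_abs]; left; omega) hv
  -- the strands
  set s := G θ r d R ω with hs
  have hstr : ∀ e ∈ s, Str r.I ω e := by
    intro e he
    obtain ⟨h1, h2, h3⟩ := mem_filter.1 he
    refine ⟨h2, (mem_bS.1 h1).resolve_left (fun h => h2 h.1) |>.2, ?_⟩
    rcases h3 with h3 | ⟨p, -, h3⟩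
    · exact h3.1
    · exact h3.1
  have hin : ∀ {e : Ed} {p : SP} {b b' : Bool}, (p = tipL θ r ∨ p = tipR θ r ∨
      (¬ Plain r ∧ (p = jn θ r true ∨ p = jn θ r false))) → Str r.I ω e →
      Stays r.I (p.bx R : Set (ℤ × ℤ)) ω e → e ∈ faces r b 0 r.L → lst r.I ω e ∈ faces r b' 0 r.L →
      e ∈ s := by
    intro e p b b' hp h1 h2 h3 h4
    refine mem_filter.2 ⟨h1.mem, h1.out, Or.inr ⟨p, hp, ?_⟩⟩
    rcases hp with rfl | rfl | ⟨-, rfl | rfl⟩
    · exact inB_of h1 h2 aL hR1 (sq_line _) h3 h4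
    · exact inB_of h1 h2 aR hR1 (sq_line _) h3 h4
    · exact inB_of h1 h2 aJ hR1 (sq_line _) h3 h4
    · exact inB_of h1 h2 aJ hR1 (sq_line _) h3 h4
  have hno : ∀ {e : Ed} {T T' : Finset (ℤ × ℤ)}, Str r.I ω e → (∀ v ∈ T, v ∉ T') →
      Stays r.I (T : Set (ℤ × ℤ)) ω e → ¬ Stays r.I (T' : Set (ℤ × ℤ)) ω e := fun h1 h2 h3 h4 =>
    h2 _ (h3 0 h1.rt.spec.1) (h4 0 h1.rt.spec.1)
  -- the left end
  have w0L : w0 r r.o ∉ TL := by
    unfold w0
    rw [if_pos rfl]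
    refine sqm_not aL ?_
    rw [lt_abs]; left; push_cast; omega
  have w0R : w0 r (!r.o) ∉ TR := by
    unfold w0
    rw [if_neg (by cases r.o <;> decide)]
    refine sqm_not aR ?_
    rw [lt_abs]; right; omega
  have farL : Plain r ∨ (0 < r.k0 → r.k0 < r.L → ¬ (r.sq r.k0 ∈ TL ∧ r.sq (r.k0 - 1) ∈ TL)) := by
    by_cases hp : Plain r
    · exact Or.inl hp
    · refine Or.inr fun _ _ h => ?_
      have := hJ hp
      exact sqm_not aL (t := r.k0) (by rw [lt_abs]; left; push_cast; omega) h.1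
  have farR : Plain r ∨ (0 < r.k0 → r.k0 < r.L → ¬ (r.sq r.k0 ∈ TR ∧ r.sq (r.k0 - 1) ∈ TR)) := by
    by_cases hp : Plain r
    · exact Or.inl hp
    · refine Or.inr fun _ _ h => ?_
      have := hJ hp
      exact sqm_not aR (t := r.k0) (by rw [lt_abs]; right; omega) h.1
  have hsplit : ∏ e ∈ s, rS θ r.I (r.wall θ z).a ω e =
      (∏ e ∈ s.filter (fun e => Stays r.I (TL : Set (ℤ × ℤ)) ω e),
        rS θ r.I (r.wall θ z).a ω e) *
      ((∏ e ∈ (s.filter (fun e => ¬ Stays r.I (TL : Set (ℤ × ℤ)) ω e)).filter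
          (fun e => Stays r.I (TR : Set (ℤ × ℤ)) ω e), rS θ r.I (r.wall θ z).a ω e) *
        ∏ e ∈ (s.filter (fun e => ¬ Stays r.I (TL : Set (ℤ × ℤ)) ω e)).filter
          (fun e => ¬ Stays r.I (TR : Set (ℤ × ℤ)) ω e), rS θ r.I (r.wall θ z).a ω e) := by
    rw [prod_filter_mul_prod_filter_not, prod_filter_mul_prod_filter_not]
  have hcos : 0 < Real.cos θ := by linarith
  have bL : ∏ e ∈ s.filter (fun e => Stays r.I (TL : Set (ℤ × ℤ)) ω e),
      rS θ r.I (r.wall θ z).a ω e ≤ 1 / Real.sin θ * (tipL θ r).T r.I R ω := by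
    have h := tip_prod (z := z) (b := r.o) hθ hc hL rL w0L farL hf
      (s := s.filter (fun e => Stays r.I (TL : Set (ℤ × ℤ)) ω e))
      (fun e he => ⟨hstr e (mem_filter.1 he).1, (mem_filter.1 he).2⟩)
      (fun e he => by
        obtain ⟨g1, g2, g3, g4⟩ := mem_lrs'.1 he
        exact mem_filter.2 ⟨hin (Or.inl rfl) g2 g4 g1 g3, g4⟩)
      (fun e he => by
        obtain ⟨g1, g2, g3, g4⟩ := mem_lrs'.1 he
        exact mem_filter.2 ⟨hin (Or.inl rfl) g2 g4 g1 g3, g4⟩)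
    have e1 : te r r.o = 0 := by unfold te; rw [if_pos rfl]
    rw [e1] at h
    exact h
  have bR : ∏ e ∈ (s.filter (fun e => ¬ Stays r.I (TL : Set (ℤ × ℤ)) ω e)).filter
      (fun e => Stays r.I (TR : Set (ℤ × ℤ)) ω e),
      rS θ r.I (r.wall θ z).a ω e ≤ 1 / Real.sin θ * (tipR θ r).T r.I R ω := by
    have hb : (!(!r.o)) = r.o := Bool.not_not _
    have h := tip_prod (z := z) (b := !r.o) hθ hc hL rR w0R farR hf
      (s := (s.filter (fun e => ¬ Stays r.I (TL : Set (ℤ × ℤ)) ω e)).filter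
        (fun e => Stays r.I (TR : Set (ℤ × ℤ)) ω e))
      (fun e he => ⟨hstr e (mem_filter.1 (mem_filter.1 he).1).1, (mem_filter.1 he).2⟩)
      (fun e he => by
        obtain ⟨g1, g2, g3, g4⟩ := mem_lrs'.1 he
        exact mem_filter.2 ⟨mem_filter.2 ⟨hin (Or.inr (Or.inl rfl)) g2 g4 g1 g3,
          hno g2 (fun v hv hv' => dLR v hv' hv) g4⟩, g4⟩)
      (fun e he => by
        obtain ⟨g1, g2, g3, g4⟩ := mem_lrs'.1 he
        exact mem_filter.2 ⟨mem_filter.2 ⟨hin (Or.inr (Or.inl rfl)) g2 g4 g1 g3,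
          hno g2 (fun v hv hv' => dLR v hv' hv) g4⟩, g4⟩)
    have e1 : te r (!r.o) = r.L - 1 := by
      unfold te; rw [if_neg (by cases r.o <;> decide)]
    rw [e1, hb] at h
    exact h
  have nnL := prod_nonneg (s := s.filter (fun e => Stays r.I (TL : Set (ℤ × ℤ)) ω e))
    fun e _ => rS_nonneg hcos r.I (r.wall θ z).a ω e
  have nnR := prod_nonneg (s := (s.filter (fun e => ¬ Stays r.I (TL : Set (ℤ × ℤ)) ω e)).filter
      (fun e => Stays r.I (TR : Set (ℤ × ℤ)) ω e))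
    fun e _ => rS_nonneg hcos r.I (r.wall θ z).a ω e
  -- the rest
  set t := (s.filter (fun e => ¬ Stays r.I (TL : Set (ℤ × ℤ)) ω e)).filter
    (fun e => ¬ Stays r.I (TR : Set (ℤ × ℤ)) ω e) with ht
  have hnat : ∀ e ∈ t, (¬ Plain r → ¬ Stays r.I (TJ : Set (ℤ × ℤ)) ω e) →
      rS θ r.I (r.wall θ z).a ω e = 1 := by
    intro e he hnJ
    obtain ⟨h1, h2⟩ := mem_filter.1 he
    obtain ⟨h3, h4⟩ := mem_filter.1 h1
    have h5 := hstr e h3
    obtain ⟨-, -, h6⟩ := mem_filter.1 h3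
    rcases h6 with h6 | ⟨p, hp, h6⟩
    · have hline : if r.o then (tlv e).2 = r.x.2 else (tlv e).1 = r.x.1 := by
        have := h5.tl
        rw [mem_rI] at this
        by_cases ho : r.o = true
        · rw [if_pos ho] at this ⊢; exact this.1
        · rw [if_neg ho] at this ⊢; exact this.1
      refine small_nat' (D := 2 * d) hθ hθ2 hL (B := Bq (tlv e) d) ?_
        (fun u hu v hv => nm_Bq hu hv) (TL := TL) (TR := TR) (TJ := TJ) ?_ ?_ ?_ hf h5 (inB_stays h6)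
        h4 h2 hnJ
      · apply rays_row
        by_cases ho : r.o = true
        · rw [if_pos ho] at hline ⊢; omega
        · rw [if_neg ho] at hline ⊢; omega
      · intro v hv
        refine aL.mem ?_
        have := nm_tri hv (t := 1) (w := r.sq 0) (by rw [sq_sqm, nm_sqm]; norm_num)
        omega
      · intro v hv
        refine aR.mem ?_
        have := nm_tri hv (t := 1) (w := r.sq (r.L - 1)) (by
          rw [sq_sqm, nm_sqm, abs_le]; omega)
        omega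
      · intro _ v hv
        exact aJ.mem (by omega)
    · exfalso
      rcases hp with rfl | rfl | ⟨hp, rfl | rfl⟩
      · exact h4 (inB_stays h6)
      · exact h2 (inB_stays h6)
      · exact hnJ hp (inB_stays h6)
      · exact hnJ hp (inB_stays h6)
  have hC := one_le_inv hθ
  have hTL0 : 0 ≤ (tipL θ r).T r.I R ω := mul_nonneg (pow_nonneg (relw_nonneg hθ hθ2 _ _ _ _) _)
    (pow_nonneg (relw_nonneg hθ hθ2 _ _ _ _) _)
  have hTR0 : 0 ≤ (tipR θ r).T r.I R ω := mul_nonneg (pow_nonneg (relw_nonneg hθ hθ2 _ _ _ _) _)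
    (pow_nonneg (relw_nonneg hθ hθ2 _ _ _ _) _)
  have bt : ∏ e ∈ t, rS θ r.I (r.wall θ z).a ω e =
      if Plain r then 1 else (jn θ r true).T r.I R ω * (jn θ r false).T r.I R ω := by
    by_cases hp : Plain r
    · rw [if_pos hp]
      exact prod_eq_one fun e he => hnat e he fun h => absurd hp h
    · rw [if_neg hp, ← prod_filter_mul_prod_filter_not t
        (fun e => Stays r.I (TJ : Set (ℤ × ℤ)) ω e)]
      rw [prod_eq_one (s := t.filter fun e => ¬ Stays r.I (TJ : Set (ℤ × ℤ)) ω e)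
        (fun e he => hnat e (mem_filter.1 he).1 fun _ => (mem_filter.1 he).2), mul_one]
      have hk := hJ hp
      have m1 : ∀ b', ∀ e, e ∈ faces r b' 0 r.k0 → e ∈ faces r b' 0 r.L := by
        intro b' e he
        unfold faces at he ⊢
        exact image_subset_image (Ico_subset_Ico_right (by omega)) he
      have m2 : ∀ b', ∀ e, e ∈ faces r b' r.k0 r.L → e ∈ faces r b' 0 r.L := by
        intro b' e he
        unfold faces at he ⊢
        exact image_subset_image (Ico_subset_Ico_left (Nat.zero_le _)) he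
      have hmem : ∀ {e : Ed} {b' : Bool}, Str r.I ω e → Stays r.I (TJ : Set (ℤ × ℤ)) ω e →
          e ∈ faces r b' 0 r.L → lst r.I ω e ∈ faces r b' 0 r.L →
          e ∈ t.filter fun e => Stays r.I (TJ : Set (ℤ × ℤ)) ω e := by
        intro e b' g1 g2 g3 g4
        refine mem_filter.2 ⟨mem_filter.2 ⟨mem_filter.2 ⟨?_, ?_⟩, ?_⟩, g2⟩
        · exact hin (p := jn θ r true) (Or.inr (Or.inr ⟨hp, Or.inl rfl⟩)) g1 g2 g3 g4
        · exact hno g1 (fun v hv hv' => dLJ hp v hv' hv) g2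
        · exact hno g1 (fun v hv hv' => dRJ hp v hv' hv) g2
      refine (jn_prod (z := z) (b := true) hθ hc hL rJ ?_ ?_ hf
        (fun e he => ⟨hstr e (mem_filter.1 (mem_filter.1 (mem_filter.1 he).1).1).1,
          (mem_filter.1 he).2⟩) ?_ ?_ (by omega)).trans ?_
      · unfold w0
        by_cases ho : r.o = true
        · rw [if_pos ho]; exact sqm_not aJ (by rw [lt_abs]; left; omega)
        · rw [if_neg ho]; exact sqm_not aJ (by rw [lt_abs]; right; omega)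
      · unfold w1
        by_cases ho : r.o = true
        · rw [if_pos ho]; exact sqm_not aJ (by rw [lt_abs]; right; omega)
        · rw [if_neg ho]; exact sqm_not aJ (by rw [lt_abs]; left; omega)
      · intro b' e he
        obtain ⟨g1, g2, g3, g4⟩ := mem_lrs'.1 he
        exact hmem g2 g4 (m1 _ _ g1) (m2 _ _ g3)
      · intro b' e he
        obtain ⟨g1, g2, g3, g4⟩ := mem_lrs'.1 he
        exact hmem g2 g4 (m2 _ _ g1) (m1 _ _ g3)
      · rfl
  have bt0 : 0 ≤ ∏ e ∈ t, rS θ r.I (r.wall θ z).a ω e :=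
    prod_nonneg fun e _ => rS_nonneg hcos r.I (r.wall θ z).a ω e
  rw [hsplit]
  have hTT : TT θ r.I r R ω = (tipL θ r).T r.I R ω * (tipR θ r).T r.I R ω *
      (if Plain r then 1 else (jn θ r true).T r.I R ω * (jn θ r false).T r.I R ω) := by
    unfold TT
    rfl
  rw [hTT, ← bt]
  have h1 := mul_le_mul bL bR nnR (mul_nonneg (by linarith) hTL0)
  have h2 := mul_le_mul_of_nonneg_right h1 bt0
  calc _ = (∏ e ∈ s.filter (fun e => Stays r.I (TL : Set (ℤ × ℤ)) ω e),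
        rS θ r.I (r.wall θ z).a ω e) *
      (∏ e ∈ (s.filter (fun e => ¬ Stays r.I (TL : Set (ℤ × ℤ)) ω e)).filter
          (fun e => Stays r.I (TR : Set (ℤ × ℤ)) ω e), rS θ r.I (r.wall θ z).a ω e) *
        ∏ e ∈ t, rS θ r.I (r.wall θ z).a ω e := by ring
    _ ≤ _ := h2
    _ = _ := by ring

end Vale.Agent.P167.H871.Q
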