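import Vale.Agent.P167.H871.Q.LF0F
import Vale.Agent.P167.H871.Q.ValE
import Vale.Agent.P167.H592.U.Near

/-!
# P167, general `q`, START: the product over the loops off the holes and the factors of the junctions

If the factors of the junctions are not zero and no strand of zero type leaves the boxes of the
junctions, then the product over the loops off the holes is not zero.
-/

namespace Vale.Agent.P167.H871.Q

open Finset
open Vale.Agent.P167.Top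
open Vale.Agent.P167.FK
open Vale.Agent.P167.A (plane)
open Vale.Agent.P167.E6 (IsPolygon Encloses dir face)
open Vale.Agent.P167.XDL (bS mem_bS)
open Vale.Agent.P167.H825 (enl pdir Marks FlowIn)
open Vale.Agent.P167.H825.Q (Row Bc)
open Vale.Agent.P167.H680.T (rowC uI mem_uI frows thk)
open Vale.Agent.P167.H199 (Gap strand ret Returns cang)
open Vale.Agent.P167.H398.Q (hB Cnf Tjun)
open Vale.Agent.P167.H685 (LE mem_LE)
open Vale.Agent.P167.QX (ExtPot exc exc_last VisL TO fLp wS rS lst)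
open Vale.Agent.P167.H945.Q (faces lrs jn Plain Tc ctr)
open Vale.Agent.P167.Enl (sW eW kOf qN uN sR eR frame_fam frows_disj frows_okg ctr_own2 BGap gn_big)

section gen

variable {ι : Type} [Fintype ι] {r : ι → Row} {θ β κ : ℝ} {x : Ed} {ω : Cfg} {m : ℕ} {ρ : ℤ}

/-- **A strand of zero weight in the box of a junction**: the factor of the junction is zero. -/
theorem jn_zero {a : ι} (hθ : 0 < Real.sin θ) (hc : 1 ≤ 2 * Real.cos θ) (hok : (r a).Ok θ κ m)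
    (hfz : ∀ v ∈ (r a).I, ω v = (r a).fr v)
    (hd : ∀ i j v, v ∈ (r i).I → v ∈ (r j).I → i = j) (hρ : 1 < ρ) (h2 : 2 * (ρ : ℝ) ≤ κ * m)
    (hown : ∀ v, nm (v - (r a).sq (r a).k0) ≤ ρ + 1 → v ∈ uI r → v ∈ (r a).I)
    (hp : ¬ Plain (r a)) (hx1 : tlv x ∈ uI r) (hx2 : hdv x ∉ uI r)
    (hr : Returns (nx ω) (bS (uI r)) x)
    (hst : Stays (uI r) ((jn θ (r a) true).bx ρ : Set (ℤ × ℤ)) ω x)
    (h0 : Real.cos (cang plane θ (rowC θ r 0).ph ω (strand (nx ω) (bS (uI r)) x)) = 0) :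
    (jn θ (r a) true).T (uI r) ρ ω * (jn θ (r a) false).T (uI r) ρ ω = 0 := by
  classical
  have hθ2 : Real.sin θ ≤ Real.sin (2 * θ) := by rw [Real.sin_two_mul]; nlinarith
  have hf := Frz.of_ok hok hfz
  have aJ : Alm ((r a).sq (r a).k0) ρ ((jn θ (r a) true).bx ρ) := alm_J
  have hadj : ∀ y : Ed, nm (hdv y - tlv y) ≤ 1 ∧ nm (tlv y - hdv y) ≤ 1 := by
    intro y
    have h1 := hdv_tlv y
    have h2 : nm (hdv y - tlv y) ≤ 1 := by
      rw [h1]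
      unfold nm vec
      simp only [Prod.fst_sub, Prod.snd_sub, Prod.fst_add, Prod.snd_add, add_sub_cancel_left]
      rcases head_cases (hd4 y) with ⟨-, b, c⟩ | ⟨-, b, c⟩ | ⟨-, b, c⟩ | ⟨-, b, c⟩ <;> rw [b, c] <;>
        norm_num
    exact ⟨h2, by rw [nm_swap]; exact h2⟩
  -- the feet are in the row
  have hlast := exc_last hx2 hr
  have t1 : tlv x ∈ (r a).I := by
    refine hown _ ?_ hx1
    have := nm_tri (hadj x).2 (aJ.nm (mem_coe.1 (hst 0 hr.spec.1)))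
    omega
  have t2 : hdv (lst (uI r) ω x) ∈ (r a).I := by
    refine hown _ ?_ hlast.1
    have := nm_tri (hadj (lst (uI r) ω x)).1 (aJ.nm (mem_coe.1 (tl_last hr hst)))
    omega
  have hJ : (r a).I ⊆ uI r := fun v hv => mem_uI.2 ⟨a, hv⟩
  have hx2' : hdv x ∉ (r a).I := fun h => hx2 (hJ h)
  have hl2 : tlv (lst (uI r) ω x) ∉ (r a).I := fun h => hlast.2 (hJ h)
  obtain ⟨g1, g2⟩ := ret_sub hJ hx2 hr (mem_bS.2 (Or.inl ⟨t2, hl2⟩))
  have hS : Str (r a).I ω x := ⟨hx2', t1, g1⟩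
  have hst' : Stays (r a).I ((jn θ (r a) true).bx ρ : Set (ℤ × ℤ)) ω x := by
    intro k hk
    rw [g2] at hk
    exact hst k hk
  -- the weight in the row
  have h5 := cang_rows (θ := θ) hd (i := a) (j := a) hx2 t1 hr t2
  have h6 := cang_thk (θ := θ) (Φ := (r a).Φ) (τ := (r a).τ) (z := 0) hx2' t1 g1
  have e1 : lst (r a).I ω x = lst (uI r) ω x := by unfold lst; rw [g2]
  have e2 : tr (r a).I ω x = ∑ k ∈ range (ret (nx ω) (bS (uI r)) x), trn ω ((nx ω)^[k] x) := by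
    unfold tr; rw [g2]
  rw [e1, e2] at h6
  have h7 : cang plane θ ((r a).wall θ 0).a ω (strand (nx ω) (bS (r a).I) x) =
      cang plane θ (rowC θ r 0).ph ω (strand (nx ω) (bS (uI r)) x) := by
    rw [h5]
    exact h6
  have h8 : rS θ (r a).I ((r a).wall θ 0).a ω x = 0 := by
    unfold rS wS
    rw [h7, h0]
    simp
  -- lengths
  have hJk : (2 * ρ ≤ ((r a).k0 : ℤ)) ∧ ((r a).k0 : ℤ) + 2 * ρ ≤ (r a).L := by
    rcases hok.kind with h | ⟨-, h1, h3⟩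
    · exact absurd h hp
    · constructor
      · exact_mod_cast h2.trans h1
      · have : ((r a).k0 : ℝ) + 2 * ρ ≤ (r a).L := by linarith
        exact_mod_cast this
  have hL : 1 ≤ (r a).L := by omega
  have w0J : w0 (r a) true ∉ (jn θ (r a) true).bx ρ := by
    unfold w0
    by_cases ho : (r a).o = true
    · rw [if_pos ho]; exact sqm_not aJ (by rw [lt_abs]; left; omega)
    · rw [if_neg ho]; exact sqm_not aJ (by rw [lt_abs]; right; omega)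
  have w1J : w1 (r a) true ∉ (jn θ (r a) true).bx ρ := by
    unfold w1
    by_cases ho : (r a).o = true
    · rw [if_pos ho]; exact sqm_not aJ (by rw [lt_abs]; right; omega)
    · rw [if_neg ho]; exact sqm_not aJ (by rw [lt_abs]; left; omega)
  have hloc : ∀ (b' : Bool) (lo hi lo' hi' : ℕ), hi ≤ (r a).L → hi' ≤ (r a).L →
      lrs (uI r) (faces (r a) b' lo hi) (faces (r a) b' lo' hi') ((jn θ (r a) true).bx ρ) ω =
      lrs (r a).I (faces (r a) b' lo hi) (faces (r a) b' lo' hi') ((jn θ (r a) true).bx ρ) ω := by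
    intro b' lo hi lo' hi' h1 h2
    refine lrs_loc hJ (fun v hv hv' => hown v ?_ hv') (faces_bS hL h1) (faces_bS hL h2)
    have := aJ.nm hv
    omega
  have hT : ∀ b', (jn θ (r a) b').T (uI r) ρ ω = 0 →
      (jn θ (r a) true).T (uI r) ρ ω * (jn θ (r a) false).T (uI r) ρ ω = 0 := by
    intro b' h
    cases b'
    · rw [h, mul_zero]
    · rw [h, zero_mul]
  obtain ⟨b', -, -, ⟨c1, c2, -⟩ | ⟨c1, c2, -⟩ | ⟨c1, -⟩⟩ := jn_cases (z := 0) (b := true) hθ hθ2 hL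
    (aJ.rays hρ (sq_line _)) w0J w1J hf hS hst'
  · apply hT b'
    show (jn θ (r a) b').w ^ (lrs (uI r) (faces (r a) b' 0 (r a).k0)
      (faces (r a) b' (r a).k0 (r a).L) ((jn θ (r a) true).bx ρ) ω).card * _ = 0
    rw [hloc b' _ _ _ _ (by omega) le_rfl, ← c2, h8, zero_pow, zero_mul]
    exact (card_pos.2 ⟨x, c1⟩).ne'
  · apply hT b'
    show _ * (jn θ (r a) b').w' ^ (lrs (uI r) (faces (r a) b' (r a).k0 (r a).L)
      (faces (r a) b' 0 (r a).k0) ((jn θ (r a) true).bx ρ) ω).card = 0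
    rw [hloc b' _ _ _ _ le_rfl (by omega), ← c2, h8, zero_pow, mul_zero]
    exact (card_pos.2 ⟨x, c1⟩).ne'
  · rw [h8] at c1
    exact absurd c1 (by norm_num)

variable {n : ℕ} {q : ZMod n → ℤ × ℤ} {D : Finset (ℤ × ℤ)} {u : ℕ → ℤ} {ka c N : ℕ} {s e : ℕ → ℕ}

/-- If the product over the loops off the holes is zero, there is an exterior strand of zero weight of
such a loop, and it passes a special point of zero type. -/
theorem Fam.TO_zero (F : Fam θ β r q D u ka c N s e) {B : Set (ℤ × ℤ)} (hθ : 0 < θ)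
    (hθ' : θ ≤ Real.pi / 3)
    (hβ : 0 < ka → ka < n → β = (θ - Real.pi) / 2 ∨ β = (Real.pi - 3 * θ) / 2) (hg : Good ω)
    (hB1 : ∀ v ∈ endK q u c N s e, v ∈ B) (hB2 : ∀ y ∈ bS D, y ∉ bS (uI r) → hdv y ∈ B)
    (h0 : InK n c N s e 0) (ha : 0 < ka → ka < n → InK n c N s e ka)
    (hZ : TO θ (uI r) (rowC θ r 0).ph B ω = 0) :
    ∃ ℓ ∈ LE ω (bS (uI r)), ¬ VisL B ℓ ∧ ∃ y ∈ ℓ, tlv y ∈ uI r ∧ hdv y ∉ uI r ∧ hdv y ∉ D ∧
      Returns (nx ω) (bS (uI r)) y ∧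
      (∀ k < ret (nx ω) (bS (uI r)) y, hdv ((nx ω)^[k] y) ∉ D) ∧
      Real.cos (cang plane θ (rowC θ r 0).ph ω (strand (nx ω) (bS (uI r)) y)) = 0 ∧
      ∃ (σ : ℤ) (φ : ℤ × ℤ → ℤ), ExtPot (D ∪ uI r) (exc (uI r) ω y) σ φ ∧ ¬ Zro θ β ka q u σ φ := by
  classical
  obtain ⟨h1, h2, h3, h4⟩ := sin_pos' hθ hθ'
  have hn : 2 < n := F.hq.1
  unfold TO at hZ
  rw [prod_eq_zero_iff] at hZ
  obtain ⟨ℓ, hℓ, hz⟩ := hZ
  obtain ⟨hℓ1, hv⟩ := mem_filter.1 hℓ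
  have hl := (mem_LE.1 hℓ1).1
  unfold fLp at hz
  rw [div_eq_zero_iff] at hz
  have hz := hz.resolve_right (by positivity)
  rw [prod_eq_zero_iff] at hz
  obtain ⟨y, hy, hz⟩ := hz
  obtain ⟨y1, y2, y3⟩ := mem_filter.1 hy
  have y4 : tlv y ∈ uI r := by
    rw [mem_bS] at y1
    rcases y1 with h | h
    · exact absurd h.1 y2
    · exact h.2
  unfold wS at hz
  rw [div_eq_zero_iff] at hz
  have hz := hz.resolve_right h1.ne'
  obtain ⟨hr, ⟨c1, i, j, E⟩ | ⟨c1, c2, i, j, σ, φ, E⟩⟩ := F.cases hg hB1 hB2 hl hv y3 y4 y2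
  · rw [F.cos_int E y2 hr] at hz
    exact absurd hz (wI_pos hθ hθ' E.hi E.hj hβ).ne'
  · refine ⟨ℓ, hℓ1, hv, y, y3, y4, y2, c1, hr, c2, hz, σ, φ, E.pot, fun hZr => ?_⟩
    rw [F.cos_far E y2 hr] at hz
    refine wE_ne hθ hθ' E.pot.sgn E.hi E.hj E.ne hβ ?_ hz
    obtain ⟨z1, z2, z3, z4⟩ := hZr
    have e0 : φ (yK q u 0) = vE i j 0 σ := E.far 0 (by omega) h0
    rw [e0] at z1 z2 z4
    refine ⟨z1, z2, fun k1 k2 k3 => ?_, z4⟩
    have ea : φ (yK q u ka) = vE i j ka σ := E.far ka k2 (ha k1 k2)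
    rw [← ea]
    exact z3 k1 k2 k3

end gen

variable {l : ℕ} {p : ZMod l → ℤ × ℤ} {n : ℕ} {S₀ : Finset (ℤ × ℤ)} {Q : Marks} {bc : Bc}
  {θ β : ℝ}

/-- **(LF0, second form)** If the factors of the junctions are not zero, then the product over the
loops off the holes is not zero, provided that every exterior strand of these loops which passes a
special point of zero type stays in the box of a junction. -/
theorem frame_TO_ne2 (hθ : 0 < θ) (hθ' : θ ≤ Real.pi / 3)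
    (hβ : β = (θ - Real.pi) / 2 ∨ β = (Real.pi - 3 * θ) / 2) (hp : IsPolygon p)
    (hD : Encloses p S₀) (hQ : Q.Ok) {g δ : ℝ} (hg : Gap Q l g) (hδ : 0 < δ) (hδg : 4 * δ ≤ g)
    (hn : 16 ≤ δ * n) (hb : bc.Ok l Q) (hbg : BGap l Q g bc) {R ρ : ℤ}
    (hR : (⌊δ * n⌋₊ : ℤ) + 4 ≤ R) (hρ : 1 < ρ) (hρ2 : 8 * (ρ : ℝ) ≤ g * n) {ω : Cfg} (hω : Good ω)
    (hfz : H398.Q.Frz (frows θ β p Q n ⌊δ * n⌋₊ bc) ω)
    (hT : Tjun θ (frows θ β p Q n ⌊δ * n⌋₊ bc) ρ ω ≠ 0)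
    (hZ : ∀ ℓ ∈ LE ω (bS (uI (frows θ β p Q n ⌊δ * n⌋₊ bc))), ¬ VisL (hB p Q n R : Set (ℤ × ℤ)) ℓ →
      ∀ y ∈ ℓ, tlv y ∈ uI (frows θ β p Q n ⌊δ * n⌋₊ bc) →
      hdv y ∉ uI (frows θ β p Q n ⌊δ * n⌋₊ bc) → hdv y ∉ enl S₀ n →
      ∀ (σ : ℤ) (φ : ℤ × ℤ → ℤ), ExtPot (enl S₀ n ∪ uI (frows θ β p Q n ⌊δ * n⌋₊ bc))
        (exc (uI (frows θ β p Q n ⌊δ * n⌋₊ bc)) ω y) σ φ →
      ¬ Zro θ β (bc.ka l n (Enl.tB n Q)) (qN p n (Enl.tB n Q)) (uN p n (Enl.tB n Q)) σ φ →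
      ∃ a, ¬ Plain (frows θ β p Q n ⌊δ * n⌋₊ bc a) ∧
        ∀ k < ret (nx ω) (bS (uI (frows θ β p Q n ⌊δ * n⌋₊ bc))) y,
          hdv ((nx ω)^[k] y) ∈ (jn θ (frows θ β p Q n ⌊δ * n⌋₊ bc a) true).bx ρ) :
    TO θ (uI (frows θ β p Q n ⌊δ * n⌋₊ bc)) (rowC θ (frows θ β p Q n ⌊δ * n⌋₊ bc) 0).ph
      (hB p Q n R : Set (ℤ × ℤ)) ω ≠ 0 := by
  intro h0
  obtain ⟨s1, s2, s3, s4⟩ := sin_pos' hθ hθ'
  have hc1 : 1 ≤ 2 * Real.cos θ := by
    have := Real.cos_le_cos_of_nonneg_of_le_pi hθ.le (by linarith [Real.pi_pos]) hθ'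
    rw [Real.cos_pi_div_three] at this
    linarith
  have hl : 0 < l := by have := hp.1; omega
  obtain ⟨b1, b2, b3, b4, b5⟩ := gn_big hQ hg hδg hn hl
  obtain ⟨ℓ, k1, k2, y, k3, k4, k5, k6, k7, k8, k9, σ, φ, k10, k11⟩ :=
    (frame_fam hp hD hQ hg hδ hδg hn hb).TO_zero hθ hθ' (fun _ _ => hβ) hω
      (fun _ hv => frame_end hp hD hQ hg hδ hδg hn hR hv)
      (fun _ h1 h2 => frame_hole hp hD hQ hg hδ hδg hn hR h1 h2)
      (inK_base hp hQ hg hδ hδg hn) (fun h1 h2 => inK_junction hp hQ hg hδ hδg hn hbg h1 h2) h0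
  obtain ⟨a, ha, hst⟩ := hZ ℓ k1 k2 y k3 k4 k5 k6 σ φ k10 k11
  have hok := frows_okg (β := β) (bc := bc) hp hD hQ hθ (by linarith) hβ hg hbg hδ hδg hn a
  have h1 := jn_zero (r := frows θ β p Q n ⌊δ * n⌋₊ bc) (a := a) s1 hc1 hok (hfz a)
    (fun i j v => frows_disj hp hQ hg hδ hδg hn) hρ (by linarith) (fun v hv hv' => ?_) ha k4 k5 k7
    hst k9
  · refine hT ?_
    unfold Tjun
    refine prod_eq_zero (mem_univ a) ?_
    unfold Tc
    rw [if_neg (by decide), if_neg (by decide), if_neg ha]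
    exact h1
  · refine ctr_own2 hp hD hQ hg hδ hδg hn hb hbg hθ (by linarith) hβ a ha (ρ := ρ + 2) ?_
      ?_ hv'
    · push_cast
      linarith
    · have e1 : ctr (frows θ β p Q n ⌊δ * n⌋₊ bc a) 2 =
        (frows θ β p Q n ⌊δ * n⌋₊ bc a).sq (frows θ β p Q n ⌊δ * n⌋₊ bc a).k0 := rfl
      rw [e1]
      unfold nm at hv
      simp only [Prod.fst_sub, Prod.snd_sub] at hv
      rw [max_le_iff, abs_le, abs_le] at hv
      unfold Bq
      rw [mem_product, mem_Ico, mem_Ico]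
      omega

end Vale.Agent.P167.H871.Q
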