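import Vale.Agent.P167.H871.Q.LF1
import Vale.Agent.P167.H871.Q.LF2
import Vale.Agent.P167.H662.Z.Near

/-!
# P167, general `q`, START (P2S): the product over the loops off the holes is not zero, in terms of
shields around the special points of zero type
-/

namespace Vale.Agent.P167.H871.Q

open Finset
open Vale.Agent.P167.Top
open Vale.Agent.P167.FK
open Vale.Agent.P167.E6 (IsPolygon Encloses dir face)
open Vale.Agent.P145.FB (PConn)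
open Vale.Agent.P167.XDL (bS mem_bS)
open Vale.Agent.P167.H825 (enl pdir Marks FlowIn)
open Vale.Agent.P167.H825.Q (Row Bc jpos)
open Vale.Agent.P167.H680.T (rowC uI mem_uI frows)
open Vale.Agent.P167.H199 (Gap ret Returns)
open Vale.Agent.P167.H398.Q (hB Tjun)
open Vale.Agent.P167.H685 (LE mem_LE)
open Vale.Agent.P167.H632 (cs pr)
open Vale.Agent.P167.H166N (Hs Qs NX)
open Vale.Agent.P167.H704.S (NH)
open Vale.Agent.P167.QX (ExtPot exc VisL TO fLp)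
open Vale.Agent.P167.H945.Q (jn Plain)
open Vale.Agent.P167.H662.Z (Spc K1 K2 K3 yO yI z1 z1_crn z2_fw z2_db z3_enl z3_row z3_uI z3_out crn)
open Vale.Agent.P167.Enl (sW eW kOf qN uN sR eR frame_fam BGap gn_big vec_pred uN_mod qN_kOf tB_lt vp)

variable {l : ℕ} {p : ZMod l → ℤ × ℤ} {n : ℕ} {S₀ : Finset (ℤ × ℤ)} {Q : Marks} {bc : Bc}
  {θ β : ℝ}

theorem K12 {r : Row} (hθ : 0 < θ) (h : K1 θ r) : ¬ K2 θ r := by
  rintro ⟨h1, -⟩
  rw [h.1] at h1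
  linarith

theorem K32 {r : Row} (h : K3 θ r) : ¬ K2 θ r := by
  rintro ⟨-, h1⟩
  rw [h.2] at h1
  norm_num at h1

/-- The outer site of a step. -/
theorem yK_op (hp : IsPolygon p) (hD : Encloses p S₀) {t i σ : ℕ} (ht : t < n) (hi : i < l)
    (hσ : σ < n) : yK (qN p n t) (uN p n t) (kOf l n t i σ) =
      vp p n i σ + dir (pdir p i - 1) := by
  unfold yK
  rw [qN_kOf hi ht hσ, vec_pred (uN_mod hp hD ht hi hσ)]

/-- **The special points of zero type.** -/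
theorem zro_spc (hp : IsPolygon p) (hD : Encloses p S₀) (hQ : Q.Ok) {g δ : ℝ} (hg : Gap Q l g)
    (hδ : 0 < δ) (hδg : 4 * δ ≤ g) (hn : 16 ≤ δ * n) (hb : bc.Ok l Q) (hbg : BGap l Q g bc)
    (hθ : 0 < θ) (hθ' : 3 * θ ≤ Real.pi) {σ : ℤ} {φ : ℤ × ℤ → ℤ}
    (h : ¬ Zro θ β (bc.ka l n (Enl.tB n Q)) (qN p n (Enl.tB n Q)) (uN p n (Enl.tB n Q)) σ φ) :
    ∃ x, Spc l Q bc x ∧ ¬ K2 θ (frows θ β p Q n ⌊δ * n⌋₊ bc x) ∧ φ (yO p n Q bc x.1) ≠ 0 := by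
  have hl : 0 < l := by have := hp.1; omega
  obtain ⟨b1, b2, b3, b4, b5⟩ := gn_big hQ hg hδg hn hl
  have ht := tB_lt (n := n) hQ b5
  -- the base point
  have e0 : yK (qN p n (Enl.tB n Q)) (uN p n (Enl.tB n Q)) 0 = yO p n Q bc 0 := by
    have h1 := yK_op hp hD ht hl ht
    have h2 : kOf l n (Enl.tB n Q) 0 (Enl.tB n Q) = 0 := by
      unfold kOf
      rw [if_pos (by omega)]
      omega
    rw [h2] at h1
    rw [h1]
    unfold yO yI jpos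
    rw [if_pos rfl]
  rcases bc with _ | _ | ⟨ia, ta⟩
  · obtain ⟨x₀, h0, hx⟩ := H662.Z.spc_fw (l := l) (bc := Bc.free) hQ hl (Or.inl rfl)
    have hs := (hx x₀).2 rfl
    have h3 := z2_fw (β := β) hQ hb hg hbg hδ hδg hn hp hD hθ hs (Or.inl rfl)
    refine ⟨x₀, hs, K32 h3.1, ?_⟩
    intro hz
    apply h
    rw [h0] at hz
    refine ⟨fun _ _ => ?_, fun _ _ => ?_, fun _ h1 _ => ?_, fun _ _ _ => ?_⟩
    · rw [e0]; exact hz
    · rw [e0]; exact hz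
    · exact absurd h1 (lt_irrefl _)
    · rw [e0]; exact hz
  · obtain ⟨x₀, h0, hx⟩ := H662.Z.spc_fw (l := l) (bc := Bc.wired) hQ hl (Or.inr rfl)
    have hs := (hx x₀).2 rfl
    have h3 := z2_fw (β := β) hQ hb hg hbg hδ hδg hn hp hD hθ hs (Or.inr rfl)
    refine ⟨x₀, hs, K32 h3.1, ?_⟩
    intro hz
    apply h
    rw [h0] at hz
    refine ⟨fun _ _ => ?_, fun _ _ => ?_, fun h1 _ _ => ?_, fun _ _ _ => ?_⟩
    · rw [e0]; exact hz
    · rw [e0]; exact hz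
    · exact absurd h1 (lt_irrefl _)
    · rw [e0]; exact hz
  · obtain ⟨x₀, x₁, h0, h1, hne, hx⟩ := H662.Z.spc_dob hQ hb
    have hs0 := (hx x₀).2 (Or.inl rfl)
    have hs1 := (hx x₁).2 (Or.inr rfl)
    have hb' := hb
    obtain ⟨c1, c2, c3, c4, c5⟩ := hb
    have hτ : ⌊ta * n⌋₊ < n := by
      have hn1 : (0 : ℝ) < n := by exact_mod_cast b5
      rw [Nat.floor_lt (by positivity)]
      nlinarith
    have ea : yK (qN p n (Enl.tB n Q)) (uN p n (Enl.tB n Q))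
        ((Bc.dob ia ta).ka l n (Enl.tB n Q)) = yO p n Q (Bc.dob ia ta) ia := by
      have h1 := yK_op hp hD ht c2 hτ
      show yK _ _ (kOf l n (Enl.tB n Q) ia ⌊ta * n⌋₊) = _
      rw [h1]
      unfold yO yI jpos
      rw [if_neg (by omega)]
      rfl
    have hka : (Bc.dob ia ta).ka l n (Enl.tB n Q) < l * n := Enl.kOf_lt c2 hτ ht
    have hka0 : 0 < (Bc.dob ia ta).ka l n (Enl.tB n Q) := by
      have h8 : 1 * n ≤ ia * n := Nat.mul_le_mul_right n c1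
      show 0 < kOf l n (Enl.tB n Q) ia ⌊ta * n⌋₊
      unfold kOf
      rw [if_pos (by omega)]
      omega
    have d0 := z2_db (θ := θ) (β := β) hQ hb' hg hbg hδ hδg hn hp hD hθ hθ' hs0 rfl
    have d1 := z2_db (θ := θ) (β := β) hQ hb' hg hbg hδ hδg hn hp hD hθ hθ' hs1 rfl
    by_contra hcon
    push Not at hcon
    apply h
    refine ⟨fun h2 _ => absurd h2 (by omega), fun h2 _ => absurd h2 (by omega), fun _ _ h2 => ?_,
      fun _ _ h2 => ?_⟩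
    · rw [ea, ← h1]
      refine hcon x₁ hs1 (K12 hθ ((d1.1 h2).2 ?_).1)
      rw [h1]
      omega
    · rw [e0, ← h0]
      exact hcon x₀ hs0 (K12 hθ ((d0.2 h2).1 h0).1)

/-- **The product over the loops off the holes is not zero if there are shields around the special
points of zero type.** -/
theorem frame_TO_ne3 (hθ : 0 < θ) (hθ' : θ ≤ Real.pi / 3)
    (hβ : β = (θ - Real.pi) / 2 ∨ β = (Real.pi - 3 * θ) / 2) (hp : IsPolygon p)
    (hD : Encloses p S₀) (hQ : Q.Ok) {g δ : ℝ} (hg : Gap Q l g) (hδ : 0 < δ) (hδg : 4 * δ ≤ g)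
    (hn : 16 ≤ δ * n) (hb : bc.Ok l Q) (hbg : BGap l Q g bc) {R ρ : ℤ}
    (hR : (⌊δ * n⌋₊ : ℤ) + 4 ≤ R) (hρ : 1 < ρ) (hρ2 : 8 * (ρ : ℝ) ≤ g * n) {ω : Cfg} (hω : Good ω)
    (hfz : H398.Q.Frz (frows θ β p Q n ⌊δ * n⌋₊ bc) ω)
    (hT : Tjun θ (frows θ β p Q n ⌊δ * n⌋₊ bc) ρ ω ≠ 0)
    (hsp : ∀ x, Spc l Q bc x → ¬ K2 θ (frows θ β p Q n ⌊δ * n⌋₊ bc x) →
      ∃ (e' e'' : Bool) (v t : ℤ × ℤ) (m m' M M' : ℤ), m ≤ m' ∧ m' + 2 ≤ ρ ∧
        (∀ w, w ∈ enl S₀ n ∨ w ∈ uI (frows θ β p Q n ⌊δ * n⌋₊ bc) →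
          nm (w - yO p n Q bc x.1) + 2 ≤ M) ∧ M ≤ M' ∧
        ω ∈ NX e'' (yO p n Q bc x.1) M M' ∧ (v.1 + v.2) % 2 = pr e' ∧
        PConn (cs e' ω ∩ {u | u ∉ enl S₀ n ∧ u ∉ uI (frows θ β p Q n ⌊δ * n⌋₊ bc)})
          Set.univ v t ∧
        M' + 2 ≤ nm (t - yO p n Q bc x.1) ∧
        (v = yO p n Q bc x.1 ∨ (v ∈ Hs (pdir p x.1) (yO p n Q bc x.1) ∧
          nm (v - yO p n Q bc x.1) ≤ m ∧ ω ∈ NH e' (pdir p x.1) (yO p n Q bc x.1) m m'))) :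
    TO θ (uI (frows θ β p Q n ⌊δ * n⌋₊ bc)) (rowC θ (frows θ β p Q n ⌊δ * n⌋₊ bc) 0).ph
      (hB p Q n R : Set (ℤ × ℤ)) ω ≠ 0 := by
  have h3θ : 3 * θ ≤ Real.pi := by linarith
  refine frame_TO_ne2 hθ hθ' hβ hp hD hQ hg hδ hδg hn hb hbg hR hρ hρ2 hω hfz hT ?_
  intro ℓ hℓ hv y hy y1 y2 y5 σ φ hφ hz
  obtain ⟨x, hx, hk2, h0⟩ := zro_spc hp hD hQ hg hδ hδg hn hb hbg hθ h3θ hz
  obtain ⟨e', e'', v, t, m, m', M, M', h2, h4, hin, hM, hconf, hpar, hpath, ht, hcase⟩ :=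
    hsp x hx hk2
  obtain ⟨y3, ⟨c1, -⟩ | ⟨-, y4, -⟩⟩ := (frame_fam hp hD hQ hg hδ hδg hn hb).cases hω
    (fun _ hv => frame_end hp hD hQ hg hδ hδg hn hR hv)
    (fun _ h1 h2 => frame_hole hp hD hQ hg hδ hδg hn hR h1 h2) (mem_LE.1 hℓ).1 hv hy y1 y2
  · exact absurd c1 y5
  have hgn : 64 ≤ g * n := by
    have : 4 * δ * n ≤ g * n := mul_le_mul_of_nonneg_right hδg (Nat.cast_nonneg n)
    linarith
  refine ⟨x, (z1 hQ hb hg hbg hδ hδg hn hp hD hθ h3θ hβ).2 hx, fun k hk => ?_⟩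
  have hnear := lf1 (D := enl S₀ n) (I := uI (frows θ β p Q n ⌊δ * n⌋₊ bc)) (M0 := ρ)
    (r0 := pdir p x.1) (p := yO p n Q bc x.1) ?_ h2 (by omega)
    (fun w hw => hin w (mem_union.1 hw)) hM hconf hpar ?_ ht hcase y1 y2 y3 y4 hφ h0 k hk
  · have e1 := z1_crn (p := p) (θ := θ) (β := β) hQ hg hbg hδ hδg hn hx
    have aJ : Alm ((frows θ β p Q n ⌊δ * n⌋₊ bc x).sq (frows θ β p Q n ⌊δ * n⌋₊ bc x).k0) ρ
      ((jn θ (frows θ β p Q n ⌊δ * n⌋₊ bc x) true).bx ρ) := alm_J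
    refine aJ.mem ?_
    have h5 : nm (crn (frows θ β p Q n ⌊δ * n⌋₊ bc x) (H662.Z.ex (pdir p x.1)) -
        (frows θ β p Q n ⌊δ * n⌋₊ bc x).sq (frows θ β p Q n ⌊δ * n⌋₊ bc x).k0) ≤ 1 := by
      unfold crn nm
      simp only [Prod.fst_sub, Prod.snd_sub]
      rw [max_le_iff, abs_le, abs_le]
      split_ifs <;> simp only <;> omega
    rw [e1] at h5
    have h6 := nm_tri hnear h5
    omega
  · intro w hw
    have hw' : (nm (w - yO p n Q bc x.1) : ℝ) ≤ g * n / 4 := by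
      have : (nm (w - yO p n Q bc x.1) : ℝ) ≤ ρ := by exact_mod_cast hw
      linarith
    rw [mem_union, not_or]
    constructor
    · rintro ⟨g1, g2⟩
      rw [z3_enl hp hD hQ hg hbg hδ hδg hn hx hw', not_not] at g1
      rw [z3_uI hp hQ hg hbg hδ hδg hn hx hw', z3_row hQ hg hbg hδ hδg hn hx hw'] at g2
      by_contra g3
      exact g2 ⟨g1, g3⟩
    · exact z3_out hp hD hQ hg hbg hδ hδg hn hx hw'
  · refine PConn.mono ?_ subset_rfl hpath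
    rintro u ⟨u1, u2, u3⟩
    refine ⟨u1, ?_⟩
    simp only [Set.mem_ofPred_eq, mem_union, not_or]
    exact ⟨u2, u3⟩

end Vale.Agent.P167.H871.Q
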