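import Vale.Agent.P167.QX.L1E
import Vale.Agent.P167.H592.U.Near
import Vale.Agent.P167.H398.Q.Cnt

/-!
# P167, general `q`, START: the functional of a frame with flow, up to the loops which meet the rows

`frame_flow`: the exits, the inner loops and the loops off the rows; only the product over the loops
which meet the rows is left.
-/

namespace Vale.Agent.P167.Enl

open Finset
open Vale.Agent.P167.BR hiding dv
open Vale.Agent.P167.FK (Good)
open Vale.Agent.P167.E6 (IsPolygon Encloses)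
open Vale.Agent.P167.XDL (bS mem_bS)
open Vale.Agent.P167.H825 (enl Marks FlowIn epos dv)
open Vale.Agent.P167.H825.Q (Row Bc RowsP)
open Vale.Agent.P167.H680.T (rowC uI frows mem_uI nm_ht)
open Vale.Agent.P167.H945.Q (nm_sub_le nm_comm)
open Vale.Agent.P167.H199 (Gap)
open Vale.Agent.P167.H685 (LE mem_LE)
open Vale.Agent.P167.H562.QM (MajA)
open Vale.Agent.P167.H562.MAJ (Sm)
open Vale.Agent.P167.QX (RT fLp LpO LpO_le RT_prod)
open Vale.Agent.P167.H398.Q (exits_card)

variable {l : ℕ} {p : ZMod l → ℤ × ℤ} {n : ℕ} {S₀ : Finset (ℤ × ℤ)} {Q : Marks} {bc : Bc}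
  {θ β : ℝ} {ω : Cfg} {c : Ed → ℝ} {κ κ' B : ℝ}

/-- The rows of the frame are admissible. -/
theorem frame_adm (hp : IsPolygon p) (hD : Encloses p S₀) (hQ : Q.Ok) {g δ : ℝ} (hg : Gap Q l g)
    (hδ : 0 < δ) (hδg : 4 * δ ≤ g) (hn : 16 ≤ δ * n) :
    (rowC θ (frows θ β p Q n ⌊δ * n⌋₊ bc) 0).Adm (δ / 2) (R0 p S₀ + 3) 0 n := by
  have hn' : 0 < n := by
    rcases Nat.eq_zero_or_pos n with h | h
    · rw [h] at hn; norm_num at hn
    · exact h
  have hR := rows_marks (p := p) hQ hg hδ hδg hn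
  have hm : δ * n - 2 ≤ ((⌊δ * n⌋₊ - 1 : ℕ) : ℝ) := by
    have h3 : 1 ≤ ⌊δ * n⌋₊ := Nat.le_floor (by push_cast; linarith)
    rw [Nat.cast_sub h3]
    have := Nat.lt_floor_add_one (δ * n)
    push_cast
    linarith
  exact hR.adm hp hD hδ hn' (by linarith) (by linarith) (fun x => frow_S _ _ _)
    (H680.T.flowIn_zero le_rfl)

/-- **The functional of a frame with flow.** -/
theorem frame_flow (hp : IsPolygon p) (hD : Encloses p S₀) (hQ : Q.Ok) {g δ : ℝ} (hg : Gap Q l g)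
    (hδ : 0 < δ) (hδg : 4 * δ ≤ g) (hn : 16 ≤ δ * n) (hbg : BGap l Q g bc) (hθ : 0 < θ)
    (hθ' : θ ≤ Real.pi / 3) (hβ : β = (θ - Real.pi) / 2 ∨ β = (Real.pi - 3 * θ) / 2)
    (hgd : Good ω) (hcf : (Function.support c).Finite) (hc : FlowIn (enl S₀ n) κ B n c)
    (hκ' : 0 < κ') (hB : 0 ≤ B) (hBκ : B * κ' ^ 2 ≤ 1 / 2) (hκκ : κ' * n + 16 ≤ κ * n)
    {Z : Finset (ℤ × ℤ)} {N : ℕ} (hZ : ∀ v : ℤ × ℤ, (nm v : ℝ) ≤ (R0 p S₀ + 4) * n → v ∈ Z)
    (hN : MajA Z (κ' * n) ω N) :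
    |RT θ (uI (frows θ β p Q n ⌊δ * n⌋₊ bc)) (rowC θ (frows θ β p Q n ⌊δ * n⌋₊ bc) c).ph ω| ≤
      (∏ x, (2 * Real.sin θ) ^ ((frows θ β p Q n ⌊δ * n⌋₊ bc x).L + 1)) *
        (((Real.cos θ)⁻¹) ^ N * Real.exp (-(Real.tan θ * Sm (dv c) (κ' * n) ω)) *
          |∏ ℓ ∈ LE ω (bS (uI (frows θ β p Q n ⌊δ * n⌋₊ bc))),
            fLp θ (uI (frows θ β p Q n ⌊δ * n⌋₊ bc))
              (rowC θ (frows θ β p Q n ⌊δ * n⌋₊ bc) c).ph ω ℓ|) := by
  classical
  have hpi := Real.pi_pos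
  have hs : 0 < Real.sin θ := Real.sin_pos_of_pos_of_lt_pi hθ (by linarith)
  have hc0 : 0 < Real.cos θ := Real.cos_pos_of_mem_Ioo ⟨by linarith, by linarith⟩
  have hc1 : 1 ≤ 2 * Real.cos θ := by
    have := Real.cos_le_cos_of_nonneg_of_le_pi hθ.le (by linarith) hθ'
    rw [Real.cos_pi_div_three] at this
    linarith
  have hn' : 0 < n := by
    rcases Nat.eq_zero_or_pos n with h | h
    · rw [h] at hn; norm_num at hn
    · exact h
  have hn1 : (1 : ℝ) ≤ n := by exact_mod_cast hn'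
  have hκn : 0 < κ' * n := by positivity
  set r := frows θ β p Q n ⌊δ * n⌋₊ bc with hr
  have hA : (rowC θ r 0).Adm (δ / 2) (R0 p S₀ + 3) 0 n := frame_adm hp hD hQ hg hδ hδg hn
  have hn2 : 1 < δ / 2 * n := by linarith
  have hL : ∀ x, 1 ≤ (r x).L := by
    intro x
    have h := (frows_okg (bc := bc) hp hD hQ hθ (by linarith) hβ hg hbg hδ hδg hn x).len
    change g / 4 * n ≤ ((r x).L : ℝ) at h
    have h3 : (0 : ℝ) < (r x).L := by nlinarith
    exact_mod_cast h3
  have hex := exits_card hA hn2 hL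
  -- the phases off the rows
  have hcphi : ∀ e ∉ bS (uI r), (rowC θ r c).ph e false + (rowC θ r c).ph e true = c e := by
    intro e he
    have hS : ∀ k, ((rowC θ r c).w k).a e = 0 := by
      intro k
      apply ((rowC θ r c).w k).off
      intro h
      apply he
      have h2 := H680.T.adm_S hA hn2 (fun _ => rfl) (r := r) (z := fun _ => 0)
      rw [← h2]
      exact H680.T.mem_S_iff.2 ⟨k, h⟩
    show (∑ k, ((rowC θ r c).w k).a e false + c e / 2) +
      (∑ k, ((rowC θ r c).w k).a e true + c e / 2) = c e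
    rw [sum_eq_zero fun k _ => by rw [hS k]; rfl, sum_eq_zero fun k _ => by rw [hS k]; rfl]
    ring
  obtain ⟨𝓕, h𝓕, hLp⟩ := LpO_le (ω := ω) (K := uI r) hθ hθ' hcf hcphi (d := κ' * n)
    (fun ℓ hl hsl => H436.G_small hκ' hB hBκ hn' hc.dle hl hsl) (by
      rintro ℓ hl hsl ⟨e, he, hce⟩ e' he' hK
      have key : ∀ v ∈ uI r, ∀ y ∈ ℓ, κ * n - 1 ≤ (nm (hdv y - v) : ℝ) + κ' * n := by
        intro v hv y hy
        have g1 := row_flow hp hD hQ hg hδ hδg hn hc hv hce
        have g2 : (nm (v - epos e) : ℝ) ≤ nm (epos e - hdv e) + nm (hdv e - hdv y) +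
            nm (hdv y - v) := by
          have a0 := nm_comm v (epos e)
          have a1 := nm_sub_le (epos e) (hdv e) v
          have a2 := nm_sub_le (hdv e) (hdv y) v
          have : nm (v - epos e) ≤ nm (epos e - hdv e) + nm (hdv e - hdv y) +
            nm (hdv y - v) := by linarith
          exact_mod_cast this
        have g3 : (nm (epos e - hdv e) : ℝ) ≤ 1 := by exact_mod_cast (QX.nm_pos e).1
        have g4 := hsl _ (mem_image_of_mem hdv he) _ (mem_image_of_mem hdv hy)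
        linarith
      rcases mem_eds.1 hK with h | h
      · have g := key _ h e' he'
        rw [sub_self] at g
        have : (nm (0 : ℤ × ℤ) : ℝ) = 0 := by simp [nm]
        rw [this] at g
        linarith
      · have g := key _ h e' he'
        have : (nm (hdv e' - tlv e') : ℝ) ≤ 1 := by exact_mod_cast nm_ht e'
        linarith)
  -- the number of the big loops
  have hcount : 𝓕.card ≤ N := by
    refine hN _ (fun γ hγ => H945.isSeg_of_loop (h𝓕 γ hγ).1) (fun γ hγ γ' hγ' hne => ?_)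
      fun γ hγ => ?_
    · rw [Finset.disjoint_left]
      intro x hx hx'
      exact hne ((h𝓕 γ hγ).1.eq_of_mem (h𝓕 γ' hγ').1 hx hx')
    · obtain ⟨hl, -, hsm, e, he, hce⟩ := h𝓕 γ hγ
      refine ⟨⟨e, he, hZ _ ?_⟩, ?_⟩
      · have h1 : epos e ∈ enl S₀ n := by
          refine hc.sup e hce _ ?_
          rw [sub_self]
          have e0 : nm (0 : ℤ × ℤ) = 0 := by simp [nm]
          rw [e0]
          push_cast
          linarith
        have h2 := nm_enl (p := p) h1
        have h3 : (nm (hdv e) : ℝ) ≤ nm (hdv e - epos e) + nm (epos e) := by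
          have := nm_sub_le (hdv e) (epos e) 0
          rw [sub_zero, sub_zero] at this
          exact_mod_cast this
        have h4 : (nm (hdv e - epos e) : ℝ) ≤ 1 := by
          rw [nm_comm]
          exact_mod_cast (QX.nm_pos e).1
        nlinarith
      · unfold Small at hsm
        push Not at hsm
        obtain ⟨u, hu, v, hv, huv⟩ := hsm
        obtain ⟨e1, h1, rfl⟩ := mem_image.1 hu
        obtain ⟨e2, h2, rfl⟩ := mem_image.1 hv
        exact ⟨e1, h1, e2, h2, huv⟩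
  -- conclusion
  have ha : 1 ≤ (Real.cos θ)⁻¹ := (one_le_inv₀ hc0).2 (Real.cos_le_one _)
  have hP1 : 0 ≤ ∏ i, (2 * Real.sin θ) ^ ((r i).L + 1) := prod_nonneg fun _ _ => by positivity
  have hin : |((2 * Real.cos θ) ^ ((pcs ω (uI r)).filter (IsLp (uI r))).card)⁻¹| ≤ 1 := by
    rw [abs_of_nonneg (by positivity)]
    exact inv_le_one_of_one_le₀ (one_le_pow₀ hc1)
  rw [RT_prod hgd hs.ne' hc0.ne', hex, abs_mul, abs_mul, abs_mul,
    abs_of_nonneg (by positivity : 0 ≤ (2 * Real.sin θ) ^ (∑ i, ((r i).L + 1))),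
    ← prod_pow_eq_pow_sum]
  set E := Real.exp (-(Real.tan θ * Sm (dv c) (κ' * n) ω)) with hE
  have hE0 : 0 < E := Real.exp_pos _
  set X := |∏ ℓ ∈ LE ω (bS (uI r)), fLp θ (uI r) (rowC θ r c).ph ω ℓ| with hX
  have hX0 : 0 ≤ X := abs_nonneg _
  calc (∏ i, (2 * Real.sin θ) ^ ((r i).L + 1)) *
        |((2 * Real.cos θ) ^ ((pcs ω (uI r)).filter (IsLp (uI r))).card)⁻¹| *
        |LpO θ (uI r) (rowC θ r c).ph ω| * X
      ≤ (∏ i, (2 * Real.sin θ) ^ ((r i).L + 1)) * 1 * (((Real.cos θ)⁻¹) ^ 𝓕.card * E) * X := by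
        refine mul_le_mul_of_nonneg_right (mul_le_mul (mul_le_mul_of_nonneg_left hin hP1) hLp
          (abs_nonneg _) (by positivity)) hX0
    _ ≤ (∏ i, (2 * Real.sin θ) ^ ((r i).L + 1)) * 1 * (((Real.cos θ)⁻¹) ^ N * E) * X := by
        refine mul_le_mul_of_nonneg_right (mul_le_mul_of_nonneg_left
          (mul_le_mul_of_nonneg_right (pow_le_pow_right₀ ha hcount) hE0.le)
          (by rw [mul_one]; exact hP1)) hX0
    _ = _ := by ring

end Vale.Agent.P167.Enl
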