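import Vale.Agent.P167.H592.U.Inst944
import Vale.Agent.P167.H592.U.Near
import Vale.Agent.P167.H871.Q.ValE

/-!
# P167, general `q`, START: the strands near a mark which do not visit the holes are natural

`frame_nat`: a strand of a row of the frame near a mark which stays in a box and does not visit the
boxes at the marks has relative weight `1` (both feet are on the same face of the row).
-/

namespace Vale.Agent.P167.Enl

open Finset
open Vale.Agent.P167.BR hiding dv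
open Vale.Agent.P167.FK (Good)
open Vale.Agent.P167.E6 (IsPolygon Encloses)
open Vale.Agent.P167.XDL (bS mem_bS)
open Vale.Agent.P167.H199 (ret Returns ret_le Gap)
open Vale.Agent.P167.H825 (enl pdir Marks)
open Vale.Agent.P167.H825.Q (Row Bc)
open Vale.Agent.P167.H680.T (rowC uI frows mem_uI)
open Vale.Agent.P167.H662 (hsite)
open Vale.Agent.P167.H398.Q (hB)
open Vale.Agent.P167.H945.Q (faces Plain ctr)
open Vale.Agent.P167.QX (rS InB Bx mem_Bx FrmG cs exc_last out_stays returns_good lst)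
open Vale.Agent.P167.H871.Q (Str ee w0 w1 sqm nm_sqm rays_row inB_stays tip_cases outer_mid
  mem_lrs' mem_rI nm_swap)

variable {l : ℕ} {p : ZMod l → ℤ × ℤ} {n : ℕ} {S₀ : Finset (ℤ × ℤ)} {Q : Marks} {bc : Bc}
  {θ β : ℝ} {ω : Cfg} {e : Ed} {p' q' : ℤ × ℤ} {w S : ℤ} {I B K : Finset (ℤ × ℤ)}

/-- Squares of a box are near each other. -/
theorem nm_Bx {u v : ℤ × ℤ} (h1 : q'.1 ≤ p'.1 + w) (h2 : q'.2 ≤ p'.2 + w) (hu : u ∈ Bx p' q')
    (hv : v ∈ Bx p' q') : nm (u - v) < w := by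
  rw [mem_Bx] at hu hv
  unfold nm
  simp only [Prod.fst_sub, Prod.snd_sub]
  rw [max_lt_iff, abs_lt, abs_lt]
  omega

/-- An excursion of a row in a box which sees this row only does not visit the other rows. -/
theorem exc_own (hg : Good ω) (hI : I ⊆ K) (he : e ∈ bS K) (he1 : hdv e ∉ K)
    (hB : InB B I ω e) (hsep : ∀ v ∈ B, v ∈ K → v ∈ I) :
    (∀ k < ret (nx ω) (bS I) e, hdv ((nx ω)^[k] e) ∉ K) ∧
      ret (nx ω) (bS I) e ≤ ret (nx ω) (bS K) e := by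
  have h1 : ∀ k < ret (nx ω) (bS I) e, hdv ((nx ω)^[k] e) ∉ K := fun k hk hK =>
    out_stays (fun h => he1 (hI h)) hk (hsep _ (hB.2.2 k hk.le) hK)
  refine ⟨h1, ?_⟩
  by_contra hlt
  push Not at hlt
  have hr : Returns (nx ω) (bS K) e := returns_good hg he
  obtain ⟨g1, g2⟩ := hr.spec
  rw [mem_bS] at g2
  rcases g2 with ⟨g2, -⟩ | ⟨-, g2⟩
  · exact h1 _ hlt g2
  · obtain ⟨j, hj⟩ : ∃ j, ret (nx ω) (bS K) e = j + 1 := ⟨ret (nx ω) (bS K) e - 1, by omega⟩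
    rw [hj, Function.iterate_succ_apply', tlv_nx] at g2
    exact h1 j (by omega) g2

/-- **The strands near a mark which do not visit the holes are natural.** -/
theorem frame_nat (hp : IsPolygon p) (hD : Encloses p S₀) (hQ : Q.Ok) {g δ : ℝ} (hg : Gap Q l g)
    (hδ : 0 < δ) (hδg : 4 * δ ≤ g) (hn : 16 ≤ δ * n) (hb : bc.Ok l Q) (hbg : BGap l Q g bc)
    (hθ : 0 < θ) (hθ' : θ ≤ Real.pi / 3) (hβ : β = (θ - Real.pi) / 2 ∨ β = (Real.pi - 3 * θ) / 2)
    (hgd : Good ω) (hf : H398.Q.Frz (frows θ β p Q n ⌊δ * n⌋₊ bc) ω)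
    (x z : Fin l × Fin (Q.m + 1)) (he : e ∈ bS (uI (frows θ β p Q n ⌊δ * n⌋₊ bc)))
    (he1 : hdv e ∉ uI (frows θ β p Q n ⌊δ * n⌋₊ bc))
    (he2 : tlv e ∈ (frows θ β p Q n ⌊δ * n⌋₊ bc x).I)
    (hBx : InB (Bx p' q') (frows θ β p Q n ⌊δ * n⌋₊ bc x).I ω e) (hw1 : q'.1 ≤ p'.1 + w)
    (hw2 : q'.2 ≤ p'.2 + w) (hw : 8 * (w : ℝ) ≤ g * n)
    (hsep : ∀ v ∈ Bx p' q', v ∈ uI (frows θ β p Q n ⌊δ * n⌋₊ bc) →
      v ∈ (frows θ β p Q n ⌊δ * n⌋₊ bc x).I)
    (hz : nm (tlv e - hsite p Q n z) ≤ S) (hS : 8 * (S : ℝ) ≤ g * n)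
    (hH : ∀ k < ret (nx ω) (bS (uI (frows θ β p Q n ⌊δ * n⌋₊ bc))) e,
      hdv ((nx ω)^[k] e) ∉ hB p Q n (⌊δ * n⌋₊ + 4)) :
    rS θ (frows θ β p Q n ⌊δ * n⌋₊ bc x).I ((frows θ β p Q n ⌊δ * n⌋₊ bc x).wall θ 0).a ω e = 1 := by
  have hpi := Real.pi_pos
  have hs : 0 < Real.sin θ := Real.sin_pos_of_pos_of_lt_pi hθ (by linarith)
  have hc1 : 1 ≤ 2 * Real.cos θ := by
    have := Real.cos_le_cos_of_nonneg_of_le_pi hθ.le (by linarith) hθ'
    rw [Real.cos_pi_div_three] at this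
    linarith
  have hθ2 : Real.sin θ ≤ Real.sin (2 * θ) := by rw [Real.sin_two_mul]; nlinarith
  have hgn : 64 ≤ g * n := by
    have : 4 * δ * n ≤ g * n := mul_le_mul_of_nonneg_right hδg (Nat.cast_nonneg n)
    linarith
  have hok := frows_okg (bc := bc) hp hD hQ hθ (by linarith) hβ hg hbg hδ hδg hn x
  have hG := frmG (θ := θ) (β := β) (bc := bc) hp hD hQ hg hδ hδg hn
  have hends := fun b => w_hB (θ := θ) (β := β) (bc := bc) hp hQ hg hδ hδg hn x b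
  obtain ⟨b0, hface⟩ := nat_face (θ := θ) (β := β) (bc := bc) hp hD hQ hg hδ hδg hn x
  have hmark := fun hx => ctr_mark hp hD hQ hg hδ hδg hn hb hbg hθ (by linarith) hβ (x := x) hx z
  have hsub : (frows θ β p Q n ⌊δ * n⌋₊ bc x).I ⊆ uI (frows θ β p Q n ⌊δ * n⌋₊ bc) :=
    fun v hv => mem_uI.2 ⟨x, hv⟩
  obtain ⟨hnK, hret⟩ := exc_own hgd hsub he he1 hBx hsep
  have hrf := H871.Q.Frz.of_ok hok (hf x)
  generalize hrr : frows θ β p Q n ⌊δ * n⌋₊ bc x = r at *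
  have hlen := hok.len
  have hw0 : 0 < w := by
    have := nm_Bx hw1 hw2 hBx.2.1 hBx.2.1
    rw [sub_self] at this
    have e0 : nm (0 : ℤ × ℤ) = 0 := by simp [nm]
    omega
  have hLw : w < (r.L : ℤ) := by
    have h1 : (0 : ℝ) < w := by exact_mod_cast hw0
    have : (w : ℝ) < ((r.L : ℤ) : ℝ) := by push_cast; linarith
    exact_mod_cast this
  have hL : 1 ≤ r.L := by omega
  have hR : H871.Q.Rays r.I (Bx p' q' : Set (ℤ × ℤ)) := by
    refine rays_row ?_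
    have h1 := he2
    have h2 := mem_Bx.1 hBx.2.1
    rw [mem_rI] at h1
    by_cases ho : r.o = true
    · rw [if_pos ho] at h1 ⊢
      rw [← h1.1]
      exact h2.2
    · rw [if_neg ho] at h1 ⊢
      rw [← h1.1]
      exact h2.1
  obtain ⟨b, h0⟩ : ∃ b, w0 r b ∉ Bx p' q' := by
    by_contra hall
    push Not at hall
    have h1 := nm_Bx hw1 hw2 (hall r.o) (hall (!r.o))
    unfold w0 at h1
    rw [if_pos rfl, if_neg (by cases r.o <;> simp), nm_sqm] at h1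
    have := le_abs_self ((r.L : ℤ) - -1)
    omega
  have hfar : Plain r ∨ (0 < r.k0 → r.k0 < r.L →
      ¬ (r.sq r.k0 ∈ Bx p' q' ∧ r.sq (r.k0 - 1) ∈ Bx p' q')) := by
    by_cases hpl : Plain r
    · exact Or.inl hpl
    · right
      rintro - - ⟨h1, -⟩
      have h2 := hmark hpl
      have h3 := nm_Bx hw1 hw2 h1 hBx.2.1
      have h4 := nm_tri (r.sq r.k0) (tlv e) (hsite p Q n z)
      have h5 : (nm (r.sq r.k0 - hsite p Q n z) : ℝ) ≤ w + S := by
        have : nm (r.sq r.k0 - hsite p Q n z) ≤ w + S := by omega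
        exact_mod_cast this
      change g * n - 2 ≤ (nm (r.sq r.k0 - hsite p Q n z) : ℝ) at h2
      linarith
  have hstr : Str r.I ω e := ⟨fun h => he1 (hsub h), he2, hBx.1⟩
  have hm := hstr.rt.spec.1
  -- the excursion is in the domain or off the domain
  have hH' : ∀ k < ret (nx ω) (bS r.I) e, hdv ((nx ω)^[k] e) ∉ hB p Q n (⌊δ * n⌋₊ + 4) :=
    fun k hk => hH k (lt_of_lt_of_le hk hret)
  have hv : ∀ k < ret (nx ω) (bS r.I) e, hdv ((nx ω)^[k] e) ∈ uI (frows θ β p Q n ⌊δ * n⌋₊ bc) →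
      ω (hdv ((nx ω)^[k] e)) = false := fun k hk h => absurd h (hnK k hk)
  have hdom : ∀ k < ret (nx ω) (bS r.I) e, ∀ j < ret (nx ω) (bS r.I) e,
      hdv ((nx ω)^[k] e) ∈ enl S₀ n → hdv ((nx ω)^[j] e) ∈ enl S₀ n := by
    intro k hk j hj h
    by_cases h1 : cs false e ∈ BR.sites (enl S₀ n)
    · exact (hG.near h1 hH' hv hj).resolve_right (hnK j hj)
    · exact absurd h (hG.far h1 hH' hv hk)
  have hlast := exc_last hstr.out hstr.rt
  obtain ⟨m, hmm⟩ : ∃ m, ret (nx ω) (bS r.I) e = m + 1 :=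
    ⟨ret (nx ω) (bS r.I) e - 1, by omega⟩
  have htl : tlv (lst r.I ω e) = hdv ((nx ω)^[m] e) := by
    unfold lst
    rw [hmm, Function.iterate_succ_apply', tlv_nx]
  have hout : ∀ {y : Ed} {b' : Bool} {v : ℤ × ℤ}, y ∈ faces r b' 0 r.L → (v = hdv y ∨ v = tlv y) →
      v ∉ r.I → (v ∈ enl S₀ n ↔ b' = b0) := by
    intro y b' v hy hvy hvI
    obtain ⟨k, hk, rfl⟩ := mem_image.1 hy
    rw [mem_Ico] at hk
    obtain ⟨f1, f2⟩ := hface k hk.2
    by_cases hbb : b' = b0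
    · subst hbb
      exact iff_of_true (f1 v hvy hvI) rfl
    · obtain rfl : b' = !b0 := by cases b' <;> cases b0 <;> simp_all
      exact iff_of_false (f2 v hvy) hbb
  have hsame : ∀ b1 b2 : Bool, e ∈ faces r b1 0 r.L → lst r.I ω e ∈ faces r b2 0 r.L →
      b1 = b2 := by
    intro b1 b2 h1 h2
    have g1 := hout h1 (Or.inl rfl) hstr.out
    have g2 := hout h2 (Or.inr rfl) hlast.2
    rw [htl] at g2
    have g3 : hdv e ∈ enl S₀ n ↔ hdv ((nx ω)^[m] e) ∈ enl S₀ n :=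
      ⟨hdom 0 (by omega) m (by omega), hdom m (by omega) 0 (by omega)⟩
    rw [g1, g2] at g3
    cases b1 <;> cases b2 <;> cases b0 <;> simp_all
  rcases tip_cases (z := 0) hs hθ2 hL hR h0 hfar hrf hstr (inB_stays hBx) with
    ⟨h1, -, -⟩ | ⟨h1, -, -⟩ | ⟨h1, -⟩ | ⟨h1, -⟩
  · obtain ⟨g1, -, g2, -⟩ := mem_lrs'.1 h1
    exact absurd (hsame _ _ g1 g2) (by cases b <;> simp)
  · obtain ⟨g1, -, g2, -⟩ := mem_lrs'.1 h1
    exact absurd (hsame _ _ g1 g2) (by cases b <;> simp)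
  · exact h1
  · exfalso
    rcases h1 with h1 | h1
    · have h2 := outer_mid (b := b) hL (w := hdv e) ⟨Or.inl (by rw [h1]; rfl), hstr.out⟩
      have h3 := hH' 0 (by omega)
      rw [Function.iterate_zero, id, h2] at h3
      exact h3 (hends b).2
    · have h2 := outer_mid (b := b) hL (w := tlv (lst r.I ω e)) ⟨Or.inr (by rw [h1]; rfl), hlast.2⟩
      have h3 := hH' m (by omega)
      rw [← htl, h2] at h3
      exact h3 (hends b).2

end Vale.Agent.P167.Enl
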