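import Vale.Agent.P167.H871.Q.RowP

/-!
# P167, general `q`: alternation of the strands over the special points of a row
-/

namespace Vale.Agent.P167.H871.Q

open Finset
open Vale.Agent.P167.FK
open Vale.Agent.P167.Top
open Vale.Agent.P167.E6 (IsPolygon Encloses dir)
open Vale.Agent.P167.BR (be outer_eq)
open Vale.Agent.P167.XDL (bS mem_bS)
open Vale.Agent.P167.H199 (strand ret Returns mem_strand ret_min ret_le)
open Vale.Agent.P167.QX (exc mem_exc exc_last ExtPot out_stays returns_good)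
open Vale.Agent.P167.H825.Q (Row)
open Vale.Agent.P167.H945.Q (face faces lrs SP tipL tipR jn)

variable {r : Row} {b : Bool} {v : ℤ × ℤ} {k : ℕ} {ω : Cfg} {B : Set (ℤ × ℤ)} {e x : Ed}
  {I : Finset (ℤ × ℤ)} {A A' : Finset Ed} {lo hi : ℕ}

/-! ### sides and faces -/

theorem sides_face (hL : 1 ≤ r.L) (h : hi ≤ r.L) : sides (rqr r b) lo hi =
    if r.o = b then faces r b (r.L - hi) (r.L - lo) else faces r b lo hi := by
  ext x
  rw [mem_sides]
  by_cases hb : r.o = b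
  · rw [if_pos hb]
    unfold faces
    rw [mem_image]
    constructor
    · rintro ⟨k, h1, h2, rfl⟩
      refine ⟨r.L - 1 - k, by rw [mem_Ico]; omega, ?_⟩
      rw [be_face hL (by omega), fk, if_pos hb]
    · rintro ⟨k, h1, rfl⟩
      rw [mem_Ico] at h1
      refine ⟨r.L - 1 - k, by omega, by omega, ?_⟩
      rw [be_face hL (by omega), fk, if_pos hb]
      congr 1
      omega
  · rw [if_neg hb]
    unfold faces
    rw [mem_image]
    constructor
    · rintro ⟨k, h1, h2, rfl⟩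
      refine ⟨k, by rw [mem_Ico]; omega, ?_⟩
      rw [be_face hL (by omega), fk, if_neg hb]
    · rintro ⟨k, h1, rfl⟩
      rw [mem_Ico] at h1
      refine ⟨k, by omega, by omega, ?_⟩
      rw [be_face hL (by omega), fk, if_neg hb]

theorem sides_face' (hL : 1 ≤ r.L) : sides (rqr r b) (r.L + 1) (2 * r.L + 1) =
    faces r (!b) 0 r.L := by
  ext x
  rw [mem_sides]
  unfold faces
  rw [mem_image]
  constructor
  · rintro ⟨k, h1, h2, rfl⟩
    obtain ⟨m, rfl⟩ : ∃ m, k = r.L + 1 + m := ⟨k - (r.L + 1), by omega⟩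
    refine ⟨fk r (!b) m, ?_, (be_face' hL (by omega)).symm⟩
    unfold fk
    rw [mem_Ico]
    split_ifs <;> omega
  · rintro ⟨k, h1, rfl⟩
    rw [mem_Ico] at h1
    refine ⟨r.L + 1 + fk r (!b) k, by omega, ?_, ?_⟩
    · unfold fk
      split_ifs <;> omega
    · have h2 : fk r (!b) k < r.L := by unfold fk; split_ifs <;> omega
      rw [be_face' hL h2]
      congr 1
      unfold fk
      split_ifs <;> omega

theorem faces_bS (hL : 1 ≤ r.L) (h : hi ≤ r.L) : faces r b lo hi ⊆ bS r.I := by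
  intro x hx
  unfold faces at hx
  rw [mem_image] at hx
  obtain ⟨k, h1, rfl⟩ := hx
  rw [mem_Ico] at h1
  have h2 : fk r b k < r.L := by unfold fk; split_ifs <;> omega
  have h3 : fk r b (fk r b k) = k := by unfold fk; split_ifs <;> omega
  have h4 := be_bS (rqr_polygon (r := r) (b := b) hL) (rqr_encloses hL) (fk r b k)
  rw [be_face hL h2, h3] at h4
  exact h4

/-! ### the squares at the ends -/

/-- The square at the position `t` of the line of the row. -/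
def sqm (r : Row) (t : ℤ) : ℤ × ℤ := if r.o then (r.x.1 + t, r.x.2) else (r.x.1, r.x.2 + t)

/-- The outer square at the first corner of the face `b`. -/
def w0 (r : Row) (b : Bool) : ℤ × ℤ := sqm r (if r.o = b then r.L else -1)

/-- The outer square at the last corner of the face `b`. -/
def w1 (r : Row) (b : Bool) : ℤ × ℤ := sqm r (if r.o = b then -1 else r.L)

theorem isC_w0 (hL : 1 ≤ r.L) : IsC (w0 r b) (rqr r b 0) := by
  have h := rqr_nat (r := r) (b := b) hL 0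
  rw [Nat.cast_zero] at h
  rw [h, P1_eq (by omega)]
  have e1 : P0 r.L 0 = (0, 0) := by simp [P0]
  rw [e1]
  unfold IsC w0 sqm Ls fz0 fd
  cases hb : b <;> by_cases h : r.o = true <;> simp [h, dx, dy]

theorem isC_w1 (hL : 1 ≤ r.L) : IsC (w1 r b) (rqr r b ((r.L : ℕ) : ZMod (2 * r.L + 2))) := by
  rw [rqr_nat hL, P1_eq (by omega)]
  have e1 : P0 r.L r.L = ((r.L : ℤ), 0) := by simp [P0]
  rw [e1]
  unfold IsC w1 sqm Ls fz0 fd
  cases hb : b <;> by_cases h : r.o = true <;> simp [h, dx, dy]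

/-- The outer square of a side. -/
theorem be_outer (hL : 1 ≤ r.L) (k : ℕ) {w : ℤ × ℤ}
    (h : (w = hdv (be (rqr r b) (k : ZMod (2 * r.L + 2))) ∨
      w = tlv (be (rqr r b) (k : ZMod (2 * r.L + 2)))) ∧ w ∉ r.I) :
    w = sqL (Ls (fz0 r b) (fd r b) (P1 r.L k)) (U1 r.L k + fd r b - 1) := by
  have hq := rqr_polygon (r := r) (b := b) hL
  have h1 := outer_eq hq (rqr_encloses hL) (k : ZMod (2 * r.L + 2))
  have h2 : w = H531.fo' (rqr r b) (k : ZMod (2 * r.L + 2)) := by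
    obtain ⟨h3 | h3, h4⟩ := h
    · rw [h3]; exact h1.2 (by rw [← h3]; exact h4)
    · rw [h3]; exact h1.1 (by rw [← h3]; exact h4)
  have h3 := (rqr_bd (r := r) (b := b) hL).step k
  simp only [Nat.cast_succ] at h3
  rw [E2.ro_spec hq] at h3
  have h4 := add_left_cancel h3
  rw [← vec_fin] at h4
  have h6 : (((E2.ro (rqr r b) (k : ZMod (2 * r.L + 2))).val : ℕ) : ℤ) % 4 =
      (U1 r.L k + fd r b) % 4 := by
    unfold vec at h4
    simp only [Prod.mk.injEq] at h4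
    rcases head_cases (((E2.ro (rqr r b) (k : ZMod (2 * r.L + 2))).val : ℕ) : ℤ) with
      ⟨a, y, c⟩ | ⟨a, y, c⟩ | ⟨a, y, c⟩ | ⟨a, y, c⟩ <;>
      rcases head_cases (U1 r.L k + fd r b) with ⟨a', y', c'⟩ | ⟨a', y', c'⟩ | ⟨a', y', c'⟩ |
        ⟨a', y', c'⟩ <;> rw [y, c, y', c'] at h4 <;> omega
  rw [h2, H531.fo', face_pred, rqr_nat hL]
  exact sqL_congr (by omega)

/-- The outer square of the last side. -/
theorem outer_end (hL : 1 ≤ r.L) {w : ℤ × ℤ}
    (h : (w = hdv (be (rqr r b) ((2 * r.L + 1 : ℕ) : ZMod (2 * r.L + 2))) ∨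
      w = tlv (be (rqr r b) ((2 * r.L + 1 : ℕ) : ZMod (2 * r.L + 2)))) ∧ w ∉ r.I) :
    w = w0 r b := by
  rw [be_outer hL _ h, P1_eq (by omega), U1_eq (by omega)]
  have e1 : P0 r.L (2 * r.L + 1) = (0, 1) := by
    unfold P0
    rw [if_neg (by omega), if_pos (by omega)]
    simp
  have e2 : U0 r.L (2 * r.L + 1) = 3 := by
    unfold U0
    rw [if_neg (by omega), if_neg (by omega), if_neg (by omega), if_pos rfl]
  rw [e1, e2]
  unfold w0 sqm Ls fz0 fd sqL
  cases hb : b <;> by_cases h : r.o = true <;> simp [h, dx, dy]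

/-! ### `lr` -/

theorem mem_lr : e ∈ lr I A A' B ω ↔ e ∈ A ∧ (hdv e ∉ I ∧ tlv e ∈ I) ∧
    Returns (nx ω) (bS I) e ∧ (nx ω)^[ret (nx ω) (bS I) e] e ∈ A' ∧ Stays I B ω e := by
  classical
  unfold lr
  rw [mem_filter]

/-- The tail of the last edge is in `B`. -/
theorem tl_last (hr : Returns (nx ω) (bS I) e) (hs : Stays I B ω e) :
    tlv ((nx ω)^[ret (nx ω) (bS I) e] e) ∈ B := by
  obtain ⟨hm, -⟩ := hr.spec
  obtain ⟨m, hm⟩ : ∃ m, ret (nx ω) (bS I) e = m + 1 := ⟨ret (nx ω) (bS I) e - 1, by omega⟩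
  rw [hm, Function.iterate_succ_apply', tlv_nx]
  exact hs m (by omega)

theorem lr_end (hL : 1 ≤ r.L) (h0 : w0 r b ∉ B) :
    lr r.I A (sides (rqr r b) (r.L + 1) (2 * r.L + 2)) B ω =
      lr r.I A (sides (rqr r b) (r.L + 1) (2 * r.L + 1)) B ω := by
  ext e
  rw [mem_lr, mem_lr, mem_sides, mem_sides]
  constructor
  · rintro ⟨h1, h2, h3, ⟨k, h4, h5, h6⟩, h7⟩
    refine ⟨h1, h2, h3, ⟨k, h4, ?_, h6⟩, h7⟩
    by_contra hk
    have e1 : k = 2 * r.L + 1 := by omega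
    have h8 := tl_last h3 h7
    have h9 := (exc_last h2.1 h3).2
    rw [← h6, e1] at h8 h9
    rw [outer_end hL ⟨Or.inr rfl, h9⟩] at h8
    exact h0 h8
  · rintro ⟨h1, h2, h3, ⟨k, h4, h5, h6⟩, h7⟩
    exact ⟨h1, h2, h3, ⟨k, h4, by omega, h6⟩, h7⟩

theorem lr_end' (hL : 1 ≤ r.L) (h0 : w0 r b ∉ B) :
    lr r.I (sides (rqr r b) (r.L + 1) (2 * r.L + 2)) A B ω =
      lr r.I (sides (rqr r b) (r.L + 1) (2 * r.L + 1)) A B ω := by
  ext e
  rw [mem_lr, mem_lr, mem_sides, mem_sides]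
  constructor
  · rintro ⟨⟨k, h4, h5, h6⟩, h2, h3, h1, h7⟩
    refine ⟨⟨k, h4, ?_, h6⟩, h2, h3, h1, h7⟩
    by_contra hk
    have e1 : k = 2 * r.L + 1 := by omega
    have h8 := h7 0 h3.spec.1
    have h9 := h2.1
    rw [Function.iterate_zero, id] at h8
    rw [← h6, e1] at h8 h9
    rw [outer_end hL ⟨Or.inl rfl, h9⟩] at h8
    exact h0 h8
  · rintro ⟨⟨k, h4, h5, h6⟩, h2, h3, h1, h7⟩
    exact ⟨⟨k, h4, by omega, h6⟩, h2, h3, h1, h7⟩

/-- The feet and the potential of an excursion which stays in `B`. -/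
theorem row_pot (hL : 1 ≤ r.L) (hR : Rays r.I B) (h0 : w0 r b ∉ B) (h1 : hdv e ∉ r.I)
    (h2 : tlv e ∈ r.I) (hr : Returns (nx ω) (bS r.I) e) (hs : Stays r.I B ω e) :
    ∃ i j φ σ, Foot (rqr r b) r.I ω e i j ∧ ExtPot r.I (exc r.I ω e) σ φ ∧
      σ = (if i < j then 1 else -1) ∧
      (∀ k ≤ 2 * r.L + 2, φ (rqr r b (k : ZMod (2 * r.L + 2))) =
        (if i < k then 1 else 0) - (if j < k then 1 else 0)) ∧
      (∀ v ∉ B, ∀ t, IsC v t → φ t = 0) ∧
      ∑ k ∈ range (ret (nx ω) (bS r.I) e), trn ω ((nx ω)^[k] e) =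
        U1 r.L j - U1 r.L i + (if i < j then 2 else -2) := by
  have hq := rqr_polygon (r := r) (b := b) hL
  have hI := rqr_encloses (r := r) (b := b) hL
  obtain ⟨i, j, φ, σ, hi, hj, hij, e1, e2, hφ, hT⟩ :=
    exists_ext hq hI (rqr_bd (r := r) (b := b) hL) h1 h2 hr
  have F : Foot (rqr r b) r.I ω e i j := ⟨hi, hj, h1, h2, hr, e1, e2⟩
  have hz : φ (rqr r b 0) = 0 := pot_off hR hr hs hφ h0 (isC_w0 hL)
  have hσ := pot_sgn hq hI F hφ hz
  refine ⟨i, j, φ, σ, F, hφ, hσ, pot_vals hq hI F hφ hz,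
    fun v hv t ht => pot_off hR hr hs hφ hv ht, ?_⟩
  rw [hT]
  split_ifs at hσ ⊢ <;> omega

theorem lr_mid (hL : 1 ≤ r.L) (hR : Rays r.I B) (h0 : w0 r b ∉ B) (h1 : w1 r b ∉ B) {m : ℕ}
    (hm : m ≤ r.L) :
    lr r.I (sides (rqr r b) 0 m) (sides (rqr r b) m (2 * r.L + 2)) B ω =
      lr r.I (sides (rqr r b) 0 m) (sides (rqr r b) m r.L) B ω := by
  have hq := rqr_polygon (r := r) (b := b) hL
  ext e
  rw [mem_lr, mem_lr, mem_sides, mem_sides, mem_sides]
  constructor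
  · rintro ⟨⟨l, g1, g2, g3⟩, h2, h3, ⟨k, h4, h5, h6⟩, h7⟩
    refine ⟨⟨l, g1, g2, g3⟩, h2, h3, ⟨k, h4, ?_, h6⟩, h7⟩
    obtain ⟨i, j, φ, σ, F, -, -, hv, hoff, -⟩ := row_pot hL hR h0 h2.1 h2.2 h3 h7
    have f1 : i = l := by
      by_contra hne
      exact XDL.be_ne hq F.hi (show l < 2 * r.L + 2 by omega) hne (F.e1.symm.trans g3.symm)
    have f2 : j = k := by
      by_contra hne
      exact XDL.be_ne hq F.hj h5 hne (F.e2.symm.trans h6.symm)
    have h8 := hv r.L (by omega)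
    rw [hoff _ h1 _ (isC_w1 hL)] at h8
    split_ifs at h8 <;> omega
  · rintro ⟨h1, h2, h3, ⟨k, h4, h5, h6⟩, h7⟩
    exact ⟨h1, h2, h3, ⟨k, h4, by omega, h6⟩, h7⟩

theorem lr_mid' (hL : 1 ≤ r.L) (hR : Rays r.I B) (h0 : w0 r b ∉ B) (h1 : w1 r b ∉ B) {m : ℕ}
    (hm : m ≤ r.L) :
    lr r.I (sides (rqr r b) m (2 * r.L + 2)) (sides (rqr r b) 0 m) B ω =
      lr r.I (sides (rqr r b) m r.L) (sides (rqr r b) 0 m) B ω := by
  have hq := rqr_polygon (r := r) (b := b) hL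
  ext e
  rw [mem_lr, mem_lr, mem_sides, mem_sides, mem_sides]
  constructor
  · rintro ⟨⟨k, h4, h5, h6⟩, h2, h3, ⟨l, g1, g2, g3⟩, h7⟩
    refine ⟨⟨k, h4, ?_, h6⟩, h2, h3, ⟨l, g1, g2, g3⟩, h7⟩
    obtain ⟨i, j, φ, σ, F, -, -, hv, hoff, -⟩ := row_pot hL hR h0 h2.1 h2.2 h3 h7
    have f1 : i = k := by
      by_contra hne
      exact XDL.be_ne hq F.hi h5 hne (F.e1.symm.trans h6.symm)
    have f2 : j = l := by
      by_contra hne
      exact XDL.be_ne hq F.hj (show l < 2 * r.L + 2 by omega) hne (F.e2.symm.trans g3.symm)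
    have h8 := hv r.L (by omega)
    rw [hoff _ h1 _ (isC_w1 hL)] at h8
    split_ifs at h8 <;> omega
  · rintro ⟨⟨k, h4, h5, h6⟩, h2, h3, h1, h7⟩
    exact ⟨⟨k, h4, by omega, h6⟩, h2, h3, h1, h7⟩

/-- Alternation over the end which is not the base. -/
theorem alt_end (hL : 1 ≤ r.L) (hg : Good ω) (hR : Rays r.I B) (h0 : w0 r b ∉ B) :
    |((lr r.I (faces r b 0 r.L) (faces r (!b) 0 r.L) B ω).card : ℤ) -
      (lr r.I (faces r (!b) 0 r.L) (faces r b 0 r.L) B ω).card| ≤ 3 := by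
  have h := alt_count (rqr_polygon (r := r) (b := b) hL) (rqr_encloses hL) (rqr_bd hL) hg hR h0
    (isC_w0 hL) (m := r.L) (m' := r.L + 1) (by omega) le_rfl (by omega)
  rw [lr_end hL h0, lr_end' hL h0, sides_face' hL, sides_face hL le_rfl] at h
  have e1 : (if r.o = b then faces r b (r.L - r.L) (r.L - 0) else faces r b 0 r.L) =
      faces r b 0 r.L := by
    rw [Nat.sub_self, Nat.sub_zero, ite_self]
  rw [e1] at h
  exact h

/-- Alternation over a point of a face. -/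
theorem alt_mid (hL : 1 ≤ r.L) (hg : Good ω) (hR : Rays r.I B) (h0 : w0 r b ∉ B)
    (h1 : w1 r b ∉ B) {m : ℕ} (hm : m ≤ r.L) :
    |((lr r.I (faces r b 0 m) (faces r b m r.L) B ω).card : ℤ) -
      (lr r.I (faces r b m r.L) (faces r b 0 m) B ω).card| ≤ 3 := by
  by_cases hb : r.o = b
  · have h := alt_count (rqr_polygon (r := r) (b := b) hL) (rqr_encloses hL) (rqr_bd hL) hg hR h0
      (isC_w0 hL) (m := r.L - m) (m' := r.L - m) le_rfl (by omega) (by omega)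
    rw [lr_mid hL hR h0 h1 (by omega), lr_mid' hL hR h0 h1 (by omega), sides_face hL (by omega),
      sides_face hL le_rfl, if_pos hb, if_pos hb, Nat.sub_self, Nat.sub_zero,
      Nat.sub_sub_self hm, abs_sub_comm] at h
    exact h
  · have h := alt_count (rqr_polygon (r := r) (b := b) hL) (rqr_encloses hL) (rqr_bd hL) hg hR h0
      (isC_w0 hL) (m := m) (m' := m) le_rfl (by omega) (by omega)
    rw [lr_mid hL hR h0 h1 (by omega), lr_mid' hL hR h0 h1 (by omega), sides_face hL (by omega),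
      sides_face hL le_rfl, if_neg hb, if_neg hb] at h
    exact h

end Vale.Agent.P167.H871.Q
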