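import Vale.Agent.P167.H871.OutY
import Vale.Agent.P167.H871.Tab3
import Vale.Agent.P167.QX.Stag

/-!
# P167, general `q`: angles of the strands outside a polygon (thick walls)

`D` is the domain of a lattice polygon `q` (e.g. a `1 × L` row of squares), `S` any set of cuts which
contains the boundary of `D`. The strands which leave `D` and come back to `D` without meeting `S`.
-/

namespace Vale.Agent.P167.H871.Q

open Finset
open Vale.Agent.P167.Top
open Vale.Agent.P167.A (plane)
open Vale.Agent.P167.H199 (cang ah at' hb strand ret Returns)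
open Vale.Agent.P167.E6 (IsPolygon Encloses)
open Vale.Agent.P167.BR (be be_even be_odd)
open Vale.Agent.P167.XDL (bS mem_bS exists_idx P4_be ah_add_at)

/-- The angle of a strand. -/
theorem cang_strand {θ : ℝ} {ω : Cfg} {S : Finset Ed} {e : Ed} {a : Ed → Bool → ℝ} (he : e ∈ S)
    (hr : Returns (nx ω) S e)
    (hoff : ∀ k, 0 < k → k < ret (nx ω) S e →
      ah plane a ((nx ω)^[k] e) + at' plane a ((nx ω)^[k] e) = 0) :
    cang plane θ a ω (strand (nx ω) S e) =
      θ / 4 * ((∑ k ∈ range (ret (nx ω) S e), trn ω ((nx ω)^[k] e) : ℤ) : ℝ) +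
        ah plane a e + at' plane a ((nx ω)^[ret (nx ω) S e] e) := by
  obtain ⟨h1, -⟩ := hr.spec
  have key : ∀ m, 1 ≤ m → (∀ k, 0 < k → k < m →
      ah plane a ((nx ω)^[k] e) + at' plane a ((nx ω)^[k] e) = 0) →
      ∑ k ∈ range m, (θ / 4 * (plane.turn ω ((nx ω)^[k] e) : ℝ) +
        ah plane a ((nx ω)^[k] e) + at' plane a (plane.nx ω ((nx ω)^[k] e))) =
      θ / 4 * ((∑ k ∈ range m, trn ω ((nx ω)^[k] e) : ℤ) : ℝ) +
        ah plane a e + at' plane a ((nx ω)^[m] e) := by
    intro m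
    induction m with
    | zero => intro h; omega
    | succ m ih =>
      intro _ hm
      rw [sum_range_succ, sum_range_succ, H685.plane_turn, A.plane_nx,
        ← Function.iterate_succ_apply' (nx ω)]
      rcases Nat.eq_zero_or_pos m with rfl | hm0
      · simp only [range_zero, sum_empty, zero_add, Function.iterate_zero, id]
      · rw [ih hm0 fun k k1 k2 => hm k k1 (by omega)]
        have := hm m hm0 (by omega)
        push_cast
        linarith
  unfold cang
  rw [H199.sum_strand (s_nx ω).injective he]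
  exact key _ h1 hoff

variable {n : ℕ} {q : ZMod n → ℤ × ℤ} {D : Finset (ℤ × ℤ)} {u : ℕ → ℤ} {a : Ed → Bool → ℝ}
  {θ K : ℝ} {ω : Cfg} {e : Ed} {S : Finset Ed}

/-- The phases on the outer side of the boundary of `D`. -/
structure OutP (q : ZMod n → ℤ × ℤ) (D : Finset (ℤ × ℤ)) (a : Ed → Bool → ℝ) (F : ℕ → ℝ) :
    Prop where
  hd : ∀ k < n, hdv (be q (k : ZMod n)) ∉ D → ah plane a (be q (k : ZMod n)) = F k
  tl : ∀ k < n, tlv (be q (k : ZMod n)) ∉ D → at' plane a (be q (k : ZMod n)) = -F k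

/-- The strand of an edge which leaves `D`, for a larger set of cuts. -/
theorem strand_out (hS : bS D ⊆ S) (h1 : hdv e ∉ D) (hr : Returns (nx ω) S e)
    (hx : (nx ω)^[ret (nx ω) S e] e ∈ bS D) :
    (∀ k < ret (nx ω) S e, hdv ((nx ω)^[k] e) ∉ D) ∧
      hdv ((nx ω)^[ret (nx ω) S e] e) ∈ D := by
  obtain ⟨hm, -⟩ := hr.spec
  have hk : ∀ k < ret (nx ω) S e, hdv ((nx ω)^[k] e) ∉ D := by
    intro k
    induction k with
    | zero => intro _; exact h1
    | succ k ih =>
      intro hk h3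
      have h4 := ih (by omega)
      apply H199.ret_min (f := nx ω) (S := S) (e := e) (k := k + 1) (by omega) hk
      apply hS
      rw [mem_bS]
      left
      refine ⟨h3, ?_⟩
      rw [Function.iterate_succ_apply', tlv_nx]
      exact h4
  refine ⟨hk, ?_⟩
  rw [mem_bS] at hx
  rcases hx with h | h
  · exact h.1
  · exfalso
    obtain ⟨m, hm'⟩ : ∃ m, ret (nx ω) S e = m + 1 := ⟨_, (Nat.sub_add_cancel hm).symm⟩
    rw [hm', Function.iterate_succ_apply', tlv_nx] at h
    exact hk m (by omega) h.2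

/-- The sides of an outer strand and its turning. `i` is the side of the leaving edge `e`, `j` the side
of the edge at which the strand comes back. -/
structure OStr (q : ZMod n → ℤ × ℤ) (D : Finset (ℤ × ℤ)) (u : ℕ → ℤ) (S : Finset Ed) (ω : Cfg)
    (e : Ed) (i j : ℕ) (s : ℤ) : Prop where
  hi : i < n
  hj : j < n
  ne : i ≠ j
  ei : e = be q (i : ZMod n)
  ej : (nx ω)^[ret (nx ω) S e] e = be q (j : ZMod n)
  odi : ¬ Even ((q (i : ZMod n)).1 + (q (i : ZMod n)).2)
  evj : Even ((q (j : ZMod n)).1 + (q (j : ZMod n)).2)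
  turn : ∑ k ∈ range (ret (nx ω) S e), trn ω ((nx ω)^[k] e) = u j - u i + s
  val : s = (if i < j then 2 else -2) ∨
    (s = (if i < j then -6 else 6) ∧ ∃ φ, OutPot D q ω e (ret (nx ω) S e) φ)

theorem exists_ostr (hq : IsPolygon q) (hD : Encloses q D)
    (hu : Bd (D : Set (ℤ × ℤ)) n (fun k => q (k : ZMod n)) u 1) (hS : bS D ⊆ S)
    (h1 : hdv e ∉ D) (h2 : tlv e ∈ D) (hr : Returns (nx ω) S e)
    (hx : (nx ω)^[ret (nx ω) S e] e ∈ bS D) : ∃ i j s, OStr q D u S ω e i j s := by
  have heS : e ∈ bS D := mem_bS.2 (Or.inr ⟨h1, h2⟩)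
  obtain ⟨hm, -⟩ := hr.spec
  obtain ⟨hk, hin⟩ := strand_out hS h1 hr hx
  obtain ⟨i, hi, hei⟩ := exists_idx hq hD hu heS
  obtain ⟨j, hj, hej⟩ := exists_idx hq hD hu hx
  have hw := ext_wind hq hD hu (ω := ω) (e := e) hm hi hj (by rw [hei]; exact P4_be hq hu i)
    (by rw [hej]; exact P4_be hq hu j) hk h2 hin
  have hodi : ¬ Even ((q (i : ZMod n)).1 + (q (i : ZMod n)).2) := by
    intro h
    obtain ⟨_, _, h4, _⟩ := be_even hq hD h
    rw [← hei] at h4
    exact h1 h4
  have hevj : Even ((q (j : ZMod n)).1 + (q (j : ZMod n)).2) := by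
    by_contra h
    obtain ⟨_, _, _, h4⟩ := be_odd hq hD h
    rw [← hej] at h4
    exact h4 hin
  obtain ⟨hij, hw⟩ := hw
  rcases hw with hT | ⟨hT, hφ⟩
  · exact ⟨i, j, _, hi, hj, hij, hei, hej, hodi, hevj, hT, Or.inl rfl⟩
  · exact ⟨i, j, _, hi, hj, hij, hei, hej, hodi, hevj, hT, Or.inr ⟨rfl, hφ⟩⟩

variable {i j : ℕ} {s : ℤ}

/-- **The angle of an outer strand.** -/
theorem OStr.cang (h : OStr q D u S ω e i j s) {ψ : ℕ → ℝ}
    (hg : OutP q D a fun k => θ / 4 * (u k - 2) + ψ k + K) (hS : bS D ⊆ S) (h1 : hdv e ∉ D)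
    (h2 : tlv e ∈ D) (hr : Returns (nx ω) S e) (hx : (nx ω)^[ret (nx ω) S e] e ∈ bS D)
    (hoff : ∀ k, 0 < k → k < ret (nx ω) S e →
      a ((nx ω)^[k] e) false + a ((nx ω)^[k] e) true = 0) :
    H199.cang plane θ a ω (strand (nx ω) S e) = θ / 4 * s + ψ i - ψ j := by
  have heS : e ∈ S := hS (mem_bS.2 (Or.inr ⟨h1, h2⟩))
  obtain ⟨hk, hin⟩ := strand_out hS h1 hr hx
  obtain ⟨hm, -⟩ := hr.spec
  rw [cang_strand heS hr (fun k k1 k2 => by rw [ah_add_at, hoff k k1 k2, zero_mul]), h.turn]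
  have g1 : ah plane a e = θ / 4 * (u i - 2) + ψ i + K := by
    rw [h.ei]; exact hg.hd i h.hi (by rw [← h.ei]; exact h1)
  have h3 : tlv ((nx ω)^[ret (nx ω) S e] e) ∉ D := by
    obtain ⟨m, hm'⟩ : ∃ m, ret (nx ω) S e = m + 1 := ⟨_, (Nat.sub_add_cancel hm).symm⟩
    rw [hm', Function.iterate_succ_apply', tlv_nx]
    exact hk m (by omega)
  have g2 : at' plane a ((nx ω)^[ret (nx ω) S e] e) = -(θ / 4 * (u j - 2) + ψ j + K) := by
    rw [h.ej]; exact hg.tl j h.hj (by rw [← h.ej]; exact h3)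
  rw [g1, g2]
  push_cast
  ring

/-! ### the staggered phases -/

/-- The staggered phases on the outer side of the boundary (free sides `z < k`, wired sides `k ≤ z`,
mean phase `β` on the wired sides). -/
noncomputable def stagO (θ β : ℝ) (q : ZMod n → ℤ × ℤ) (k z : ℕ) : ℝ :=
  if z < k then (if Even ((q z).1 + (q z).2) then -((3 * θ - Real.pi) / 4) else
    (3 * θ - Real.pi) / 4)
  else β + (if Even ((q z).1 + (q z).2) then (3 * θ - Real.pi) / 4 else
    -((3 * θ - Real.pi) / 4))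

/-- The mean phase. -/
noncomputable def mph (β : ℝ) (k z : ℕ) : ℝ := if z < k then 0 else β

theorem stag_add_stagO (θ β : ℝ) (q : ZMod n → ℤ × ℤ) (k z : ℕ) :
    QX.stag θ β q k z + stagO θ β q k z = 2 * mph β k z := by
  unfold QX.stag stagO mph
  split_ifs <;> ring

variable {β : ℝ} {k : ℕ}

/-- The difference of the outer phases. -/
theorem OStr.dif (h : OStr q D u S ω e i j s) :
    stagO θ β q k i - stagO θ β q k j =
      if i < k then (if j < k then (3 * θ - Real.pi) / 2 else -β)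
      else (if j < k then β else -((3 * θ - Real.pi) / 2)) := by
  have h1 := h.odi
  have h2 := h.evj
  unfold stagO
  split_ifs <;> ring

/-- The weight of an outer strand from the side `i` to the side `j`; `o`: over the base point. -/
noncomputable def wo (θ β : ℝ) (k i j : ℕ) (o : Bool) : ℝ :=
  2 * Real.cos (θ / 4 * ((if i < j then (if o then -6 else 2) else (if o then 6 else -2) : ℤ) : ℝ) +
    (if i < k then (if j < k then (3 * θ - Real.pi) / 2 else -β)
      else (if j < k then β else -((3 * θ - Real.pi) / 2))))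

/-- **The factor of an outer strand.** -/
theorem out_factor (hq : IsPolygon q) (hD : Encloses q D)
    (hu : Bd (D : Set (ℤ × ℤ)) n (fun k => q (k : ZMod n)) u 1)
    (hg : OutP q D a fun z => θ / 4 * (u z - 2) + stagO θ β q k z + K) (hS : bS D ⊆ S)
    (h1 : hdv e ∉ D) (h2 : tlv e ∈ D) (hr : Returns (nx ω) S e)
    (hx : (nx ω)^[ret (nx ω) S e] e ∈ bS D)
    (hoff : ∀ k, 0 < k → k < ret (nx ω) S e →
      a ((nx ω)^[k] e) false + a ((nx ω)^[k] e) true = 0) :
    ∃ i j, ∃ o : Bool, i < n ∧ j < n ∧ i ≠ j ∧ e = be q (i : ZMod n) ∧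
      (nx ω)^[ret (nx ω) S e] e = be q (j : ZMod n) ∧
      ¬ Even ((q (i : ZMod n)).1 + (q (i : ZMod n)).2) ∧
      Even ((q (j : ZMod n)).1 + (q (j : ZMod n)).2) ∧
      (o = true → ∃ φ, OutPot D q ω e (ret (nx ω) S e) φ) ∧
      2 * Real.cos (cang plane θ a ω (strand (nx ω) S e)) = wo θ β k i j o := by
  obtain ⟨i, j, s, h⟩ := exists_ostr hq hD hu hS h1 h2 hr hx
  have hc := h.cang hg hS h1 h2 hr hx hoff
  rcases h.val with hs | ⟨hs, hφ⟩
  · refine ⟨i, j, false, h.hi, h.hj, h.ne, h.ei, h.ej, h.odi, h.evj, by simp, ?_⟩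
    rw [hc, add_sub_assoc, h.dif, hs]
    rfl
  · refine ⟨i, j, true, h.hi, h.hj, h.ne, h.ei, h.ej, h.odi, h.evj, fun _ => hφ, ?_⟩
    rw [hc, add_sub_assoc, h.dif, hs]
    rfl

/-! ### values -/

theorem cos_a {x : ℝ} (θ : ℝ) (h : x = θ - Real.pi / 2 ∨ x = -(θ - Real.pi / 2)) :
    2 * Real.cos x = 2 * Real.sin θ := by
  rcases h with rfl | rfl
  · rw [Real.cos_sub_pi_div_two]
  · rw [Real.cos_neg, Real.cos_sub_pi_div_two]

theorem wo_ff {k i j : ℕ} (hi : i < k) (hj : j < k) (o : Bool) : wo θ β k i j o =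
    if i < j then (if o then 0 else 2 * Real.sin (2 * θ))
      else (if o then 2 * Real.sin (3 * θ) else 2 * Real.sin θ) := by
  unfold wo
  rw [if_pos hi, if_pos hj]
  cases o
  · by_cases h : i < j
    · simp only [if_pos h, Bool.false_eq_true, if_false]
      exact cos_a _ (Or.inl (by push_cast; ring))
    · simp only [if_neg h, Bool.false_eq_true, if_false]
      exact cos_a _ (Or.inl (by push_cast; ring))
  · by_cases h : i < j
    · simp only [if_pos h, if_true]
      rw [cos_a 0 (Or.inl (by push_cast; ring))]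
      simp
    · simp only [if_neg h, if_true]
      exact cos_a _ (Or.inl (by push_cast; ring))

theorem wo_ww {k i j : ℕ} (hi : ¬ i < k) (hj : ¬ j < k) (o : Bool) : wo θ β k i j o =
    if i < j then (if o then 2 * Real.sin (3 * θ) else 2 * Real.sin θ)
      else (if o then 0 else 2 * Real.sin (2 * θ)) := by
  unfold wo
  rw [if_neg hi, if_neg hj]
  cases o
  · by_cases h : i < j
    · simp only [if_pos h, Bool.false_eq_true, if_false]
      exact cos_a _ (Or.inr (by push_cast; ring))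
    · simp only [if_neg h, Bool.false_eq_true, if_false]
      exact cos_a _ (Or.inr (by push_cast; ring))
  · by_cases h : i < j
    · simp only [if_pos h, if_true]
      exact cos_a _ (Or.inr (by push_cast; ring))
    · simp only [if_neg h, if_true]
      rw [cos_a 0 (Or.inr (by push_cast; ring))]
      simp

/-- Gauge 2. -/
theorem wo_fw {k i j : ℕ} (hi : i < k) (hj : ¬ j < k) (o : Bool) :
    wo θ ((θ - Real.pi) / 2) k i j o = if o then 2 * Real.sin (2 * θ) else 0 := by
  unfold wo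
  rw [if_pos hi, if_neg hj]
  have h : i < j := by omega
  cases o
  · simp only [if_pos h, Bool.false_eq_true, if_false]
    rw [cos_a 0 (Or.inr (by push_cast; ring))]
    simp
  · simp only [if_pos h, if_true]
    exact cos_a _ (Or.inr (by push_cast; ring))

theorem wo_wf {k i j : ℕ} (hi : ¬ i < k) (hj : j < k) (o : Bool) :
    wo θ ((θ - Real.pi) / 2) k i j o = if o then 2 * Real.sin (2 * θ) else 0 := by
  unfold wo
  rw [if_neg hi, if_pos hj]
  have h : ¬ i < j := by omega
  cases o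
  · simp only [if_neg h, Bool.false_eq_true, if_false]
    rw [cos_a 0 (Or.inl (by push_cast; ring))]
    simp
  · simp only [if_neg h, if_true]
    exact cos_a _ (Or.inl (by push_cast; ring))

/-- Gauge 1. -/
theorem wo_fw' {k i j : ℕ} (hi : i < k) (hj : ¬ j < k) (o : Bool) :
    wo θ ((Real.pi - 3 * θ) / 2) k i j o = if o then 0 else 2 * Real.sin (2 * θ) := by
  unfold wo
  rw [if_pos hi, if_neg hj]
  have h : i < j := by omega
  cases o
  · simp only [if_pos h, Bool.false_eq_true, if_false]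
    exact cos_a _ (Or.inl (by push_cast; ring))
  · simp only [if_pos h, if_true]
    rw [cos_a 0 (Or.inl (by push_cast; ring))]
    simp

theorem wo_wf' {k i j : ℕ} (hi : ¬ i < k) (hj : j < k) (o : Bool) :
    wo θ ((Real.pi - 3 * θ) / 2) k i j o = if o then 0 else 2 * Real.sin (2 * θ) := by
  unfold wo
  rw [if_neg hi, if_pos hj]
  have h : ¬ i < j := by omega
  cases o
  · simp only [if_neg h, Bool.false_eq_true, if_false]
    exact cos_a _ (Or.inr (by push_cast; ring))
  · simp only [if_neg h, if_true]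
    rw [cos_a 0 (Or.inr (by push_cast; ring))]
    simp

/-- All the weights are nonnegative for `1 ≤ q`, `θ ≤ π/3` (`√q = 2 cos θ`), and bounded by `√q`
times the natural weight. -/
theorem sin_vals {θ : ℝ} (h0 : 0 < θ) (h1 : θ ≤ Real.pi / 3) :
    0 < Real.sin θ ∧ 0 < Real.sin (2 * θ) ∧ 0 ≤ Real.sin (3 * θ) ∧
      Real.sin (2 * θ) = 2 * Real.cos θ * Real.sin θ ∧
      Real.sin (3 * θ) = ((2 * Real.cos θ) ^ 2 - 1) * Real.sin θ := by
  have hpi := Real.pi_pos
  refine ⟨Real.sin_pos_of_pos_of_lt_pi h0 (by linarith),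
    Real.sin_pos_of_pos_of_lt_pi (by linarith) (by linarith),
    Real.sin_nonneg_of_nonneg_of_le_pi (by linarith) (by linarith), ?_, ?_⟩
  · rw [Real.sin_two_mul]; ring
  · rw [Real.sin_three_mul]
    have := Real.sin_sq_add_cos_sq θ
    have h2 : Real.sin θ ^ 2 = 1 - Real.cos θ ^ 2 := by linarith
    calc 3 * Real.sin θ - 4 * Real.sin θ ^ 3 = (3 - 4 * Real.sin θ ^ 2) * Real.sin θ := by ring
      _ = _ := by rw [h2]; ring

theorem wo_nonneg {θ : ℝ} (h0 : 0 < θ) (h1 : θ ≤ Real.pi / 3) (k i j : ℕ) (o : Bool) :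
    0 ≤ wo θ ((θ - Real.pi) / 2) k i j o ∧ 0 ≤ wo θ ((Real.pi - 3 * θ) / 2) k i j o := by
  obtain ⟨h2, h3, h4, -⟩ := sin_vals h0 h1
  by_cases hi : i < k <;> by_cases hj : j < k
  · rw [wo_ff hi hj, wo_ff hi hj]
    constructor <;> split_ifs <;> linarith
  · rw [wo_fw hi hj, wo_fw' hi hj]
    constructor <;> split_ifs <;> linarith
  · rw [wo_wf hi hj, wo_wf' hi hj]
    constructor <;> split_ifs <;> linarith
  · rw [wo_ww hi hj, wo_ww hi hj]
    constructor <;> split_ifs <;> linarith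

end Vale.Agent.P167.H871.Q
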