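import Vale.Agent.P167.H871.Q.WinD
import Vale.Agent.P167.H871.Q.OutQ

/-!
# P167, general `q`: the table of the strands in the window of a hole (thick walls, balanced gauge)
-/

namespace Vale.Agent.P167.H871.Q

open Finset
open Vale.Agent.P167.Top
open Vale.Agent.P167.A (plane)
open Vale.Agent.P167.H199 (cang ah at' hb strand ret Returns)

variable {z : ℤ × ℤ} {d κ : ℤ} {A B R : ℕ}

theorem rA_not (hκ : κ = 0 ∨ κ = 1 ∨ κ = -1) {v : ℤ × ℤ} (h : v ∈ rA z d A R) :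
    v ∉ Wn z d κ A B R := fun h' => (box_of hκ h').2.1 ⟨h.1, h.2.2⟩

theorem rB_not (hκ : κ = 0 ∨ κ = 1 ∨ κ = -1) {v : ℤ × ℤ} (h : v ∈ rB z d κ B R) :
    v ∉ Wn z d κ A B R := fun h' => (box_of hκ h').2.2.2 ⟨h.1, h.2.1⟩

theorem rA_rB (hκ : κ = 0 ∨ κ = 1 ∨ κ = -1) (hAR : A < R) (hBR : B + 1 < R) {v : ℤ × ℤ}
    (h : v ∈ rA z d A R) : v ∉ rB z d κ B R := by
  intro h'
  have h1 := Lq_rel z d v hκ
  obtain ⟨a1, a2, a3⟩ := h
  obtain ⟨b1, b2, b3⟩ := h'
  rcases hκ with rfl | rfl | rfl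
  · rw [if_pos rfl] at h1
    rw [← h1] at b2 b3
    omega
  · rw [if_neg (by norm_num), if_pos rfl] at h1
    have h8 := congrArg Prod.fst h1
    have h9 := congrArg Prod.snd h1
    simp only at h8 h9
    omega
  · rw [if_neg (by norm_num), if_neg (by norm_num)] at h1
    have h8 := congrArg Prod.fst h1
    have h9 := congrArg Prod.snd h1
    simp only at h8 h9
    omega

/-- **Turning of the strands in the window of a hole.** -/
theorem win_turn (hκ : κ = 0 ∨ κ = 1 ∨ κ = -1) (hA : 1 ≤ A) (hB : 1 ≤ B) (hAR : A < R)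
    (hBR : B + 1 < R) {ω : Cfg} {e : Ed} {m : ℕ} (hm : 1 ≤ m)
    (hin : ∀ k < m, hdv ((nx ω)^[k] e) ∈ Wn z d κ A B R)
    (h1 : tlv e ∈ rA z d A R ∨ tlv e ∈ rB z d κ B R)
    (h2 : hdv ((nx ω)^[m] e) ∈ rA z d A R ∨ hdv ((nx ω)^[m] e) ∈ rB z d κ B R) :
    ∃ t : ℤ, -4 ≤ t ∧ t ≤ 4 ∧
      (tlv e ∈ rA z d A R → hdv ((nx ω)^[m] e) ∈ rA z d A R →
        ∑ k ∈ range m, trn ω ((nx ω)^[k] e) = t ∧ (t ≤ -2 ∨ 2 ≤ t)) ∧
      (tlv e ∈ rB z d κ B R → hdv ((nx ω)^[m] e) ∈ rB z d κ B R →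
        ∑ k ∈ range m, trn ω ((nx ω)^[k] e) = t ∧ (t ≤ -2 ∨ 2 ≤ t)) ∧
      (tlv e ∈ rA z d A R → hdv ((nx ω)^[m] e) ∈ rB z d κ B R →
        ∑ k ∈ range m, trn ω ((nx ω)^[k] e) = t + κ ∧ -2 ≤ t ∧ t ≤ 2) ∧
      (tlv e ∈ rB z d κ B R → hdv ((nx ω)^[m] e) ∈ rA z d A R →
        ∑ k ∈ range m, trn ω ((nx ω)^[k] e) = t - κ ∧ -2 ≤ t ∧ t ≤ 2) := by
  obtain ⟨P, U, hbd, hW⟩ := exists_win hκ hA hB hAR hBR
  have hb := Bd.frame hbd z d
  have htl : tlv ((nx ω)^[m] e) ∈ Wn z d κ A B R := by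
    obtain ⟨m', rfl⟩ : ∃ m', m = m' + 1 := ⟨m - 1, by omega⟩
    rw [Function.iterate_succ_apply', tlv_nx]
    exact hin m' (by omega)
  have ht0 : tlv e ∉ Wn z d κ A B R := by
    rcases h1 with h | h
    · exact rA_not hκ h
    · exact rB_not hκ h
  have hh0 : hdv ((nx ω)^[m] e) ∉ Wn z d κ A B R := by
    rcases h2 with h | h
    · exact rA_not hκ h
    · exact rB_not hκ h
  obtain ⟨s, t, hg, hl, hr⟩ := exists_side e
  obtain ⟨s', t', hg', hl', hr'⟩ := exists_side' ((nx ω)^[m] e)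
  have hin0 := hin 0 (by omega)
  rw [Function.iterate_zero, id] at hin0
  have hAB : A < tB κ A R ∧ 2 * A + 1 ≤ tB κ A R ∧ tB κ A R + 2 * B + 1 ≤ 2 * A + 8 * R + 2 * B := by
    unfold tB
    split_ifs <;> omega
  have key : ∀ i j : ℕ, i < 2 * A + 8 * R + 2 * B → j < 2 * A + 8 * R + 2 * B →
      P4 e = M4 (Ls z d (P i)) (U i + d) → P4 ((nx ω)^[m] e) = M4 (Ls z d (P j)) (U j + d) →
      i ≠ j ∧ ∑ k ∈ range m, trn ω ((nx ω)^[k] e) = U j - U i + (if i < j then -2 else 2) := by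
    intro i j hi hj hi2 hj2
    obtain ⟨k1, k2⟩ := bd_turn hb (ω := ω) (e := e) hm hi hj hi2 hj2 hin ht0 hh0
    exact ⟨k1, by rw [k2]; ring⟩
  rcases h1 with h1 | h1
  · obtain ⟨i, f, hi⟩ := foot_A hκ hW (z := z) (d := d) hg (by rw [← hl]; exact hin0)
      (by rw [← hr]; exact h1)
    have h1' := rA_rB hκ hAR hBR h1
    obtain ⟨i1, i2, i3, i4⟩ := hi
    rcases h2 with h2 | h2
    · obtain ⟨j, f', hj⟩ := foot_A hκ hW (z := z) (d := d) hg' (by rw [← hl']; exact htl)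
        (by rw [← hr']; exact h2)
      have h2' := rA_rB hκ hAR hBR h2
      obtain ⟨j1, j2, j3, j4⟩ := hj
      obtain ⟨k1, k2⟩ := key i j (by omega) (by omega) i1 j1
      rw [k2, i4, j4]
      split_ifs with hij
      · exact ⟨-f' - -f + -2, by omega, by omega, fun _ _ => ⟨rfl, by omega⟩,
          fun h => absurd h h1', fun _ h => absurd h h2', fun h => absurd h h1'⟩
      · exact ⟨-f' - -f + 2, by omega, by omega, fun _ _ => ⟨rfl, by omega⟩,
          fun h => absurd h h1', fun _ h => absurd h h2', fun h => absurd h h1'⟩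
    · obtain ⟨j, f', hj⟩ := foot_B hκ hW (z := z) (d := d) hg' (by rw [← hl']; exact htl)
        (by rw [← hr']; exact h2)
      have h2' : hdv ((nx ω)^[m] e) ∉ rA z d A R := fun h => rA_rB hκ hAR hBR h h2
      obtain ⟨j1, j2, j3, j4, j5⟩ := hj
      obtain ⟨k1, k2⟩ := key i j (by omega) (by omega) i1 j1
      rw [k2, i4, j5, if_pos (by omega)]
      exact ⟨f' + f - 2, by omega, by omega, fun _ h => absurd h h2', fun h => absurd h h1',
        fun _ _ => ⟨by ring, by omega, by omega⟩, fun h => absurd h h1'⟩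
  · obtain ⟨i, f, hi⟩ := foot_B hκ hW (z := z) (d := d) hg (by rw [← hl]; exact hin0)
      (by rw [← hr]; exact h1)
    have h1' : tlv e ∉ rA z d A R := fun h => rA_rB hκ hAR hBR h h1
    obtain ⟨i1, i2, i3, i4, i5⟩ := hi
    rcases h2 with h2 | h2
    · obtain ⟨j, f', hj⟩ := foot_A hκ hW (z := z) (d := d) hg' (by rw [← hl']; exact htl)
        (by rw [← hr']; exact h2)
      have h2' := rA_rB hκ hAR hBR h2
      obtain ⟨j1, j2, j3, j4⟩ := hj
      obtain ⟨k1, k2⟩ := key i j (by omega) (by omega) i1 j1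
      rw [k2, i5, j4, if_neg (by omega)]
      exact ⟨-f' - f + 2, by omega, by omega, fun h => absurd h h1', fun _ h => absurd h h2',
        fun h => absurd h h1', fun _ _ => ⟨by ring, by omega, by omega⟩⟩
    · obtain ⟨j, f', hj⟩ := foot_B hκ hW (z := z) (d := d) hg' (by rw [← hl']; exact htl)
        (by rw [← hr']; exact h2)
      have h2' : hdv ((nx ω)^[m] e) ∉ rA z d A R := fun h => rA_rB hκ hAR hBR h h2
      obtain ⟨j1, j2, j3, j4, j5⟩ := hj
      obtain ⟨k1, k2⟩ := key i j (by omega) (by omega) i1 j1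
      rw [k2, i5, j5]
      split_ifs with hij
      · exact ⟨f' - f - 2, by omega, by omega, fun h => absurd h h1',
          fun _ _ => ⟨by ring, by omega⟩, fun h => absurd h h1', fun _ h => absurd h h2'⟩
      · exact ⟨f' - f + 2, by omega, by omega, fun h => absurd h h1',
          fun _ _ => ⟨by ring, by omega⟩, fun h => absurd h h1', fun _ h => absurd h h2'⟩

/-- A hole of a frame of rows with raw phases: near the window the cut edges are those of the two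
rows; raw outward phase `c` on the row before the hole, `c + κ θ/4` on the row after it; colour `τ`. -/
structure HoleW (θ c τ : ℝ) (z : ℤ × ℤ) (d κ : ℤ) (A B R : ℕ) (S : Finset Ed)
    (a : Ed → Bool → ℝ) : Prop where
  kap : κ = 0 ∨ κ = 1 ∨ κ = -1
  posA : 1 ≤ A
  posB : 1 ≤ B
  ltA : A < R
  ltB : B + 1 < R
  mem : ∀ g ∈ S, (hdv g ∈ Wn z d κ A B R → tlv g ∈ rA z d A R ∨ tlv g ∈ rB z d κ B R) ∧
    (tlv g ∈ Wn z d κ A B R → hdv g ∈ rA z d A R ∨ hdv g ∈ rB z d κ B R)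
  off : ∀ g, g ∉ S → hdv g ∈ Wn z d κ A B R → a g false + a g true = 0
  phA : ∀ g ∈ S, (hdv g ∈ Wn z d κ A B R → tlv g ∈ rA z d A R →
      ah plane a g = c + τ * ((3 * θ - Real.pi) / 4)) ∧
    (tlv g ∈ Wn z d κ A B R → hdv g ∈ rA z d A R →
      at' plane a g = -c + τ * ((3 * θ - Real.pi) / 4))
  phB : ∀ g ∈ S, (hdv g ∈ Wn z d κ A B R → tlv g ∈ rB z d κ B R →
      ah plane a g = c + κ * (θ / 4) + τ * ((3 * θ - Real.pi) / 4)) ∧
    (tlv g ∈ Wn z d κ A B R → hdv g ∈ rB z d κ B R →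
      at' plane a g = -(c + κ * (θ / 4)) + τ * ((3 * θ - Real.pi) / 4))

variable {θ c τ : ℝ} {S : Finset Ed} {a : Ed → Bool → ℝ} {ω : Cfg} {e : Ed}

/-- **[Q-TAB]** The angle of a strand in the window of a hole. -/
theorem HoleW.cang (h : HoleW θ c τ z d κ A B R S a) (he : e ∈ S) (hr : Returns (nx ω) S e)
    (hin : ∀ k < ret (nx ω) S e, hdv ((nx ω)^[k] e) ∈ Wn z d κ A B R) :
    ∃ t : ℤ, -4 ≤ t ∧ t ≤ 4 ∧ H199.cang plane θ a ω (strand (nx ω) S e) =
      θ / 4 * t + τ * ((3 * θ - Real.pi) / 2) := by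
  obtain ⟨hm, hS⟩ := hr.spec
  have hin0 := hin 0 (by omega)
  rw [Function.iterate_zero, id] at hin0
  have htl : tlv ((nx ω)^[ret (nx ω) S e] e) ∈ Wn z d κ A B R := by
    obtain ⟨m', hm'⟩ : ∃ m', ret (nx ω) S e = m' + 1 := ⟨ret (nx ω) S e - 1, by omega⟩
    rw [hm', Function.iterate_succ_apply', tlv_nx]
    exact hin m' (by omega)
  have h1 := (h.mem e he).1 hin0
  have h2 := (h.mem _ hS).2 htl
  obtain ⟨t, t1, t2, tAA, tBB, tAB, tBA⟩ := win_turn h.kap h.posA h.posB h.ltA h.ltB hm hin h1 h2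
  have hc := cang_strand (θ := θ) (a := a) he hr (fun k k1 k2 => by
    rw [XDL.ah_add_at, h.off _ (H199.ret_min k1 k2) (hin k k2), zero_mul])
  refine ⟨t, t1, t2, ?_⟩
  rw [hc]
  rcases h1 with h1 | h1
  · have p1 := (h.phA e he).1 hin0 h1
    rcases h2 with h2 | h2
    · rw [(tAA h1 h2).1, p1, (h.phA _ hS).2 htl h2]
      ring
    · rw [(tAB h1 h2).1, p1, (h.phB _ hS).2 htl h2]
      push_cast
      ring
  · have p1 := (h.phB e he).1 hin0 h1
    rcases h2 with h2 | h2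
    · rw [(tBA h1 h2).1, p1, (h.phA _ hS).2 htl h2]
      push_cast
      ring
    · rw [(tBB h1 h2).1, p1, (h.phB _ hS).2 htl h2]
      ring

theorem weight_val (θ t : ℝ) :
    2 * Real.cos (θ / 4 * t + 1 * ((3 * θ - Real.pi) / 2)) = 2 * Real.sin (θ / 4 * (6 + t)) ∧
    2 * Real.cos (θ / 4 * t + -1 * ((3 * θ - Real.pi) / 2)) = 2 * Real.sin (θ / 4 * (6 - t)) := by
  constructor
  · rw [← Real.cos_sub_pi_div_two]
    congr 2
    ring
  · rw [← Real.cos_sub_pi_div_two, ← Real.cos_neg]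
    congr 2
    ring

theorem sin_low {θ x : ℝ} (h0 : 0 < θ) (h1 : θ ≤ Real.pi / 3) (hx : 2 ≤ x) (hx2 : x ≤ 10) :
    min (Real.sin (θ / 2)) (Real.sin (5 * θ / 2)) ≤ Real.sin (θ / 4 * x) := by
  have hpi := Real.pi_pos
  rcases le_total (θ / 4 * x) (Real.pi / 2) with h | h
  · apply (min_le_left _ _).trans
    apply Real.sin_le_sin_of_le_of_le_pi_div_two (by linarith) h
    nlinarith
  · apply (min_le_right _ _).trans
    rw [← Real.sin_pi_sub (θ / 4 * x), ← Real.sin_pi_sub (5 * θ / 2)]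
    apply Real.sin_le_sin_of_le_of_le_pi_div_two (by linarith) (by linarith)
    nlinarith

theorem low_pos {θ : ℝ} (h0 : 0 < θ) (h1 : θ ≤ Real.pi / 3) :
    0 < min (Real.sin (θ / 2)) (Real.sin (5 * θ / 2)) := by
  have hpi := Real.pi_pos
  exact lt_min (Real.sin_pos_of_pos_of_lt_pi (by linarith) (by linarith))
    (Real.sin_pos_of_pos_of_lt_pi (by linarith) (by linarith))

/-- **[Q-TAB]** The factors of the strands in the window of a hole are positive. -/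
theorem HoleW.low (h : HoleW θ c τ z d κ A B R S a) (hτ : τ = 1 ∨ τ = -1) (h0 : 0 < θ)
    (h1 : θ ≤ Real.pi / 3) (he : e ∈ S) (hr : Returns (nx ω) S e)
    (hin : ∀ k < ret (nx ω) S e, hdv ((nx ω)^[k] e) ∈ Wn z d κ A B R) :
    2 * min (Real.sin (θ / 2)) (Real.sin (5 * θ / 2)) ≤
      2 * Real.cos (H199.cang plane θ a ω (strand (nx ω) S e)) := by
  obtain ⟨t, t1, t2, hc⟩ := h.cang he hr hin
  rw [hc]
  have t1' : (-4 : ℝ) ≤ t := by exact_mod_cast t1
  have t2' : (t : ℝ) ≤ 4 := by exact_mod_cast t2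
  rcases hτ with rfl | rfl
  · rw [(weight_val θ t).1]
    linarith [sin_low h0 h1 (show (2 : ℝ) ≤ 6 + t by linarith) (by linarith)]
  · rw [(weight_val θ t).2]
    linarith [sin_low h0 h1 (show (2 : ℝ) ≤ 6 - t by linarith) (by linarith)]

end Vale.Agent.P167.H871.Q
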