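import Vale.Agent.P167.H871.Q.LF0
import Vale.Agent.P167.H592.U.Fam
import Vale.Agent.P167.H592.S.Tips

/-!
# P167, general `q`, START: the product over the loops off the holes of the frame is not zero
-/

namespace Vale.Agent.P167.H871.Q

open Finset
open Vale.Agent.P167.Top
open Vale.Agent.P167.FK
open Vale.Agent.P167.E6 (IsPolygon Encloses dir face)
open Vale.Agent.P167.XDL (bS mem_bS)
open Vale.Agent.P167.H825 (enl pdir Marks FlowIn)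
open Vale.Agent.P167.H825.Q (Row Bc)
open Vale.Agent.P167.H680.T (rowC uI mem_uI frows)
open Vale.Agent.P167.H199 (Gap)
open Vale.Agent.P167.H398.Q (hB Cnf)
open Vale.Agent.P167.H685 (LE mem_LE)
open Vale.Agent.P167.QX (ExtPot exc VisL TO fLp)
open Vale.Agent.P167.Enl (sW eW kOf qN uN sR eR le_rnd fl_zero fl_one gn_big floor_far
  theta_nonneg frame_fam frame_inK endK_hB hole_hB tB_lt uI_frows BGap)

variable {l : ℕ} {p : ZMod l → ℤ × ℤ} {n : ℕ} {S₀ : Finset (ℤ × ℤ)} {Q : Marks} {bc : Bc}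
  {d : ℕ} {θ β : ℝ}

/-- A step far from the marks is in a row. -/
theorem step_row (hQ : Q.Ok) {i τ : ℕ} (hi : i < l) (hτ : τ < n)
    (h : ∀ j ≤ Q.m + 1, (d : ℝ) + 1 ≤ |(τ : ℝ) - (⌊Q.θ i j * n⌋₊ : ℕ)|) :
    ∃ y : Fin l × Fin (Q.m + 1), (y.1 : ℕ) = i ∧ sW p n Q d y.1 y.2 ≤ τ ∧
      τ < eW p n Q d y.1 y.2 := by
  obtain ⟨j, hj, h1, h2⟩ : ∃ j ≤ Q.m, ⌊Q.θ i j * n⌋₊ ≤ τ ∧ τ < ⌊Q.θ i (j + 1) * n⌋₊ := by
    by_contra hcon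
    push Not at hcon
    have h : ∀ j ≤ Q.m + 1, ⌊Q.θ i j * n⌋₊ ≤ τ := by
      intro j
      induction j with
      | zero => intro _; rw [fl_zero hQ]; exact Nat.zero_le _
      | succ j ih => intro h; exact hcon j (by omega) (ih (by omega))
    have h3 := h (Q.m + 1) le_rfl
    rw [fl_one hQ] at h3
    omega
  have s1 := le_rnd ((n : ℤ) • p i) (H825.bsite p Q n) (⌊Q.θ i j * n⌋₊ + d)
  have s2 := le_rnd ((n : ℤ) • p i) (H825.bsite p Q n) (⌊Q.θ i (j + 1) * n⌋₊ - d)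
  change _ ≤ sW p n Q d i j ∧ sW p n Q d i j ≤ _ at s1
  change _ ≤ eW p n Q d i j ∧ eW p n Q d i j ≤ _ at s2
  have k1 := h j (by omega)
  have k2 := h (j + 1) (by omega)
  have h1' : ((⌊Q.θ i j * n⌋₊ : ℕ) : ℝ) ≤ τ := by exact_mod_cast h1
  have h2' : (τ : ℝ) < (⌊Q.θ i (j + 1) * n⌋₊ : ℕ) := by exact_mod_cast h2
  rw [abs_of_nonneg (by linarith)] at k1
  rw [abs_of_neg (by linarith)] at k2
  have k1' : ⌊Q.θ i j * n⌋₊ + d + 1 ≤ τ := by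
    have : ((⌊Q.θ i j * n⌋₊ + d + 1 : ℕ) : ℝ) ≤ τ := by push_cast; linarith
    exact_mod_cast this
  have k2' : τ + d + 1 ≤ ⌊Q.θ i (j + 1) * n⌋₊ := by
    have : ((τ + d + 1 : ℕ) : ℝ) ≤ (⌊Q.θ i (j + 1) * n⌋₊ : ℕ) := by push_cast; linarith
    exact_mod_cast this
  exact ⟨(⟨i, hi⟩, ⟨j, by omega⟩), rfl, by show sW p n Q d i j ≤ τ; omega,
    by show τ < eW p n Q d i j; omega⟩

section frame

variable (hp : IsPolygon p) (hD : Encloses p S₀) (hQ : Q.Ok) {g δ : ℝ} (hg : Gap Q l g)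
  (hδ : 0 < δ) (hδg : 4 * δ ≤ g) (hn : 16 ≤ δ * n)

include hp hQ hg hδ hδg hn in
/-- The base point is in a row. -/
theorem inK_base : InK (l * n) (l * n - Enl.tB n Q) (l * (Q.m + 1)) (sR p n Q ⌊δ * n⌋₊)
    (eR p n Q ⌊δ * n⌋₊) 0 := by
  have hl : 0 < l := by have := hp.1; omega
  have hn0 : (0 : ℝ) ≤ n := Nat.cast_nonneg n
  obtain ⟨b1, b2, b3, b4, b5⟩ := gn_big hQ hg hδg hn hl
  have ht := tB_lt (n := n) hQ b5
  obtain ⟨y, y1, y2, y3⟩ := step_row (p := p) (d := ⌊δ * n⌋₊) hQ hl ht fun j hj => by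
    have h1 : g * n - 1 ≤ |((⌊Q.tp * n⌋₊ : ℕ) : ℝ) - (⌊Q.θ 0 j * n⌋₊ : ℕ)| := by
      refine floor_far (by have := hQ.tp0; positivity)
        (mul_nonneg (theta_nonneg hQ 0 hj) hn0) ?_
      rw [← sub_mul, abs_mul, abs_of_nonneg hn0, abs_sub_comm]
      exact mul_le_mul_of_nonneg_right (hg.2 j hj) hn0
    have h2 : ((Enl.tB n Q : ℕ) : ℝ) = (⌊Q.tp * n⌋₊ : ℕ) := rfl
    rw [h2]
    linarith
  refine (frame_inK hp hQ hg hδ hδg hn).2 ⟨y, Enl.tB n Q, y2, y3, ?_⟩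
  rw [y1]
  unfold kOf
  rw [if_pos (by omega)]
  omega

include hp hQ hg hδ hδg hn in
/-- The junction is in a row. -/
theorem inK_junction (hbg : BGap l Q g bc) (h1 : 0 < bc.ka l n (Enl.tB n Q))
    (h2 : bc.ka l n (Enl.tB n Q) < l * n) : InK (l * n) (l * n - Enl.tB n Q) (l * (Q.m + 1))
      (sR p n Q ⌊δ * n⌋₊) (eR p n Q ⌊δ * n⌋₊) (bc.ka l n (Enl.tB n Q)) := by
  have hl : 0 < l := by have := hp.1; omega
  have hn0 : (0 : ℝ) ≤ n := Nat.cast_nonneg n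
  obtain ⟨b1, b2, b3, b4, b5⟩ := gn_big hQ hg hδg hn hl
  rcases bc with _ | _ | ⟨ia, ta⟩
  · exact absurd h2 (lt_irrefl _)
  · exact absurd h1 (lt_irrefl _)
  · obtain ⟨c1, c2, c3, c4, c5⟩ := hbg
    have hτ : ⌊ta * n⌋₊ < n := by
      have hn1 : (0 : ℝ) < n := by exact_mod_cast b5
      rw [Nat.floor_lt (by positivity)]
      nlinarith
    obtain ⟨y, y1, y2, y3⟩ := step_row (p := p) (d := ⌊δ * n⌋₊) hQ c2 hτ fun j hj => by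
      have h1 : g * n - 1 ≤ |((⌊ta * n⌋₊ : ℕ) : ℝ) - (⌊Q.θ ia j * n⌋₊ : ℕ)| := by
        refine floor_far (by positivity) (mul_nonneg (theta_nonneg hQ ia hj) hn0) ?_
        rw [← sub_mul, abs_mul, abs_of_nonneg hn0, abs_sub_comm]
        exact mul_le_mul_of_nonneg_right (c5 j hj) hn0
      linarith
    exact (frame_inK hp hQ hg hδ hδg hn).2 ⟨y, ⌊ta * n⌋₊, y2, y3, by rw [y1]; rfl⟩

include hp hD hQ hg hδ hδg hn in
/-- The holes of the frame, for `Fam.cases`. -/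
theorem frame_hole {R : ℤ} (hR : (⌊δ * n⌋₊ : ℤ) + 4 ≤ R) {y : Ed} (h1 : y ∈ bS (enl S₀ n))
    (h2 : y ∉ bS (uI (frows θ β p Q n ⌊δ * n⌋₊ bc))) :
    hdv y ∈ (hB p Q n R : Set (ℤ × ℤ)) := by
  rw [uI_frows] at h2
  exact mem_coe.2 (hole_hB hp hD hQ hg hδ hδg hn hR h1 h2)

include hp hD hQ hg hδ hδg hn in
/-- The ends of the rows of the frame, for `Fam.cases`. -/
theorem frame_end {R : ℤ} (hR : (⌊δ * n⌋₊ : ℤ) + 4 ≤ R) {v : ℤ × ℤ}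
    (hv : v ∈ endK (qN p n (Enl.tB n Q)) (uN p n (Enl.tB n Q)) (l * n - Enl.tB n Q) (l * (Q.m + 1))
      (sR p n Q ⌊δ * n⌋₊) (eR p n Q ⌊δ * n⌋₊)) : v ∈ (hB p Q n R : Set (ℤ × ℤ)) := by
  by_contra h
  exact endK_hB hp hD hQ hg hδ hδg hn hR (fun h' => h (mem_coe.2 h')) hv

/-- **(LF0)** The product over the loops off the holes of the frame is not zero if no exterior strand
of these loops passes a special point of zero type. -/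
theorem frame_TO_ne (hθ : 0 < θ) (hθ' : θ ≤ Real.pi / 3)
    (hβ : β = (θ - Real.pi) / 2 ∨ β = (Real.pi - 3 * θ) / 2) (hp : IsPolygon p)
    (hD : Encloses p S₀) (hQ : Q.Ok) {g δ : ℝ} (hg : Gap Q l g) (hδ : 0 < δ) (hδg : 4 * δ ≤ g)
    (hn : 16 ≤ δ * n) (hb : bc.Ok l Q) (hbg : BGap l Q g bc) {R : ℤ}
    (hR : (⌊δ * n⌋₊ : ℤ) + 4 ≤ R) {ω : Cfg} (hω : Good ω)
    (hZ : ∀ ℓ ∈ LE ω (bS (uI (frows θ β p Q n ⌊δ * n⌋₊ bc))), ¬ VisL (hB p Q n R : Set (ℤ × ℤ)) ℓ →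
      ∀ y ∈ ℓ, tlv y ∈ uI (frows θ β p Q n ⌊δ * n⌋₊ bc) →
      hdv y ∉ uI (frows θ β p Q n ⌊δ * n⌋₊ bc) → hdv y ∉ enl S₀ n →
      ∀ (σ : ℤ) (φ : ℤ × ℤ → ℤ), ExtPot (enl S₀ n ∪ uI (frows θ β p Q n ⌊δ * n⌋₊ bc))
        (exc (uI (frows θ β p Q n ⌊δ * n⌋₊ bc)) ω y) σ φ →
      Zro θ β (bc.ka l n (Enl.tB n Q)) (qN p n (Enl.tB n Q)) (uN p n (Enl.tB n Q)) σ φ) :
    TO θ (uI (frows θ β p Q n ⌊δ * n⌋₊ bc)) (rowC θ (frows θ β p Q n ⌊δ * n⌋₊ bc) 0).ph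
      (hB p Q n R : Set (ℤ × ℤ)) ω ≠ 0 :=
  (frame_fam hp hD hQ hg hδ hδg hn hb).TO_ne hθ hθ' (fun _ _ => hβ) hω
    (fun _ hv => frame_end hp hD hQ hg hδ hδg hn hR hv)
    (fun _ h1 h2 => frame_hole hp hD hQ hg hδ hδg hn hR h1 h2)
    (inK_base hp hQ hg hδ hδg hn) (fun h1 h2 => inK_junction hp hQ hg hδ hδg hn hbg h1 h2) hZ

/-- **(L2S (a), first part)** The factor of a loop off the holes is not negative. -/
theorem frame_fLp_nonneg (hθ : 0 < θ) (hθ' : θ ≤ Real.pi / 3)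
    (hβ : β = (θ - Real.pi) / 2 ∨ β = (Real.pi - 3 * θ) / 2) (hp : IsPolygon p)
    (hD : Encloses p S₀) (hQ : Q.Ok) {g δ : ℝ} (hg : Gap Q l g) (hδ : 0 < δ) (hδg : 4 * δ ≤ g)
    (hn : 16 ≤ δ * n) (hb : bc.Ok l Q) {R : ℤ}
    (hR : (⌊δ * n⌋₊ : ℤ) + 4 ≤ R) {ω : Cfg} (hω : Good ω) {ℓ : Finset Ed} (hl : IsLoop ω ℓ)
    (hv : ¬ VisL (hB p Q n R : Set (ℤ × ℤ)) ℓ) :
    0 ≤ fLp θ (uI (frows θ β p Q n ⌊δ * n⌋₊ bc)) (rowC θ (frows θ β p Q n ⌊δ * n⌋₊ bc) 0).ph ω ℓ :=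
  (frame_fam hp hD hQ hg hδ hδg hn hb).fLp_nonneg hθ hθ' (fun _ _ => hβ) hω
    (fun _ hv => frame_end hp hD hQ hg hδ hδg hn hR hv)
    (fun _ h1 h2 => frame_hole hp hD hQ hg hδ hδg hn hR h1 h2) hl hv

end frame

end Vale.Agent.P167.H871.Q
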