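import Vale.Agent.P167.H871.DomT

/-!
# P167, general `q`: windows around the holes of a frame of rows (thick walls), polygons

Closed lattice curves given on one period; change of the origin and of the direction.
-/

namespace Vale.Agent.P167.H871.Q

open Finset
open Vale.Agent.P167.Top

/-- A closed curve given on one period. -/
theorem bd_fin {D : Set (ℤ × ℤ)} {n : ℕ} (hn : 0 < n) {p : ℕ → ℤ × ℤ} {u : ℕ → ℤ} {σ : ℤ}
    (h0 : p n = p 0) (hu : u n = u 0 + 4 * σ) (step : ∀ k < n, p (k + 1) = p k + vec (u k))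
    (turn : ∀ k < n, |u (k + 1) - u k| ≤ 1) (inj : ∀ k l, k < l → l < n → p k ≠ p l)
    (left : ∀ k < n, sqL (p k) (u k) ∈ D) (right : ∀ k < n, sqL (p k) (u k - 1) ∉ D) :
    Bd D n (fun k => p (k % n)) (fun k => u (k % n) + 4 * σ * ((k / n : ℕ) : ℤ)) σ := by
  have hm : ∀ (x : ℤ) (k : ℕ), (x + 4 * σ * ((k / n : ℕ) : ℤ)) % 4 = x % 4 := fun x k => by
    rw [mul_assoc]; omega
  have hcase : ∀ k : ℕ, ((k + 1) % n = k % n + 1 ∧ k % n + 1 < n ∧ (k + 1) / n = k / n) ∨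
      ((k + 1) % n = 0 ∧ k % n + 1 = n ∧ (k + 1) / n = k / n + 1) := by
    intro k
    have h1 := Nat.div_add_mod k n
    have h2 := Nat.mod_lt k hn
    rcases Nat.lt_or_ge (k % n + 1) n with h3 | h3
    · left
      have e1 : k + 1 = (k % n + 1) + n * (k / n) := by omega
      refine ⟨?_, h3, ?_⟩
      · conv_lhs => rw [e1]
        rw [Nat.add_mul_mod_self_left, Nat.mod_eq_of_lt h3]
      · conv_lhs => rw [e1]
        rw [Nat.add_mul_div_left _ _ hn, Nat.div_eq_of_lt h3, zero_add]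
    · right
      have e0 : k % n + 1 = n := by omega
      have e1 : k + 1 = 0 + n * (k / n + 1) := by rw [mul_add, mul_one]; omega
      refine ⟨?_, e0, ?_⟩
      · conv_lhs => rw [e1]
        rw [Nat.add_mul_mod_self_left, Nat.zero_mod]
      · conv_lhs => rw [e1]
        rw [Nat.add_mul_div_left _ _ hn, Nat.zero_div, zero_add]
  refine ⟨fun k => ?_, fun k => ?_, fun k => ?_, fun k => ?_, fun k l hkl hl => ?_, fun k => ?_,
    fun k => ?_⟩
  · have h1 := step (k % n) (Nat.mod_lt k hn)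
    try simp only
    rw [vec_congr (hm _ k), ← h1]
    rcases hcase k with ⟨h2, -, -⟩ | ⟨h2, h3, -⟩
    · rw [h2]
    · rw [h2, h3, h0]
  · have h1 := turn (k % n) (Nat.mod_lt k hn)
    try simp only
    rcases hcase k with ⟨h2, -, h4⟩ | ⟨h2, h3, h4⟩
    · rw [h2, h4]
      rw [abs_le] at h1 ⊢
      constructor <;> linarith [h1.1, h1.2]
    · rw [h3, hu] at h1
      rw [h2, h4]
      push_cast
      rw [abs_le] at h1 ⊢
      constructor <;> linarith [h1.1, h1.2]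
  · try simp only
    rw [Nat.add_mod_right, Nat.add_div_right _ hn]
    push_cast
    ring
  · try simp only
    rw [Nat.add_mod_right]
  · try simp only
    intro he
    have h1 := Nat.mod_lt k hn
    have h2 := Nat.mod_lt l hn
    have h3 := Nat.div_add_mod k n
    have h4 := Nat.div_add_mod l n
    rcases lt_trichotomy (k % n) (l % n) with h5 | h5 | h5
    · exact inj _ _ h5 h2 he
    · have h6 : k / n = l / n ∨ k / n + 1 ≤ l / n ∨ l / n + 1 ≤ k / n := by omega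
      rcases h6 with h6 | h6 | h6
      · rw [h6] at h3; omega
      · have := Nat.mul_le_mul_left n h6
        rw [mul_add, mul_one] at this
        omega
      · have := Nat.mul_le_mul_left n h6
        rw [mul_add, mul_one] at this
        omega
    · exact inj _ _ h5 h1 he.symm
  · try simp only
    rw [sqL_congr (hm _ k)]
    exact left _ (Nat.mod_lt k hn)
  · try simp only
    rw [sqL_congr (d' := u (k % n) - 1) (by rw [mul_assoc]; omega)]
    exact right _ (Nat.mod_lt k hn)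

/-! ### change of origin and direction -/

/-- The site with the coordinates `s` in the frame `(z, d)`. -/
def Ls (z : ℤ × ℤ) (d : ℤ) (s : ℤ × ℤ) : ℤ × ℤ :=
  (z.1 + s.1 * dx d - s.2 * dy d, z.2 + s.1 * dy d + s.2 * dx d)

/-- The coordinates of the square `v` in the frame `(z, d)`. -/
def Lq (z : ℤ × ℤ) (d : ℤ) (v : ℤ × ℤ) : ℤ × ℤ :=
  ((v.1 - z.1) * dx d + (v.2 - z.2) * dy d + (dx d + dy d - 1) / 2,
    (v.2 - z.2) * dx d - (v.1 - z.1) * dy d + (dx d - dy d - 1) / 2)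

theorem Ls_vec (z : ℤ × ℤ) (d : ℤ) (s : ℤ × ℤ) (t : ℤ) :
    Ls z d (s + vec t) = Ls z d s + vec (t + d) := by
  rcases head_cases d with ⟨a, b, c⟩ | ⟨a, b, c⟩ | ⟨a, b, c⟩ | ⟨a, b, c⟩ <;>
    rcases head_cases t with ⟨a', b', c'⟩ | ⟨a', b', c'⟩ | ⟨a', b', c'⟩ | ⟨a', b', c'⟩ <;>
    rcases head_cases (t + d) with ⟨a'', b'', c''⟩ | ⟨a'', b'', c''⟩ | ⟨a'', b'', c''⟩ |
      ⟨a'', b'', c''⟩ <;>
    first
    | (exfalso; omega)
    | (unfold Ls vec; rw [b, c, b', c', b'', c'']; ext <;> simp <;> ring)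

theorem Lq_sqL (z : ℤ × ℤ) (d : ℤ) (s : ℤ × ℤ) (t : ℤ) :
    Lq z d (sqL (Ls z d s) (t + d)) = sqL s t := by
  rcases head_cases d with ⟨a, b, c⟩ | ⟨a, b, c⟩ | ⟨a, b, c⟩ | ⟨a, b, c⟩ <;>
    rcases (by omega : t % 4 = 0 ∨ t % 4 = 1 ∨ t % 4 = 2 ∨ t % 4 = 3) with h | h | h | h <;>
    rcases (by omega : (t + d) % 4 = 0 ∨ (t + d) % 4 = 1 ∨ (t + d) % 4 = 2 ∨ (t + d) % 4 = 3)
      with h' | h' | h' | h' <;>
    first
    | (exfalso; omega)
    | (unfold Lq Ls sqL; rw [b, c]; simp [h, h'] <;> ring_nf <;> trivial)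

theorem Ls_inj {z : ℤ × ℤ} {d : ℤ} {s s' : ℤ × ℤ} (h : Ls z d s = Ls z d s') : s = s' := by
  unfold Ls at h
  rcases head_cases d with ⟨a, b, c⟩ | ⟨a, b, c⟩ | ⟨a, b, c⟩ | ⟨a, b, c⟩ <;>
    rw [b, c] at h <;> simp only [Prod.mk.injEq] at h <;> ext <;> omega

/-- Change of frame. -/
theorem Bd.frame {D : Set (ℤ × ℤ)} {n : ℕ} {P : ℕ → ℤ × ℤ} {u : ℕ → ℤ} {σ : ℤ}
    (h : Bd D n P u σ) (z : ℤ × ℤ) (d : ℤ) :
    Bd {v | Lq z d v ∈ D} n (fun k => Ls z d (P k)) (fun k => u k + d) σ := by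
  refine ⟨fun k => ?_, fun k => ?_, fun k => ?_, fun k => ?_, fun k l h1 h2 h3 => ?_, fun k => ?_,
    fun k => ?_⟩
  · try simp only
    rw [h.step, Ls_vec]
  · have := h.turn k
    try simp only
    rw [show u (k + 1) + d - (u k + d) = u (k + 1) - u k by ring]
    exact this
  · try simp only
    rw [h.per]; ring
  · try simp only
    rw [h.perP]
  · exact h.inj k l h1 h2 (Ls_inj h3)
  · try simp only
    rw [Set.mem_ofPred_eq, Lq_sqL]
    exact h.left k
  · try simp only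
    rw [Set.mem_ofPred_eq, show u k + d - 1 = (u k - 1) + d by ring, Lq_sqL]
    exact h.right k

/-- The turning of a strand in a domain with boundary curve. -/
theorem bd_turn {D : Set (ℤ × ℤ)} {n : ℕ} {P : ℕ → ℤ × ℤ} {u : ℕ → ℤ} (hu : Bd D n P u 1)
    {ω : Cfg} {e : Ed} {m i j : ℕ} (hm : 1 ≤ m) (hin : i < n) (hjn : j < n)
    (hi : P4 e = M4 (P i) (u i)) (hj : P4 ((nx ω)^[m] e) = M4 (P j) (u j))
    (hD : ∀ k < m, hdv ((nx ω)^[k] e) ∈ D) (ht : tlv e ∉ D) (hh : hdv ((nx ω)^[m] e) ∉ D) :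
    i ≠ j ∧ ∑ k ∈ range m, trn ω ((nx ω)^[k] e) = u j - u i + (if i < j then -2 else 2) := by
  have hT : dl ω e m - hd4 e = ∑ k ∈ range m, trn ω ((nx ω)^[k] e) := by
    unfold dl; ring
  rcases lt_trichotomy i j with h | h | h
  · refine ⟨h.ne, ?_⟩
    obtain ⟨q, h1, h2, h3⟩ := dom_turn hu hm h (by omega) hi hj hD ht hh
    rw [if_pos h, ← hT, h1]
    omega
  · exfalso
    subst h
    have h0 : (nx ω)^[m] e = e := P4_inj (hj.trans hi.symm)
    rw [h0] at hh
    exact hh (hD 0 (by omega))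
  · refine ⟨h.ne', ?_⟩
    have h5 := hu.per j
    have h6 := hu.perP j
    obtain ⟨q, h1, h2, h3⟩ := dom_turn hu hm (i := i) (j := j + n) (by omega) (by omega) hi
      (by rw [h5, h6, hj]; exact M4_congr (by omega)) hD ht hh
    rw [if_neg (by omega), ← hT, h1, h5]
    omega

end Vale.Agent.P167.H871.Q
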