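import Vale.Agent.P167.H871.Q.OutQ
import Vale.Agent.P167.H871.Q.WinA

/-!
# P167, general `q`: the arcs inside a frozen row

`I` is the domain of a lattice polygon `q`, all of whose squares are closed (open): the strand which
enters at the side `j` turns around the site `q j` (`q (j + 1)`) and leaves at the side `j - 1`
(`j + 1`).
-/

namespace Vale.Agent.P167.H871.Q

open Finset
open Vale.Agent.P167.Top
open Vale.Agent.P167.A (plane)
open Vale.Agent.P167.H199 (cang ah at' strand ret Returns)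
open Vale.Agent.P167.E6 (IsPolygon Encloses)
open Vale.Agent.P167.BR (be be_even be_odd)
open Vale.Agent.P167.XDL (bS mem_bS exists_idx P4_be ah_add_at)

variable {n : ℕ} {q : ZMod n → ℤ × ℤ} {D : Finset (ℤ × ℤ)} {u : ℕ → ℤ} {a : Ed → Bool → ℝ}
  {θ : ℝ} {ω : Cfg} {e : Ed} {S : Finset Ed}

/-- The strand of an edge which enters `D`, if the cuts near `D` are the boundary of `D`. -/
theorem strand_in' (hS : bS D ⊆ S) (hin : ∀ x ∈ S, tlv x ∈ D → hdv x ∉ D) (h1 : hdv e ∈ D)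
    (hr : Returns (nx ω) S e) :
    (∀ k < ret (nx ω) S e, hdv ((nx ω)^[k] e) ∈ D) ∧
      hdv ((nx ω)^[ret (nx ω) S e] e) ∉ D ∧ (nx ω)^[ret (nx ω) S e] e ∈ bS D := by
  obtain ⟨hm, hm2⟩ := hr.spec
  have hk : ∀ k < ret (nx ω) S e, hdv ((nx ω)^[k] e) ∈ D := by
    intro k
    induction k with
    | zero => intro _; exact h1
    | succ k ih =>
      intro hk
      by_contra h3
      have h4 := ih (by omega)
      apply H199.ret_min (f := nx ω) (S := S) (e := e) (k := k + 1) (by omega) hk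
      apply hS
      rw [mem_bS]
      right
      refine ⟨h3, ?_⟩
      rw [Function.iterate_succ_apply', tlv_nx]
      exact h4
  obtain ⟨m, hm'⟩ : ∃ m, ret (nx ω) S e = m + 1 := ⟨_, (Nat.sub_add_cancel hm).symm⟩
  have ht : tlv ((nx ω)^[ret (nx ω) S e] e) ∈ D := by
    rw [hm', Function.iterate_succ_apply', tlv_nx]
    exact hk m (by omega)
  have hh := hin _ hm2 ht
  exact ⟨hk, hh, mem_bS.2 (Or.inr ⟨hh, ht⟩)⟩

/-- The angle of a strand, with the phases of its two ends. -/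
theorem arc_cang (hS : bS D ⊆ S) (hin : ∀ x ∈ S, tlv x ∈ D → hdv x ∉ D) (h1 : hdv e ∈ D)
    (h2 : tlv e ∉ D) (hr : Returns (nx ω) S e)
    (hoff : ∀ x, hdv x ∈ D → tlv x ∈ D → a x false + a x true = 0) :
    cang plane θ a ω (strand (nx ω) S e) =
      θ / 4 * ((∑ k ∈ range (ret (nx ω) S e), trn ω ((nx ω)^[k] e) : ℤ) : ℝ) +
        ah plane a e + at' plane a ((nx ω)^[ret (nx ω) S e] e) := by
  obtain ⟨hk, -, -⟩ := strand_in' hS hin h1 hr
  refine cang_strand (hS (mem_bS.2 (Or.inl ⟨h1, h2⟩))) hr fun k k1 k2 => ?_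
  rw [ah_add_at, hoff _ (hk k k2) (by
    obtain ⟨j, rfl⟩ : ∃ j, k = j + 1 := ⟨k - 1, by omega⟩
    rw [Function.iterate_succ_apply', tlv_nx]
    exact hk j (by omega)), zero_mul]

/-- **The arcs of a closed row.** -/
theorem arc_closed (hq : IsPolygon q) (hD : Encloses q D)
    (hu : Bd (D : Set (ℤ × ℤ)) n (fun k => q (k : ZMod n)) u 1) (hS : bS D ⊆ S)
    (hin : ∀ x ∈ S, tlv x ∈ D → hdv x ∉ D) (hω : ∀ v ∈ D, ω v = false)
    (hr : Returns (nx ω) S e) {j : ℕ} (hj : j < n) (he : e = be q (j : ZMod n)) (h1 : hdv e ∈ D)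
    (h2 : tlv e ∉ D) :
    (1 ≤ j → (nx ω)^[ret (nx ω) S e] e = be q ((j - 1 : ℕ) : ZMod n) ∧
      ∑ k ∈ range (ret (nx ω) S e), trn ω ((nx ω)^[k] e) = u (j - 1) - u j + 2) ∧
    (j = 0 → (nx ω)^[ret (nx ω) S e] e = be q ((n - 1 : ℕ) : ZMod n) ∧
      ∑ k ∈ range (ret (nx ω) S e), trn ω ((nx ω)^[k] e) = u (n - 1) - u 0 - 2) := by
  have hn : 0 < n := by omega
  have hn0 : NeZero n := ⟨by omega⟩
  obtain ⟨hk, hx, hb⟩ := strand_in' hS hin h1 hr
  obtain ⟨hm, -⟩ := hr.spec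
  obtain ⟨i, hi, hei⟩ := exists_idx hq hD hu hb
  have hl : ∀ k ≤ ret (nx ω) S e, ls ((nx ω)^[k] e) = ls e := by
    intro k
    induction k with
    | zero => intro _; rfl
    | succ k ih =>
      intro hk2
      rw [Function.iterate_succ_apply', ← ih (by omega)]
      exact ((H166.nx_step ω ((nx ω)^[k] e)).2 (hω _ (hk k (by omega)))).1
  have hev : Even ((q (j : ZMod n)).1 + (q (j : ZMod n)).2) := by
    by_contra h
    obtain ⟨_, _, _, h4⟩ := be_odd hq hD h
    rw [← he] at h4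
    exact h4 h1
  have hodd : ¬ Even ((q (i : ZMod n)).1 + (q (i : ZMod n)).2) := by
    intro h
    obtain ⟨_, _, h4, _⟩ := be_even hq hD h
    rw [← hei] at h4
    exact hx h4
  have h3 := hl _ le_rfl
  rw [hei, (be_odd hq hD hodd).2.1, he, (be_even hq hD hev).1] at h3
  have hij : (i : ZMod n) + 1 = (j : ZMod n) := hq.2.1 h3
  have hmod : (i + 1) % n = j % n := by
    have : ((i + 1 : ℕ) : ZMod n) = (j : ZMod n) := by push_cast; exact hij
    exact (ZMod.natCast_eq_natCast_iff' _ _ _).1 this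
  rw [Nat.mod_eq_of_lt hj] at hmod
  have hturn := bd_turn hu (ω := ω) (e := e) hm hj hi (by rw [he]; exact P4_be hq hu j)
    (by rw [hei]; exact P4_be hq hu i) hk h2 hx
  obtain ⟨-, hT⟩ := hturn
  rcases Nat.lt_or_ge (i + 1) n with h4 | h4
  · rw [Nat.mod_eq_of_lt h4] at hmod
    subst hmod
    refine ⟨fun _ => ?_, fun h => by omega⟩
    rw [Nat.add_sub_cancel]
    refine ⟨hei, ?_⟩
    rw [hT, if_neg (by omega)]
  · obtain rfl : i = n - 1 := by omega
    rw [show n - 1 + 1 = n by omega, Nat.mod_self] at hmod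
    subst hmod
    refine ⟨fun h => by omega, fun _ => ⟨hei, ?_⟩⟩
    rw [hT, if_pos (by have := hq.1; omega)]
    ring

/-- **The arcs of an open row.** -/
theorem arc_open (hq : IsPolygon q) (hD : Encloses q D)
    (hu : Bd (D : Set (ℤ × ℤ)) n (fun k => q (k : ZMod n)) u 1) (hS : bS D ⊆ S)
    (hin : ∀ x ∈ S, tlv x ∈ D → hdv x ∉ D) (hω : ∀ v ∈ D, ω v = true)
    (hr : Returns (nx ω) S e) {j : ℕ} (hj : j < n) (he : e = be q (j : ZMod n)) (h1 : hdv e ∈ D)
    (h2 : tlv e ∉ D) :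
    (j + 1 < n → (nx ω)^[ret (nx ω) S e] e = be q ((j + 1 : ℕ) : ZMod n) ∧
      ∑ k ∈ range (ret (nx ω) S e), trn ω ((nx ω)^[k] e) = u (j + 1) - u j - 2) ∧
    (j + 1 = n → (nx ω)^[ret (nx ω) S e] e = be q ((0 : ℕ) : ZMod n) ∧
      ∑ k ∈ range (ret (nx ω) S e), trn ω ((nx ω)^[k] e) = u 0 - u (n - 1) + 2) := by
  have hn : 0 < n := by omega
  have hn0 : NeZero n := ⟨by omega⟩
  obtain ⟨hk, hx, hb⟩ := strand_in' hS hin h1 hr
  obtain ⟨hm, -⟩ := hr.spec
  obtain ⟨i, hi, hei⟩ := exists_idx hq hD hu hb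
  have hl : ∀ k ≤ ret (nx ω) S e, rs ((nx ω)^[k] e) = rs e := by
    intro k
    induction k with
    | zero => intro _; rfl
    | succ k ih =>
      intro hk2
      rw [Function.iterate_succ_apply', ← ih (by omega)]
      exact ((H166.nx_step ω ((nx ω)^[k] e)).1 (hω _ (hk k (by omega)))).2
  have hev : Even ((q (j : ZMod n)).1 + (q (j : ZMod n)).2) := by
    by_contra h
    obtain ⟨_, _, _, h4⟩ := be_odd hq hD h
    rw [← he] at h4
    exact h4 h1
  have hodd : ¬ Even ((q (i : ZMod n)).1 + (q (i : ZMod n)).2) := by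
    intro h
    obtain ⟨_, _, h4, _⟩ := be_even hq hD h
    rw [← hei] at h4
    exact hx h4
  have h3 := hl _ le_rfl
  rw [hei, (be_odd hq hD hodd).1, he, (be_even hq hD hev).2.1] at h3
  have hij : (i : ZMod n) = (j : ZMod n) + 1 := hq.2.1 h3
  have hmod : i % n = (j + 1) % n := by
    have : (i : ZMod n) = ((j + 1 : ℕ) : ZMod n) := by push_cast; exact hij
    exact (ZMod.natCast_eq_natCast_iff' _ _ _).1 this
  rw [Nat.mod_eq_of_lt hi] at hmod
  have hturn := bd_turn hu (ω := ω) (e := e) hm hj hi (by rw [he]; exact P4_be hq hu j)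
    (by rw [hei]; exact P4_be hq hu i) hk h2 hx
  obtain ⟨-, hT⟩ := hturn
  rcases Nat.lt_or_ge (j + 1) n with h4 | h4
  · rw [Nat.mod_eq_of_lt h4] at hmod
    subst hmod
    refine ⟨fun _ => ⟨hei, ?_⟩, fun h => by omega⟩
    rw [hT, if_pos (by omega)]
    ring
  · obtain rfl : j = n - 1 := by omega
    rw [show n - 1 + 1 = n by omega, Nat.mod_self] at hmod
    subst hmod
    refine ⟨fun h => by omega, fun _ => ⟨hei, ?_⟩⟩
    rw [hT, if_neg (by omega)]

end Vale.Agent.P167.H871.Q
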