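import Vale.Agent.P167.H871.OutY
import Vale.Agent.P167.QX.ExtPot

/-!
# P167, general `q`: the exterior potential of an excursion (existence, link with the turning)
-/

namespace Vale.Agent.P167.H871.Q

open Finset
open Vale.Agent.P167.Top
open Vale.Agent.P167.E6 (IsPolygon Encloses)
open Vale.Agent.P167.H199 (strand ret Returns)
open Vale.Agent.P167.BR (be)
open Vale.Agent.P167.XDL (bS mem_bS exists_idx P4_be)

variable {D : Set (ℤ × ℤ)} {ω : Cfg} {e : Ed} {m : ℕ} {W : ℤ × ℤ → ℤ} {c s : ℤ}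
  {C : List ((ℤ × ℤ) × ℤ)}

theorem gam_step' (hc : c % 4 = 0) {p : (ℤ × ℤ) × ℤ} (hp : p ∈ gam ω e c m) : ∃ a < m,
    (p.1 = cor ω e c a ∧ p.1 + dv p.2 = P4 ((nx ω)^[a + 1] e)) ∨
      (p.1 = P4 ((nx ω)^[a] e) ∧ p.1 + dv p.2 = cor ω e c a) := by
  induction m with
  | zero => simp [gam] at hp
  | succ m ih =>
    rw [gam, List.mem_append] at hp
    rcases hp with hp | hp
    · obtain ⟨a, ha, h⟩ := ih hp
      exact ⟨a, by omega, h⟩
    · refine ⟨m, by omega, ?_⟩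
      simp only [List.mem_cons, List.not_mem_nil, or_false] at hp
      rcases hp with rfl | rfl
      · exact Or.inr ⟨rfl, rfl⟩
      · left
        refine ⟨rfl, ?_⟩
        rw [P4_step ω e c hc m]
        rfl

/-- The winding function does not change across a segment which is not used. -/
theorem free2 (hc : c % 4 = 0) (hW : WF (gam ω e c m ++ C) s W) (hC : ∀ p ∈ C, OutP D p)
    {X Y : ℤ × ℤ} (hX : X.1 % 2 = 1) (hXD : sqc X ∈ D)
    (hno : ∀ a < m, cor ω e c a = X → Y ≠ P4 ((nx ω)^[a] e) ∧ Y ≠ P4 ((nx ω)^[a + 1] e))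
    {z : ℤ × ℤ} (hz : (z.1 + z.2) % 2 = 1) {d : ℤ} (h1 : z + vec d = X) (h2 : z + vec (d + 1) = Y) :
    W z = W (z + dv d) := by
  apply hW.free z hz d
  intro p hp
  rw [h1, h2]
  rcases List.mem_append.1 hp with hp | hp
  · obtain ⟨a, ha, ⟨h3, h4⟩ | ⟨h3, h4⟩⟩ := gam_step' hc hp
    · constructor
      · rintro ⟨h5, h6⟩
        exact (hno a ha (h3.symm.trans h5)).2 (h6.symm.trans h4)
      · rintro ⟨h5, h6⟩
        have h7 : (P4 ((nx ω)^[a + 1] e)).1 % 2 = 0 := (P4_par _).1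
        rw [← h4, h6] at h7
        omega
    · constructor
      · rintro ⟨h5, h6⟩
        have h7 : (P4 ((nx ω)^[a] e)).1 % 2 = 0 := (P4_par _).1
        rw [← h3, h5] at h7
        omega
      · rintro ⟨h5, h6⟩
        exact (hno a ha (h4.symm.trans h6)).1 (h5.symm.trans h3)
  · have h3 := hC p hp X
    constructor
    · rintro ⟨h4, -⟩
      exact h3 (Or.inl h4.symm) hX hXD
    · rintro ⟨-, h4⟩
      exact h3 (Or.inr h4.symm) hX hXD

theorem Pt_odd (x : Ed) (t : ℤ) : ((P4 x + vec t).1 + (P4 x + vec t).2) % 2 = 1 := by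
  have h1 := P4_par x
  have h2 := vpar t
  simp only [Prod.fst_add, Prod.snd_add]
  omega

theorem sqc_P4 (x : Ed) (t : ℤ) : sqc (P4 x + dv t) =
    if t % 4 = hd4 x % 4 ∨ t % 4 = (hd4 x - 1) % 4 then hdv x else tlv x := by
  rcases x with ⟨a, b⟩ | ⟨a, b⟩ <;> by_cases hp : Even (a + b) <;>
    rcases (by omega : t % 4 = 0 ∨ t % 4 = 1 ∨ t % 4 = 2 ∨ t % 4 = 3) with h | h | h | h <;>
    rcases dv_cases t with ⟨h', g⟩ | ⟨h', g⟩ | ⟨h', g⟩ | ⟨h', g⟩ <;>
    first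
    | (exfalso; omega)
    | (rw [g]
       simp [sqc, P4, me, hd4, hdv, tlv, hp, h]
       (try constructor) <;> omega)

/-- A quarter turn around the midpoint of a medial edge. -/
theorem quarter (hc : c % 4 = 0) (hW : WF (gam ω e c m ++ C) s W) (hC : ∀ p ∈ C, OutP D p)
    (x : Ed) (t : ℤ)
    (hv : (if t % 4 = hd4 x % 4 ∨ t % 4 = (hd4 x - 1) % 4 then hdv x else tlv x) ∈ D)
    (hno : ∀ a < m, cor ω e c a = P4 x + dv t → x ≠ (nx ω)^[a] e ∧ x ≠ (nx ω)^[a + 1] e) :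
    W (P4 x + vec t) = W (P4 x + vec (t + 1)) := by
  obtain ⟨v1, v2, v3, -⟩ := vec_nt t
  obtain ⟨w1, w2, w3, -⟩ := vec_nt (t + 1)
  rw [show t + 1 + 1 = t + 2 by ring] at w2
  have h := free2 hc hW hC (X := P4 x + dv t) (Y := P4 x)
    (by have h1 := dv_odd t; have h2 := (P4_par x).1; simp only [Prod.fst_add]; omega)
    (by rw [sqc_P4]; exact hv)
    (fun a ha h1 => ⟨fun h2 => (hno a ha h1).1 (P4_inj h2), fun h2 => (hno a ha h1).2 (P4_inj h2)⟩)
    (Pt_odd x t) (d := t + 1) (by rw [v2]; abel) (by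
      rw [show t + 1 + 1 = t + 2 by ring, v1]; abel)
  rw [h, w2, v1]
  congr 1
  abel

theorem Dg_eq (hc : c % 4 = 0) (a : ℕ) : Dg ω e c a % 4 =
    (hd4 ((nx ω)^[a] e) + (if ω (hdv ((nx ω)^[a] e)) = true then -1 else 0)) % 4 := by
  have h2 := dl_mod ω e a
  have h3 := dl_succ ω e a
  unfold Dg
  unfold trn at h3
  split_ifs at h3 ⊢ <;> omega

theorem Dg_eq' (hc : c % 4 = 0) (a : ℕ) : Dg ω e c a % 4 =
    (hd4 ((nx ω)^[a + 1] e) + (if ω (hdv ((nx ω)^[a] e)) = true then 0 else -1)) % 4 := by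
  have h2 := dl_mod ω e (a + 1)
  have h3 := dl_succ ω e a
  unfold Dg
  unfold trn at h3
  split_ifs at h3 ⊢ <;> omega

theorem hdv_ne (x : Ed) : hdv x ≠ tlv x := by
  rcases x with ⟨a, b⟩ | ⟨a, b⟩ <;> by_cases hp : Even (a + b) <;> simp [hdv, tlv, hp]

theorem dv_ne {a b : ℤ} (h : a % 4 ≠ b % 4) : dv a ≠ dv b := by
  rcases dv_cases a with ⟨h1, g⟩ | ⟨h1, g⟩ | ⟨h1, g⟩ | ⟨h1, g⟩ <;>
    rcases dv_cases b with ⟨h2, k⟩ | ⟨h2, k⟩ | ⟨h2, k⟩ | ⟨h2, k⟩ <;>
    first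
    | (exfalso; omega)
    | (rw [g, k]; simp)

theorem vec_eq {a b : ℤ} (h : a % 4 = b % 4) : vec a = vec b := by
  unfold vec; rw [dx_congr h, dy_congr h]

/-- The values on the two sides of an edge of the strand, seen from the square in front. -/
theorem val_head (hc : c % 4 = 0) (hW : WF (gam ω e c m ++ C) s W) (hC : ∀ p ∈ C, OutP D p) {k : ℕ}
    (hk : k < m) (hv : hdv ((nx ω)^[k] e) ∈ D) :
    W (P4 ((nx ω)^[k] e) + vec (hd4 ((nx ω)^[k] e) + 1)) = (1 + s) / 2 ∧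
      W (P4 ((nx ω)^[k] e) + vec (hd4 ((nx ω)^[k] e) - 1)) = (s - 1) / 2 := by
  set x := (nx ω)^[k] e with hx
  have hmem : (P4 x, Dg ω e c k) ∈ gam ω e c m := by
    clear hW hv
    induction m with
    | zero => omega
    | succ m ih =>
      rw [gam, List.mem_append]
      rcases Nat.lt_or_ge k m with h | h
      · exact Or.inl (ih h)
      · right
        obtain rfl : k = m := by omega
        simp [hx]
  have h1 := hW.left _ (List.mem_append_left _ hmem)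
  have h2 := hW.right _ (List.mem_append_left _ hmem)
  have h3 := Dg_eq (ω := ω) (e := e) hc k
  rw [← hx] at h3
  have key : ∀ t : ℤ, (t % 4 = hd4 x % 4 ∨ t % 4 = (hd4 x - 1) % 4) → t % 4 ≠ Dg ω e c k % 4 →
      W (P4 x + vec t) = W (P4 x + vec (t + 1)) := by
    intro t ht ht2
    refine quarter hc hW hC x t (by rw [if_pos ht]; exact hv) fun a ha h4 => ⟨fun h5 => ?_,
      fun h5 => ?_⟩
    · have h6 : dv (Dg ω e c a) = dv t := by
        unfold cor at h4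
        rw [← h5] at h4
        exact add_left_cancel h4
      have h7 := Dg_eq (ω := ω) (e := e) hc a
      rw [← h5] at h7
      exact dv_ne (show Dg ω e c a % 4 ≠ t % 4 by omega) h6
    · have h6 := sqc_cor ω e hc a
      rw [h4, sqc_P4, if_pos ht] at h6
      have h7 : tlv x = hdv ((nx ω)^[a] e) := by
        rw [h5, Function.iterate_succ_apply', tlv_nx]
      exact hdv_ne x (h6.trans h7.symm)
  simp only at h1 h2
  rcases Bool.eq_false_or_eq_true (ω (hdv x)) with ho | ho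
  · rw [ho, if_pos rfl] at h3
    have h4 := key (hd4 x) (Or.inl rfl) (by omega)
    rw [vec_eq (show (Dg ω e c k + 1) % 4 = hd4 x % 4 by omega), h4] at h1
    rw [vec_eq (show Dg ω e c k % 4 = (hd4 x - 1) % 4 by omega)] at h2
    exact ⟨h1, h2⟩
  · rw [ho, if_neg (by simp)] at h3
    have h4 := key (hd4 x - 1) (Or.inr rfl) (by omega)
    rw [vec_eq (show (Dg ω e c k + 1) % 4 = (hd4 x + 1) % 4 by omega)] at h1
    rw [vec_eq (show Dg ω e c k % 4 = (hd4 x - 1 + 1) % 4 by omega), ← h4] at h2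
    exact ⟨h1, h2⟩

/-- The values on the two sides of an edge of the strand, seen from the square behind. -/
theorem val_tail (hc : c % 4 = 0) (hW : WF (gam ω e c m ++ C) s W) (hC : ∀ p ∈ C, OutP D p) {k : ℕ}
    (hk : k < m) (hv : hdv ((nx ω)^[k] e) ∈ D) :
    W (P4 ((nx ω)^[k + 1] e) + vec (hd4 ((nx ω)^[k + 1] e) + 1)) = (1 + s) / 2 ∧
      W (P4 ((nx ω)^[k + 1] e) + vec (hd4 ((nx ω)^[k + 1] e) - 1)) = (s - 1) / 2 := by
  set x := (nx ω)^[k + 1] e with hx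
  have htl : tlv x = hdv ((nx ω)^[k] e) := by rw [hx, Function.iterate_succ_apply', tlv_nx]
  have hmem : (cor ω e c k, Dg ω e c k) ∈ gam ω e c m := by
    clear hW hv
    induction m with
    | zero => omega
    | succ m ih =>
      rw [gam, List.mem_append]
      rcases Nat.lt_or_ge k m with h | h
      · exact Or.inl (ih h)
      · right
        obtain rfl : k = m := by omega
        simp
  have h1 := hW.left _ (List.mem_append_left _ hmem)
  have h2 := hW.right _ (List.mem_append_left _ hmem)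
  have h3 := Dg_eq' (ω := ω) (e := e) hc k
  rw [← hx, ← htl] at h3
  have hcor : ∀ a, (nx ω)^[a + 1] e = x → cor ω e c a = P4 x + dv (Dg ω e c a + 2) := by
    intro a ha
    have h5 := P4_step ω e c hc a
    rw [ha] at h5
    unfold cor
    rw [h5, dv_add_two]
    abel
  have key : ∀ t : ℤ, (t % 4 = (hd4 x + 1) % 4 ∨ t % 4 = (hd4 x + 2) % 4) →
      t % 4 ≠ (Dg ω e c k + 2) % 4 → W (P4 x + vec t) = W (P4 x + vec (t + 1)) := by
    intro t ht ht2
    have ht3 : ¬ (t % 4 = hd4 x % 4 ∨ t % 4 = (hd4 x - 1) % 4) := by omega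
    refine quarter hc hW hC x t (by rw [if_neg ht3, htl]; exact hv) fun a ha h4 => ⟨fun h5 => ?_,
      fun h5 => ?_⟩
    · have h6 := sqc_cor ω e hc a
      rw [h4, sqc_P4, if_neg ht3, ← h5] at h6
      exact hdv_ne x h6.symm
    · rw [hcor a h5.symm] at h4
      have h6 : dv (Dg ω e c a + 2) = dv t := add_left_cancel h4
      have h7 := Dg_eq' (ω := ω) (e := e) hc a
      have h8 : hdv ((nx ω)^[a] e) = tlv x := by
        rw [h5, Function.iterate_succ_apply', tlv_nx]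
      rw [← h5, h8] at h7
      exact dv_ne (show (Dg ω e c a + 2) % 4 ≠ t % 4 by omega) h6
  simp only at h1 h2
  rw [hcor k rfl] at h1 h2
  have e1 : P4 x + dv (Dg ω e c k + 2) + vec (Dg ω e c k + 1) = P4 x + vec (Dg ω e c k + 2) := by
    obtain ⟨v1, v2, -⟩ := vec_nt (Dg ω e c k)
    rw [dv_add_two, v1, v2]
    abel
  have e2 : P4 x + dv (Dg ω e c k + 2) + vec (Dg ω e c k) = P4 x + vec (Dg ω e c k + 3) := by
    obtain ⟨v1, v2, -⟩ := vec_nt (Dg ω e c k)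
    obtain ⟨w1, -⟩ := vec_nt (Dg ω e c k + 1)
    rw [show Dg ω e c k + 1 + 2 = Dg ω e c k + 3 by ring] at w1
    rw [dv_add_two, w1, v2]
    abel
  rw [e1] at h1
  rw [e2] at h2
  rcases Bool.eq_false_or_eq_true (ω (tlv x)) with ho | ho
  · rw [ho, if_pos rfl] at h3
    have h4 := key (hd4 x + 1) (Or.inl rfl) (by omega)
    rw [vec_eq (show (Dg ω e c k + 2) % 4 = (hd4 x + 1 + 1) % 4 by omega), ← h4] at h1
    rw [vec_eq (show (Dg ω e c k + 3) % 4 = (hd4 x - 1) % 4 by omega)] at h2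
    exact ⟨h1, h2⟩
  · rw [ho, if_neg (by simp)] at h3
    have h4 := key (hd4 x + 2) (Or.inr rfl) (by omega)
    rw [vec_eq (show (Dg ω e c k + 2) % 4 = (hd4 x + 1) % 4 by omega)] at h1
    rw [vec_eq (show (Dg ω e c k + 3) % 4 = (hd4 x + 2) % 4 by omega), h4,
      vec_eq (show (hd4 x + 2 + 1) % 4 = (hd4 x - 1) % 4 by omega)] at h2
    exact ⟨h1, h2⟩

/-- No jump across an edge which is not in the strand. -/
theorem val_off (hc : c % 4 = 0) (hW : WF (gam ω e c m ++ C) s W) (hC : ∀ p ∈ C, OutP D p)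
    {x : Ed} (hx : ∀ k ≤ m, (nx ω)^[k] e ≠ x) (hv : hdv x ∈ D ∨ tlv x ∈ D) :
    W (P4 x + vec (hd4 x + 1)) = W (P4 x + vec (hd4 x - 1)) := by
  have hno : ∀ t : ℤ, ∀ a < m, cor ω e c a = P4 x + dv t → x ≠ (nx ω)^[a] e ∧
      x ≠ (nx ω)^[a + 1] e := fun t a ha _ =>
    ⟨fun h => hx a ha.le h.symm, fun h => hx (a + 1) (by omega) h.symm⟩
  rcases hv with hv | hv
  · have h1 := quarter hc hW hC x (hd4 x) (by rw [if_pos (Or.inl rfl)]; exact hv) (hno _)
    have h2 := quarter hc hW hC x (hd4 x - 1) (by rw [if_pos (Or.inr rfl)]; exact hv) (hno _)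
    rw [h2, ← h1, vec_eq (show (hd4 x - 1 + 1) % 4 = hd4 x % 4 by omega)]
  · have h1 := quarter hc hW hC x (hd4 x + 1) (by rw [if_neg (by omega)]; exact hv) (hno _)
    have h2 := quarter hc hW hC x (hd4 x + 2) (by rw [if_neg (by omega)]; exact hv) (hno _)
    rw [h1, vec_eq (show (hd4 x + 1 + 1) % 4 = (hd4 x + 2) % 4 by omega), h2,
      vec_eq (show (hd4 x + 2 + 1) % 4 = (hd4 x - 1) % 4 by omega)]

/-! ### the site function -/

theorem rs_eq (x : Ed) : rs x = ls x + vec (hd4 x - 1) ∧ P4 x = M4 (ls x) (hd4 x - 1) ∧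
    hdv x = sqL (ls x) (hd4 x - 1) ∧ tlv x = sqL (ls x) (hd4 x - 2) ∧
    hdv x = sqL (rs x) (hd4 x) ∧ tlv x = sqL (rs x) (hd4 x + 1) := by
  rcases x with ⟨a, b⟩ | ⟨a, b⟩ <;> by_cases hp : Even (a + b) <;>
    simp [P4, me, ls, rs, hd4, hdv, tlv, M4_eq, sqL, vec, dx, dy, hp] <;>
    (try constructor) <;> omega

/-- The values at the two sites of an edge. -/
theorem psi_ends (h : SW D ω e m W) {x : Ed} {v : ℤ × ℤ} (hv : v ∈ D) (hx : v = hdv x ∨ v = tlv x) :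
    psi W v (ls x) = W (P4 x + vec (hd4 x + 1)) ∧ psi W v (rs x) = W (P4 x + vec (hd4 x - 1)) := by
  obtain ⟨r1, r2, r3, r4, r5, r6⟩ := rs_eq x
  have hneg : ∀ y : ℤ, vec (y + 1) = - vec (y - 1) := fun y => by
    have := (vec_nt (y - 1)).1
    rw [show y - 1 + 2 = y + 1 by ring] at this
    exact this
  have e1 : S4 (ls x) + vec (hd4 x - 1) = P4 x + vec (hd4 x + 1) := by
    rw [r2, M4_vec, hneg]; abel
  have e2 : S4 (rs x) + vec (hd4 x + 1) = P4 x + vec (hd4 x - 1) := by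
    rw [r2, M4_vec, r1, S4_add, hneg]; abel
  rcases hx with rfl | rfl
  · constructor
    · have h1 := (psi_eq h (s := ls x) (d := hd4 x - 1) (by rw [← r3]; exact hv)).1
      rw [← r3, e1] at h1
      exact h1
    · have h1 := (psi_eq h (s := rs x) (d := hd4 x) (by rw [← r5]; exact hv)).2
      rw [← r5, e2] at h1
      exact h1
  · constructor
    · have h1 := (psi_eq h (s := ls x) (d := hd4 x - 2) (by rw [← r4]; exact hv)).2
      rw [← r4, show hd4 x - 2 + 1 = hd4 x - 1 by ring, e1] at h1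
      exact h1
    · have h1 := (psi_eq h (s := rs x) (d := hd4 x + 1) (by rw [← r6]; exact hv)).1
      rw [← r6, e2] at h1
      exact h1

theorem isC_ends (x : Ed) : (IsC (hdv x) (ls x) ∧ IsC (hdv x) (rs x)) ∧
    (IsC (tlv x) (ls x) ∧ IsC (tlv x) (rs x)) := by
  obtain ⟨r1, r2, r3, r4, r5, r6⟩ := rs_eq x
  refine ⟨⟨?_, ?_⟩, ?_, ?_⟩
  · rw [r3]; exact isC_sqL _ _
  · rw [r5]; exact isC_sqL _ _
  · rw [r4]; exact isC_sqL _ _
  · rw [r6]; exact isC_sqL _ _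

variable {n : ℕ} {q : ZMod n → ℤ × ℤ} {I : Finset (ℤ × ℤ)} {u : ℕ → ℤ}

/-- The potential of a closed curve. -/
theorem pot_of (hq : IsPolygon q) (hI : Encloses q I)
    (hu : Bd (I : Set (ℤ × ℤ)) n (fun k => q (k : ZMod n)) u 1)
    (h1 : hdv e ∉ I) (hr : Returns (nx ω) (bS I) e)
    (hc : c % 4 = 0) (hs : s = 1 ∨ s = -1)
    (hW : WF (gam ω e c (ret (nx ω) (bS I) e) ++ C) s W) (hC : ∀ p ∈ C, OutP ((I : Set (ℤ × ℤ))ᶜ) p)
    (hfar : ∃ x1 x2 y1 y2 : ℤ, ∀ p ∈ gam ω e c (ret (nx ω) (bS I) e) ++ C,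
      InB x1 x2 y1 y2 p.1) :
    ∃ φ, QX.ExtPot I (QX.exc I ω e) s φ := by
  classical
  have h : SW ((I : Set (ℤ × ℤ))ᶜ) ω e (ret (nx ω) (bS I) e) W := ⟨c, s, C, hc, hW, hC⟩
  let φ : ℤ × ℤ → ℤ := fun t => if ht : ∃ v, v ∉ I ∧ IsC v t then psi W ht.choose t else 0
  have key : ∀ v ∉ I, ∀ t, IsC v t → φ t = psi W v t := by
    intro v hv t ht
    have hex : ∃ v, v ∉ I ∧ IsC v t := ⟨v, hv, ht⟩
    simp only [φ, dif_pos hex]
    exact psi_around hq hI hu h hex.choose_spec.1 hv hex.choose_spec.2 ht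
  have hends : ∀ x : Ed, (hdv x ∉ I ∨ tlv x ∉ I) → φ (ls x) = W (P4 x + vec (hd4 x + 1)) ∧
      φ (rs x) = W (P4 x + vec (hd4 x - 1)) := by
    intro x hx
    obtain ⟨⟨c1, c2⟩, c3, c4⟩ := isC_ends x
    rcases hx with hx | hx
    · obtain ⟨g1, g2⟩ := psi_ends h (x := x) (v := hdv x) hx (Or.inl rfl)
      exact ⟨(key _ hx _ c1).trans g1, (key _ hx _ c2).trans g2⟩
    · obtain ⟨g1, g2⟩ := psi_ends h (x := x) (v := tlv x) hx (Or.inr rfl)
      exact ⟨(key _ hx _ c3).trans g1, (key _ hx _ c4).trans g2⟩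
  have hk : ∀ k < ret (nx ω) (bS I) e, hdv ((nx ω)^[k] e) ∉ I := fun k hk =>
    QX.out_stays h1 hk
  have hval : ∀ x ∈ QX.exc I ω e, φ (ls x) = (1 + s) / 2 ∧ φ (rs x) = (s - 1) / 2 := by
    intro x hx
    obtain ⟨g1, g2⟩ := hends x (QX.exc_ni h1 hr hx)
    rw [g1, g2]
    obtain ⟨k, hk2, rfl⟩ := QX.mem_exc.1 hx
    rcases Nat.lt_or_ge k (ret (nx ω) (bS I) e) with h' | h'
    · exact val_head hc hW hC h' (hk k h')
    · obtain ⟨hm, -⟩ := hr.spec
      obtain ⟨j, hj⟩ : ∃ j, k = j + 1 := ⟨k - 1, by omega⟩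
      rw [hj]
      exact val_tail hc hW hC (by omega) (hk j (by omega))
  refine ⟨φ, hs, ?_, fun x hx => (hval x hx).1, fun x hx => (hval x hx).2, ?_⟩
  · intro x hx
    by_cases hA : x ∈ QX.exc I ω e
    · obtain ⟨g1, g2⟩ := hval x hA
      rw [g1, g2, if_pos hA]
      rcases hs with rfl | rfl <;> norm_num
    · obtain ⟨g1, g2⟩ := hends x hx
      rw [g1, g2, if_neg hA, add_zero]
      refine val_off hc hW hC (fun k hk2 hk3 => hA (QX.mem_exc.2 ⟨k, hk2, hk3⟩)) hx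
  · obtain ⟨x1, x2, y1, y2, hb⟩ := hfar
    refine ⟨|x1| + |x2| + |y1| + |y2|, fun t ht => ?_⟩
    simp only [φ]
    split_ifs with hex
    · refine hW.out hb hex.choose_spec.2 ?_
      have a1 := abs_nonneg x1
      have a2 := abs_nonneg x2
      have a3 := abs_nonneg y1
      have a4 := abs_nonneg y2
      have b1 := neg_abs_le x1
      have b2 := le_abs_self x2
      have b3 := neg_abs_le y1
      have b4 := le_abs_self y2
      rcases ht with ht | ht
      · rcases lt_abs.1 ht with ht | ht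
        · right; left; linarith
        · left; linarith
      · rcases lt_abs.1 ht with ht | ht
        · right; right; right; linarith
        · right; right; left; linarith
    · rfl

/-- **Exterior potential and turning of an excursion.** -/
theorem exists_ext (hq : IsPolygon q) (hI : Encloses q I)
    (hu : Bd (I : Set (ℤ × ℤ)) n (fun k => q (k : ZMod n)) u 1)
    (h1 : hdv e ∉ I) (h2 : tlv e ∈ I) (hr : Returns (nx ω) (bS I) e) :
    ∃ i j φ, ∃ σ : ℤ, i < n ∧ j < n ∧ i ≠ j ∧ e = be q (i : ZMod n) ∧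
      (nx ω)^[ret (nx ω) (bS I) e] e = be q (j : ZMod n) ∧ QX.ExtPot I (QX.exc I ω e) σ φ ∧
      ∑ k ∈ range (ret (nx ω) (bS I) e), trn ω ((nx ω)^[k] e) = u j - u i +
        (if i < j then (if σ = 1 then 2 else -6) else (if σ = 1 then 6 else -2)) := by
  have heS : e ∈ bS I := mem_bS.2 (Or.inr ⟨h1, h2⟩)
  obtain ⟨hm, hS⟩ := hr.spec
  have hk : ∀ k < ret (nx ω) (bS I) e, hdv ((nx ω)^[k] e) ∉ I := fun k hk =>
    QX.out_stays h1 hk
  have hh := (QX.exc_last h1 hr).1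
  obtain ⟨i, hin, hei⟩ := exists_idx hq hI hu heS
  obtain ⟨j, hjn, hej⟩ := exists_idx hq hI hu hS
  set m := ret (nx ω) (bS I) e with hmdef
  have hi : P4 e = M4 (q (i : ZMod n)) (u i) := by rw [hei]; exact P4_be hq hu i
  have hj : P4 ((nx ω)^[m] e) = M4 (q (j : ZMod n)) (u j) := by rw [hej]; exact P4_be hq hu j
  have hn : 0 < n := by have := hq.1; omega
  have hn0 : NeZero n := ⟨by omega⟩
  have hT : dl ω e m - hd4 e = ∑ k ∈ range m, trn ω ((nx ω)^[k] e) := by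
    unfold dl; ring
  have hr' := hu.rev hn
  have hidx : ∀ a < n, (n - 1) * (n - 1 - a + 1) = a + n * (n - 1 - a) := by
    intro a ha
    obtain ⟨b, rfl⟩ : ∃ b, n = a + b + 1 := ⟨n - 1 - a, by omega⟩
    rw [show a + b + 1 - 1 - a = b by omega, show a + b + 1 - 1 = a + b by omega]
    ring
  have hU : ∀ a < n, (u ((n - 1) * (n - 1 - a + 1)) - 4 * 1 * (((n - 1 - a : ℕ) : ℤ) + 1) + 2 : ℤ)
      = u a - 2 := by
    intro a ha
    have := (hu.perN a (n - 1 - a)).1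
    rw [hidx a ha, this]
    ring
  have hM : ∀ a < n, M4 (q (((n - 1) * (n - 1 - a + 1) + 1 : ℕ) : ZMod n))
      (u ((n - 1) * (n - 1 - a + 1)) - 4 * 1 * (((n - 1 - a : ℕ) : ℤ) + 1) + 2) =
      M4 (q (a : ZMod n)) (u a) := by
    intro a ha
    rw [hU a ha, hidx a ha]
    have h1 := (hu.perN (a + 1) (n - 1 - a)).2
    try simp only at h1
    rw [show a + n * (n - 1 - a) + 1 = a + 1 + n * (n - 1 - a) by ring, h1]
    have h2 := hu.step a
    try simp only at h2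
    rw [h2, ← M4_rev (q (a : ZMod n)) (u a)]
    exact M4_congr (by omega)
  -- a box
  have hbox : ∃ x1 x2 y1 y2 : ℤ,
      (∀ k, x1 ≤ (q k).1 ∧ (q k).1 ≤ x2 ∧ y1 ≤ (q k).2 ∧ (q k).2 ≤ y2) ∧
      (∀ a < m, x1 ≤ (hdv ((nx ω)^[a] e)).1 ∧ (hdv ((nx ω)^[a] e)).1 < x2 ∧
        y1 ≤ (hdv ((nx ω)^[a] e)).2 ∧ (hdv ((nx ω)^[a] e)).2 < y2) := by
    classical
    let F : Finset (ℤ × ℤ) := univ.image q ∪ (range m).image fun a => hdv ((nx ω)^[a] e)
    obtain ⟨M, hM⟩ : ∃ M : ℤ, ∀ v ∈ F, |v.1| ≤ M ∧ |v.2| ≤ M := by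
      refine ⟨∑ v ∈ F, (|v.1| + |v.2|), fun v hv => ?_⟩
      have h3 := single_le_sum (f := fun v : ℤ × ℤ => |v.1| + |v.2|)
        (fun v _ => by positivity) hv
      try simp only at h3
      have := abs_nonneg v.1
      have := abs_nonneg v.2
      constructor <;> linarith
    refine ⟨-M, M + 1, -M, M + 1, fun k => ?_, fun a ha => ?_⟩
    · obtain ⟨g1, g2⟩ := hM (q k) (mem_union_left _ (mem_image_of_mem _ (mem_univ _)))
      rw [abs_le] at g1 g2
      omega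
    · obtain ⟨g1, g2⟩ := hM (hdv ((nx ω)^[a] e))
        (mem_union_right _ (mem_image.2 ⟨a, mem_range.2 ha, rfl⟩))
      rw [abs_le] at g1 g2
      omega
  obtain ⟨x1, x2, y1, y2, b1, b2⟩ := hbox
  have hPb : ∀ k : ℕ, x1 ≤ ((fun k : ℕ => q (((n - 1) * (k + 1) + 1 : ℕ) : ZMod n)) k).1 ∧
        ((fun k : ℕ => q (((n - 1) * (k + 1) + 1 : ℕ) : ZMod n)) k).1 ≤ x2 ∧
        y1 ≤ ((fun k : ℕ => q (((n - 1) * (k + 1) + 1 : ℕ) : ZMod n)) k).2 ∧
        ((fun k : ℕ => q (((n - 1) * (k + 1) + 1 : ℕ) : ZMod n)) k).2 ≤ y2 :=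
    fun k => b1 _
  rcases lt_trichotomy i j with h | h | h
  · have h5 := hr'.per (n - 1 - j)
    have h6 := hr'.perP (n - 1 - j)
    have g1 : n - 1 - i < n - 1 - j + n := by omega
    have g2 : n - 1 - j + n < n - 1 - i + n := by omega
    have g3 : P4 e = M4 (q (((n - 1) * (n - 1 - i + 1) + 1 : ℕ) : ZMod n))
      (u ((n - 1) * (n - 1 - i + 1)) - 4 * 1 * (((n - 1 - i : ℕ) : ℤ) + 1) + 2) := by
      rw [hi]; exact (hM i hin).symm
    have g4 : P4 ((nx ω)^[m] e) =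
        M4 ((fun k : ℕ => q (((n - 1) * (k + 1) + 1 : ℕ) : ZMod n)) (n - 1 - j + n))
        ((fun k : ℕ => u ((n - 1) * (k + 1)) - 4 * 1 * ((k : ℤ) + 1) + 2) (n - 1 - j + n)) := by
      change P4 _ = M4 (q (((n - 1) * (n - 1 - j + n + 1) + 1 : ℕ) : ZMod n))
        (u ((n - 1) * (n - 1 - j + n + 1)) - 4 * 1 * (((n - 1 - j + n : ℕ) : ℤ) + 1) + 2)
      rw [h5, h6, hj, ← hM j hjn]
      exact M4_congr (by omega)
    obtain ⟨q', h1', h2', h3⟩ := dom_turn hr' hm g1 g2 g3 g4 hk (fun h' => h' h2) (fun h' => h' hh)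
    obtain ⟨q'', c, hc, h1'', ⟨W, hW⟩, -⟩ := dom_wind hr' hm g1 g2 g3 g4 hk (fun h' => h' h2)
      (fun h' => h' hh)
    obtain rfl : q' = q'' := by omega
    rw [h5] at h1'
    try simp only at h1'
    rw [hU i hin, hU j hjn] at h1'
    obtain ⟨φ, hφ⟩ := pot_of hq hI hu h1 hr hc h2' hW (outP_arA hr' _ _)
      ⟨x1, x2, y1, y2, fun z hz => by
        rcases List.mem_append.1 hz with hz | hz
        · exact inB_gam hc b2 z hz
        · exact inB_arA hr' hPb _ _ z hz⟩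
    refine ⟨i, j, φ, q' - 1, hin, hjn, h.ne, hei, hej, hφ, ?_⟩
    rw [if_pos h, ← hT, h1']
    rcases h2' with h2' | h2'
    · rw [if_pos h2']; omega
    · rw [if_neg (by omega)]; omega
  · exfalso
    subst h
    have h0 : (nx ω)^[m] e = e := P4_inj (hj.trans hi.symm)
    rw [h0] at hh
    exact hk 0 (by omega) hh
  · have g1 : n - 1 - i < n - 1 - j := by omega
    have g2 : n - 1 - j < n - 1 - i + n := by omega
    have g3 : P4 e = M4 (q (((n - 1) * (n - 1 - i + 1) + 1 : ℕ) : ZMod n))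
      (u ((n - 1) * (n - 1 - i + 1)) - 4 * 1 * (((n - 1 - i : ℕ) : ℤ) + 1) + 2) := by
      rw [hi]; exact (hM i hin).symm
    have g4 : P4 ((nx ω)^[m] e) = M4 (q (((n - 1) * (n - 1 - j + 1) + 1 : ℕ) : ZMod n))
      (u ((n - 1) * (n - 1 - j + 1)) - 4 * 1 * (((n - 1 - j : ℕ) : ℤ) + 1) + 2) := by
      rw [hj]; exact (hM j hjn).symm
    obtain ⟨q', h1', h2', h3⟩ := dom_turn hr' hm g1 g2 g3 g4 hk (fun h' => h' h2) (fun h' => h' hh)
    obtain ⟨q'', c, hc, h1'', -, ⟨W, hW⟩⟩ := dom_wind hr' hm g1 g2 g3 g4 hk (fun h' => h' h2)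
      (fun h' => h' hh)
    obtain rfl : q' = q'' := by omega
    try simp only at h1'
    rw [hU i hin, hU j hjn] at h1'
    rw [← sub_eq_add_neg] at hW
    obtain ⟨φ, hφ⟩ := pot_of hq hI hu h1 hr hc h2' hW (outP_arB hr' _ _)
      ⟨x1, x2, y1, y2, fun z hz => by
        rcases List.mem_append.1 hz with hz | hz
        · exact inB_gam hc b2 z hz
        · exact inB_arB hr' hPb _ _ z hz⟩
    refine ⟨i, j, φ, q' - 1, hin, hjn, h.ne', hei, hej, hφ, ?_⟩
    rw [if_neg (by omega), ← hT, h1']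
    rcases h2' with h2' | h2'
    · rw [if_pos h2']; omega
    · rw [if_neg (by omega)]; omega

end Vale.Agent.P167.H871.Q
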