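import Vale.Agent.P167.H871.Q.Ext
import Vale.Agent.P167.H871.Q.WinA

/-!
# P167, general `q`: excursions which stay in a box

`Rays I B`: the corners of the squares off `B` are connected to infinity off `B` and off the inner
edges of `I`. If the strand of `e` stays in `B` then its exterior potential vanishes at these corners;
every other excursion with a foot between the feet of `e` stays in `B`.
-/

namespace Vale.Agent.P167.H871.Q

open Finset
open Vale.Agent.P167.Top
open Vale.Agent.P167.E6 (IsPolygon Encloses)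
open Vale.Agent.P167.H199 (strand ret Returns ret_min ret_le)
open Vale.Agent.P167.BR (be be_even be_odd)
open Vale.Agent.P167.XDL (bS mem_bS exists_idx)
open Vale.Agent.P167.QX (exc mem_exc exc_last exc_ni exc_disj ExtPot out_stays)

variable {n : ℕ} {q : ZMod n → ℤ × ℤ} {I : Finset (ℤ × ℤ)} {u : ℕ → ℤ} {ω : Cfg}
  {B : Set (ℤ × ℤ)} {e e' x : Ed} {φ : ℤ × ℤ → ℤ} {σ : ℤ} {i j i' j' : ℕ}

/-- The corners of the squares off `B` are connected to infinity off `B` and off the inner edges of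
`I`. -/
def Rays (I : Finset (ℤ × ℤ)) (B : Set (ℤ × ℤ)) : Prop := ∀ g : ℤ × ℤ → ℤ,
  (∀ x, hdv x ∉ B → tlv x ∉ B → (hdv x ∉ I ∨ tlv x ∉ I) → g (ls x) = g (rs x)) →
  (∃ R : ℤ, ∀ z : ℤ × ℤ, (R < |z.1| ∨ R < |z.2|) → g z = 0) → ∀ v ∉ B, ∀ t, IsC v t → g t = 0

/-- The strand of `e` stays in `B`. -/
def Stays (I : Finset (ℤ × ℤ)) (B : Set (ℤ × ℤ)) (ω : Cfg) (e : Ed) : Prop :=
  ∀ k < ret (nx ω) (bS I) e, hdv ((nx ω)^[k] e) ∈ B

/-- The exterior potential vanishes off `B`. -/
theorem pot_off (hR : Rays I B) (hr : Returns (nx ω) (bS I) e)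
    (hs : Stays I B ω e) (hφ : ExtPot I (exc I ω e) σ φ) {v t : ℤ × ℤ} (hv : v ∉ B)
    (ht : IsC v t) : φ t = 0 := by
  refine hR φ (fun x h1 h2 h3 => ?_) hφ.far v hv t ht
  have h4 := hφ.jump x h3
  rw [if_neg, add_zero] at h4
  · exact h4
  · intro hx
    obtain ⟨k, hk, rfl⟩ := mem_exc.1 hx
    rcases Nat.lt_or_ge k (ret (nx ω) (bS I) e) with h' | h'
    · exact h1 (hs k h')
    · obtain ⟨hm, -⟩ := hr.spec
      obtain ⟨m, hm⟩ : ∃ m, k = m + 1 := ⟨k - 1, by omega⟩
      rw [hm, Function.iterate_succ_apply', tlv_nx] at h2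
      exact h2 (hs m (by omega))

/-- The excursion of `e` goes from the side `i` to the side `j`. -/
structure Foot (q : ZMod n → ℤ × ℤ) (I : Finset (ℤ × ℤ)) (ω : Cfg) (e : Ed) (i j : ℕ) : Prop where
  hi : i < n
  hj : j < n
  out : hdv e ∉ I
  tl : tlv e ∈ I
  rt : Returns (nx ω) (bS I) e
  e1 : e = be q (i : ZMod n)
  e2 : (nx ω)^[ret (nx ω) (bS I) e] e = be q (j : ZMod n)

theorem Foot.mem (_ : Foot q I ω e i j) : e ∈ exc I ω e := mem_exc.2 ⟨0, Nat.zero_le _, rfl⟩

theorem Foot.mem_last (F : Foot q I ω e i j) : be q (j : ZMod n) ∈ exc I ω e :=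
  mem_exc.2 ⟨_, le_rfl, F.e2⟩

/-- The first side is dual, the last side is primal. -/
theorem Foot.odd (hq : IsPolygon q) (hI : Encloses q I) (F : Foot q I ω e i j) :
    ¬ Even ((q (i : ZMod n)).1 + (q (i : ZMod n)).2) := by
  intro h
  have h1 := (be_even hq hI h).2.2.1
  rw [← F.e1] at h1
  exact F.out h1

theorem Foot.even (hq : IsPolygon q) (hI : Encloses q I) (F : Foot q I ω e i j) :
    Even ((q (j : ZMod n)).1 + (q (j : ZMod n)).2) := by
  by_contra h
  have h1 := (be_odd hq hI h).2.2.2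
  rw [← F.e2] at h1
  exact h1 (exc_last F.out F.rt).1

theorem Foot.ne (hq : IsPolygon q) (hI : Encloses q I) (F : Foot q I ω e i j) : i ≠ j := by
  rintro rfl
  exact F.odd hq hI (F.even hq hI)

/-- The boundary edges of an excursion are the first and the last edge. -/
theorem Foot.mem_iff (hq : IsPolygon q) (F : Foot q I ω e i j) {k : ℕ} (hk : k < n)
    (hb : be q (k : ZMod n) ∈ bS I) : be q (k : ZMod n) ∈ exc I ω e ↔ k = i ∨ k = j := by
  constructor
  · intro h
    obtain ⟨m, hm, h1⟩ := mem_exc.1 h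
    rcases Nat.eq_zero_or_pos m with rfl | h0
    · left
      by_contra hne
      exact XDL.be_ne hq hk F.hi hne (h1.symm.trans F.e1)
    · rcases Nat.lt_or_ge m (ret (nx ω) (bS I) e) with h' | h'
      · exact absurd (by rw [h1]; exact hb) (ret_min h0 h')
      · right
        by_contra hne
        rw [le_antisymm hm h'] at h1
        exact XDL.be_ne hq hk F.hj hne (h1.symm.trans F.e2)
  · rintro (rfl | rfl)
    · rw [← F.e1]; exact F.mem
    · exact F.mem_last

theorem be_bS (hq : IsPolygon q) (hI : Encloses q I) (k : ℕ) : be q (k : ZMod n) ∈ bS I := by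
  rw [mem_bS]
  rcases BR.be_bd hq hI (k : ZMod n) with h | h
  · exact Or.inl h
  · exact Or.inr ⟨h.2, h.1⟩

/-- The values of the potential along the polygon. -/
theorem pot_vals (hq : IsPolygon q) (hI : Encloses q I) (F : Foot q I ω e i j)
    (hφ : ExtPot I (exc I ω e) σ φ) (h0 : φ (q 0) = 0) : ∀ k ≤ n,
    φ (q (k : ZMod n)) = (if i < k then 1 else 0) - (if j < k then 1 else 0) := by
  intro k
  induction k with
  | zero => intro _; simpa using h0
  | succ k ih =>
    intro hk
    have hk' := ih (by omega)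
    have hb := be_bS hq hI k
    have hm := F.mem_iff hq (show k < n by omega) hb
    rw [Nat.cast_succ]
    by_cases hp : Even ((q (k : ZMod n)).1 + (q (k : ZMod n)).2)
    · obtain ⟨g1, g2, g3, g4⟩ := be_even hq hI hp
      have h1 := hφ.jump (be q (k : ZMod n)) (Or.inr g4)
      have hki : k ≠ i := fun h => F.odd hq hI (by rw [← h]; exact hp)
      rw [g1, g2, hk'] at h1
      by_cases hkj : k = j
      · rw [if_pos (hm.2 (Or.inr hkj))] at h1
        split_ifs at h1 ⊢ <;> omega
      · rw [if_neg (fun h => (hm.1 h).elim hki hkj)] at h1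
        split_ifs at h1 ⊢ <;> omega
    · obtain ⟨g1, g2, g3, g4⟩ := be_odd hq hI hp
      have h1 := hφ.jump (be q (k : ZMod n)) (Or.inl g4)
      have hkj : k ≠ j := fun h => hp (by rw [h]; exact F.even hq hI)
      rw [g1, g2, hk'] at h1
      by_cases hki : k = i
      · rw [if_pos (hm.2 (Or.inl hki))] at h1
        split_ifs at h1 ⊢ <;> omega
      · rw [if_neg (fun h => (hm.1 h).elim hki hkj)] at h1
        split_ifs at h1 ⊢ <;> omega

/-- The orientation is the order of the feet. -/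
theorem pot_sgn (hq : IsPolygon q) (hI : Encloses q I) (F : Foot q I ω e i j)
    (hφ : ExtPot I (exc I ω e) σ φ) (h0 : φ (q 0) = 0) : σ = if i < j then 1 else -1 := by
  have h1 := hφ.right e F.mem
  obtain ⟨g1, -⟩ := be_odd hq hI (F.odd hq hI)
  rw [← F.e1] at g1
  rw [g1, pot_vals hq hI F hφ h0 i F.hi.le, if_neg (lt_irrefl i)] at h1
  have h2 := F.ne hq hI
  rcases hφ.sgn with rfl | rfl <;> split_ifs at h1 ⊢ <;> omega

/-- The potential is constant along another excursion. -/
theorem const_along (hq : IsPolygon q) (hI : Encloses q I) (F : Foot q I ω e i j)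
    (hφ : ExtPot I (exc I ω e) σ φ) (F' : Foot q I ω e' i' j') (hne : e ≠ e') :
    ∀ k ≤ ret (nx ω) (bS I) e', φ (ls ((nx ω)^[k] e')) = φ (q (i' : ZMod n)) ∧
      φ (rs ((nx ω)^[k] e')) = φ (q (i' : ZMod n)) := by
  have hj : ∀ x ∈ exc I ω e', φ (ls x) = φ (rs x) := by
    intro x hx
    have h1 := hφ.jump x (exc_ni F'.out F'.rt hx)
    rw [if_neg (exc_disj F'.out F'.tl F'.rt F.out F.tl F.rt (Ne.symm hne) hx), add_zero] at h1
    exact h1
  intro k
  induction k with
  | zero =>
    intro _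
    obtain ⟨g1, -⟩ := be_odd hq hI (F'.odd hq hI)
    rw [← F'.e1] at g1
    rw [Function.iterate_zero, id, hj e' F'.mem, g1]
    exact ⟨rfl, rfl⟩
  | succ k ih =>
    intro hk
    obtain ⟨h1, h2⟩ := ih (by omega)
    have h3 := hj _ (mem_exc.2 ⟨k + 1, hk, rfl⟩)
    rw [Function.iterate_succ_apply'] at h3 ⊢
    cases hc : ω (hdv ((nx ω)^[k] e')) with
    | false =>
      rw [P167.ls_nx hc] at h3 ⊢
      exact ⟨h1, h3.symm.trans h1⟩
    | true =>
      rw [P167.rs_nx hc] at h3 ⊢
      exact ⟨h3.trans h2, h2⟩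

theorem const_feet (hq : IsPolygon q) (hI : Encloses q I) (F : Foot q I ω e i j)
    (hφ : ExtPot I (exc I ω e) σ φ) (F' : Foot q I ω e' i' j') (hne : e ≠ e') :
    φ (q (j' : ZMod n)) = φ (q (i' : ZMod n)) := by
  obtain ⟨h1, -⟩ := const_along hq hI F hφ F' hne _ le_rfl
  rw [F'.e2, (be_even hq hI (F'.even hq hI)).1] at h1
  exact h1

/-- **An excursion with a foot between the feet of `e` stays in `B`**, and the other foot is between
the feet of `e`, too. -/
theorem inside (hq : IsPolygon q) (hI : Encloses q I) (hR : Rays I B) (F : Foot q I ω e i j)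
    (hs : Stays I B ω e) (hφ : ExtPot I (exc I ω e) σ φ) (h0 : φ (q 0) = 0)
    (F' : Foot q I ω e' i' j') (hne : e ≠ e')
    (hb : (min i j < i' ∧ i' < max i j) ∨ (min i j < j' ∧ j' < max i j)) :
    Stays I B ω e' ∧ (min i j < i' ∧ i' < max i j) ∧ (min i j < j' ∧ j' < max i j) := by
  have hv := pot_vals hq hI F hφ h0
  have hc := const_feet hq hI F hφ F' hne
  have h1 := hv i' F'.hi.le
  have h2 := hv j' F'.hj.le
  have hii : i' ≠ i := by
    rintro rfl
    exact hne (F.e1.trans F'.e1.symm)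
  have hjj : j' ≠ j := by
    rintro rfl
    have h3 := exc_disj F.out F.tl F.rt F'.out F'.tl F'.rt hne F.mem_last
    exact h3 F'.mem_last
  have hij : i' ≠ j := by
    rintro rfl
    exact F'.odd hq hI (F.even hq hI)
  have hji : j' ≠ i := by
    rintro rfl
    exact F.odd hq hI (F'.even hq hI)
  have hne0 : φ (q (i' : ZMod n)) ≠ 0 := by
    rcases hb with hb | hb
    · rw [h1]; split_ifs <;> omega
    · rw [← hc, h2]; split_ifs <;> omega
  refine ⟨fun k hk => ?_, ?_, ?_⟩
  · by_contra hB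
    have h3 := (const_along hq hI F hφ F' hne k hk.le).1
    rw [pot_off hR F.rt hs hφ hB (isC_ends _).1.1] at h3
    exact hne0 h3.symm
  · rw [h1] at hne0
    split_ifs at hne0 <;> omega
  · rw [← hc, h2] at hne0
    split_ifs at hne0 <;> omega

end Vale.Agent.P167.H871.Q
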