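import Vale.Agent.P167.H871.Q.AltA
import Vale.Agent.P167.QX.Hole

/-!
# P167, general `q`: alternation of the excursions over a special point
-/

namespace Vale.Agent.P167.H871.Q

open Finset
open Vale.Agent.P167.FK
open Vale.Agent.P167.Top
open Vale.Agent.P167.E6 (IsPolygon Encloses)
open Vale.Agent.P167.H199 (strand ret Returns ret_min ret_le mem_strand loop_nx loop_iter)
open Vale.Agent.P167.BR (be be_even be_odd)
open Vale.Agent.P167.XDL (bS mem_bS exists_idx)
open Vale.Agent.P167.QX (exc mem_exc exc_last exc_ni exc_disj ExtPot out_stays returns_good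
  exists_strand_loop in_stays)

variable {n : ℕ} {q : ZMod n → ℤ × ℤ} {I : Finset (ℤ × ℤ)} {u : ℕ → ℤ} {ω : Cfg}
  {B : Set (ℤ × ℤ)} {e e' x : Ed} {φ : ℤ × ℤ → ℤ} {σ : ℤ} {i j i' j' : ℕ}

theorem exists_foot (hq : IsPolygon q) (hI : Encloses q I)
    (hu : Bd (I : Set (ℤ × ℤ)) n (fun k => q (k : ZMod n)) u 1) (hr : Returns (nx ω) (bS I) e)
    (h1 : hdv e ∉ I) (h2 : tlv e ∈ I) : ∃ i j, Foot q I ω e i j := by
  obtain ⟨i, hi, hi2⟩ := exists_idx hq hI hu (mem_bS.2 (Or.inr ⟨h1, h2⟩))
  obtain ⟨j, hj, hj2⟩ := exists_idx hq hI hu (mem_bS.2 (Or.inl (exc_last h1 hr)))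
  exact ⟨i, j, hi, hj, h1, h2, hr, hi2, hj2⟩

/-- Every edge which enters `I` is the last edge of an excursion. -/
theorem exists_prev (hg : Good ω) (h1 : hdv x ∈ I) (h2 : tlv x ∉ I) :
    ∃ e, hdv e ∉ I ∧ tlv e ∈ I ∧ Returns (nx ω) (bS I) e ∧
      (nx ω)^[ret (nx ω) (bS I) e] e = x := by
  obtain ⟨ℓ, hl, hx⟩ := hg x
  have hxS : x ∈ bS I := mem_bS.2 (Or.inl ⟨h1, h2⟩)
  obtain ⟨m, hm⟩ := (H685.loop_gen hl (loop_nx hl hx) x).1 hx
  have hy : (nx ω) ((nx ω)^[m] x) = x := by
    rw [← Function.iterate_succ_apply' (nx ω), Function.iterate_succ_apply (nx ω)]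
    exact hm
  obtain ⟨e, he, hye⟩ := exists_strand_loop hl ⟨x, hxS, hx⟩ (loop_iter hl hx m)
  obtain ⟨heS, heℓ⟩ := mem_filter.1 he
  obtain ⟨k, hk, hk2⟩ := mem_strand.1 hye
  have hk3 : (nx ω)^[k + 1] e = x := by rw [Function.iterate_succ_apply', hk2, hy]
  have h3 := ret_le (f := nx ω) (S := bS I) (e := e) (k := k + 1) (by omega) (by rw [hk3]; exact hxS)
  have h4 : hdv e ∉ I := by
    intro h
    have h5 := in_stays h hk
    rw [← tlv_nx ω, ← Function.iterate_succ_apply' (nx ω), hk3] at h5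
    exact h2 h5
  refine ⟨e, h4, ?_, returns_good hg heS, ?_⟩
  · rw [mem_bS] at heS
    rcases heS with h | h
    · exact absurd h.1 h4
    · exact h.2
  · rw [show ret (nx ω) (bS I) e = k + 1 by omega]
    exact hk3

/-- The number of the sign changes in an interval. -/
theorem sum_alt {s : ℕ → ℤ} (hs : ∀ k, s (k + 1) = - s k) {a b : ℕ} (hab : a ≤ b) :
    2 * ∑ k ∈ Ico a b, s k = s a - s b := by
  induction b, hab using Nat.le_induction with
  | base => simp
  | succ b hab ih =>
    rw [sum_Ico_succ_top hab, mul_add, ih, hs]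
    ring

/-- The edges of `A` from which an excursion goes to `A'` and stays in `B`. -/
noncomputable def lr (I : Finset (ℤ × ℤ)) (A A' : Finset Ed) (B : Set (ℤ × ℤ)) (ω : Cfg) :
    Finset Ed := by
  classical
  exact A.filter fun e => (hdv e ∉ I ∧ tlv e ∈ I) ∧ Returns (nx ω) (bS I) e ∧
    (nx ω)^[ret (nx ω) (bS I) e] e ∈ A' ∧ Stays I B ω e

/-- The sides with the numbers in `[a, b)`. -/
noncomputable def sides (q : ZMod n → ℤ × ℤ) (a b : ℕ) : Finset Ed :=
  (Ico a b).image fun k : ℕ => be q (k : ZMod n)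

theorem mem_sides : x ∈ sides q i j ↔ ∃ k, i ≤ k ∧ k < j ∧ be q (k : ZMod n) = x := by
  unfold sides
  simp only [mem_image, mem_Ico, and_assoc]

/-- **Alternation:** the numbers of the excursions over a cut in the two directions differ by at
most `3`. The base point `q 0` is off `B`. -/
theorem alt_count (hq : IsPolygon q) (hI : Encloses q I)
    (hu : Bd (I : Set (ℤ × ℤ)) n (fun k => q (k : ZMod n)) u 1) (hg : Good ω) (hR : Rays I B)
    {v : ℤ × ℤ} (hv : v ∉ B) (hv0 : IsC v (q 0)) {m m' : ℕ} (hm : m ≤ m') (hm1 : m' ≤ m + 1)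
    (hmn : m' ≤ n) :
    |((lr I (sides q 0 m) (sides q m' n) B ω).card : ℤ) -
      (lr I (sides q m' n) (sides q 0 m) B ω).card| ≤ 3 := by
  classical
  -- the leaving sides and the numbers of the feet
  set O : Finset Ed := (bS I).filter fun e => hdv e ∉ I with hO
  have hfoot : ∀ e : Ed, ∃ i j, e ∈ O → Foot q I ω e i j := by
    intro e
    by_cases he : e ∈ O
    · obtain ⟨h1, h2⟩ := mem_filter.1 he
      have h3 : tlv e ∈ I := by
        rw [mem_bS] at h1
        rcases h1 with h | h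
        · exact absurd h.1 h2
        · exact h.2
      obtain ⟨i, j, h⟩ := exists_foot hq hI hu (returns_good hg h1) h2 h3
      exact ⟨i, j, fun _ => h⟩
    · exact ⟨0, 0, fun h => absurd h he⟩
  choose a b hab using hfoot
  have hmem : ∀ {e : Ed}, hdv e ∉ I → tlv e ∈ I → e ∈ O := fun h1 h2 =>
    mem_filter.2 ⟨mem_bS.2 (Or.inr ⟨h1, h2⟩), h1⟩
  have uniq : ∀ {e i j}, Foot q I ω e i j → e ∈ O ∧ a e = i ∧ b e = j := by
    intro e i j h
    have he := hmem h.out h.tl
    have h2 := hab e he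
    refine ⟨he, ?_, ?_⟩
    · by_contra hne
      exact XDL.be_ne hq h2.hi h.hi hne (h2.e1.symm.trans h.e1)
    · by_contra hne
      exact XDL.be_ne hq h2.hj h.hj hne (h2.e2.symm.trans h.e2)
  have ainj : ∀ e ∈ O, ∀ e' ∈ O, a e = a e' → e = e' := by
    intro e he e' he' h
    rw [(hab e he).e1, (hab e' he').e1, h]
  have binj : ∀ e ∈ O, ∀ e' ∈ O, b e = b e' → e = e' := by
    intro e he e' he' h
    by_contra hne
    have F := hab e he
    have F' := hab e' he'
    have h3 := exc_disj F.out F.tl F.rt F'.out F'.tl F'.rt hne F.mem_last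
    rw [h] at h3
    exact h3 F'.mem_last
  -- the numbers of the leaving and of the entering sides
  have cA : ∀ F : Finset ℕ, (∀ k ∈ F, k < n) → (O.filter fun e => a e ∈ F).card =
      (F.filter fun k : ℕ => ¬ Even ((q (k : ZMod n)).1 + (q (k : ZMod n)).2)).card := by
    intro F hF
    refine card_bij (fun e _ => a e) (fun e he => ?_) (fun e he e' he' h => ?_) (fun k hk => ?_)
    · obtain ⟨h1, h2⟩ := mem_filter.1 he
      exact mem_filter.2 ⟨h2, (hab e h1).odd hq hI⟩
    · exact ainj e (mem_filter.1 he).1 e' (mem_filter.1 he').1 h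
    · obtain ⟨h1, h2⟩ := mem_filter.1 hk
      obtain ⟨-, -, g3, g4⟩ := be_odd hq hI h2
      have he := hmem g4 g3
      have h3 : a (be q (k : ZMod n)) = k := by
        by_contra hne
        exact XDL.be_ne hq (hab _ he).hi (hF k h1) hne (hab _ he).e1.symm
      exact ⟨be q (k : ZMod n), mem_filter.2 ⟨he, by rw [h3]; exact h1⟩, h3⟩
  have cB : ∀ F : Finset ℕ, (∀ k ∈ F, k < n) → (O.filter fun e => b e ∈ F).card =
      (F.filter fun k : ℕ => Even ((q (k : ZMod n)).1 + (q (k : ZMod n)).2)).card := by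
    intro F hF
    refine card_bij (fun e _ => b e) (fun e he => ?_) (fun e he e' he' h => ?_) (fun k hk => ?_)
    · obtain ⟨h1, h2⟩ := mem_filter.1 he
      exact mem_filter.2 ⟨h2, (hab e h1).even hq hI⟩
    · exact binj e (mem_filter.1 he).1 e' (mem_filter.1 he').1 h
    · obtain ⟨h1, h2⟩ := mem_filter.1 hk
      obtain ⟨-, -, g3, g4⟩ := be_even hq hI h2
      obtain ⟨e, e1, e2, e3, e4⟩ := exists_prev hg g3 g4
      obtain ⟨i, j, hf⟩ := exists_foot hq hI hu e3 e1 e2
      obtain ⟨h3, -, h4⟩ := uniq hf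
      have h5 : j = k := by
        by_contra hne
        exact XDL.be_ne hq hf.hj (hF k h1) hne (hf.e2.symm.trans e4)
      exact ⟨e, mem_filter.2 ⟨h3, by rw [h4, h5]; exact h1⟩, h4.trans h5⟩
  -- the excursions over the cut
  have hP : lr I (sides q 0 m) (sides q m' n) B ω =
      O.filter fun e => a e < m ∧ m' ≤ b e ∧ Stays I B ω e := by
    ext e
    unfold lr
    rw [mem_filter, mem_filter, mem_sides, mem_sides]
    constructor
    · rintro ⟨⟨k, -, h1, h2⟩, ⟨h3, h3'⟩, h4, ⟨l, h5, h6, h7⟩, h8⟩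
      have hf : Foot q I ω e k l := ⟨by omega, h6, h3, h3', h4, h2.symm, h7.symm⟩
      obtain ⟨g1, g2, g3⟩ := uniq hf
      exact ⟨g1, by omega, by omega, h8⟩
    · rintro ⟨h1, h2, h3, h4⟩
      have F := hab e h1
      exact ⟨⟨a e, Nat.zero_le _, h2, F.e1.symm⟩, ⟨F.out, F.tl⟩, F.rt,
        ⟨b e, h3, F.hj, F.e2.symm⟩, h4⟩
  have hD : lr I (sides q m' n) (sides q 0 m) B ω =
      O.filter fun e => m' ≤ a e ∧ b e < m ∧ Stays I B ω e := by
    ext e
    unfold lr
    rw [mem_filter, mem_filter, mem_sides, mem_sides]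
    constructor
    · rintro ⟨⟨k, h1, h1', h2⟩, ⟨h3, h3'⟩, h4, ⟨l, -, h6, h7⟩, h8⟩
      have hf : Foot q I ω e k l := ⟨h1', by omega, h3, h3', h4, h2.symm, h7.symm⟩
      obtain ⟨g1, g2, g3⟩ := uniq hf
      exact ⟨g1, by omega, by omega, h8⟩
    · rintro ⟨h1, h2, h3, h4⟩
      have F := hab e h1
      exact ⟨⟨a e, h2, F.hi, F.e1.symm⟩, ⟨F.out, F.tl⟩, F.rt,
        ⟨b e, Nat.zero_le _, h3, F.e2.symm⟩, h4⟩
  rw [hP, hD]
  set P : Ed → Prop := fun e => a e < m ∧ m' ≤ b e ∧ Stays I B ω e with hPdef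
  set D : Ed → Prop := fun e => m' ≤ a e ∧ b e < m ∧ Stays I B ω e with hDdef
  -- the outermost one
  by_cases hne : (O.filter fun e => P e ∨ D e).Nonempty
  swap
  · rw [not_nonempty_iff_eq_empty] at hne
    have h1 : O.filter P = ∅ := by
      rw [← subset_empty, ← hne]
      exact fun e he => mem_filter.2 ⟨(mem_filter.1 he).1, Or.inl (mem_filter.1 he).2⟩
    have h2 : O.filter D = ∅ := by
      rw [← subset_empty, ← hne]
      exact fun e he => mem_filter.2 ⟨(mem_filter.1 he).1, Or.inr (mem_filter.1 he).2⟩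
    rw [h1, h2]
    simp
  obtain ⟨s, hs, hmin⟩ := exists_min_image _ (fun e => min (a e) (b e)) hne
  obtain ⟨hsO, hsP⟩ := mem_filter.1 hs
  have Fs := hab s hsO
  obtain ⟨i0, j0, φ, σ, -, -, -, -, -, hφ, -⟩ := exists_ext hq hI hu Fs.out Fs.tl Fs.rt
  have hst : Stays I B ω s := by
    rcases hsP with h | h
    · exact h.2.2
    · exact h.2.2
  have hlm : min (a s) (b s) < m ∧ m' ≤ max (a s) (b s) := by
    rcases hsP with ⟨h1, h2, -⟩ | ⟨h1, h2, -⟩ <;> omega
  have h0 : φ (q 0) = 0 := pot_off hR Fs.rt hst hφ hv hv0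
  set lo := min (a s) (b s) with hlo
  set F : Finset ℕ := Ico (lo + 1) m with hF
  have hFn : ∀ k ∈ F, k < n := fun k hk => by rw [hF, mem_Ico] at hk; omega
  have hins : ∀ e ∈ O, e ≠ s → (a e ∈ F ∨ b e ∈ F) → Stays I B ω e ∧
      (lo < a e ∧ a e < max (a s) (b s)) ∧ (lo < b e ∧ b e < max (a s) (b s)) := by
    intro e he hes h
    refine inside hq hI hR Fs hst hφ h0 (hab e he) (Ne.symm hes) ?_
    rw [hF, mem_Ico, mem_Ico] at h
    rcases h with h | h
    · left; omega
    · right; omega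
  -- the sum over the leaving sides
  have key : ∀ e ∈ O, |((if a e ∈ F then (1 : ℤ) else 0) - (if b e ∈ F then 1 else 0)) -
      ((if P e then 1 else 0) - (if D e then 1 else 0))| ≤
      (if e = s then 1 else 0) + ((if a e ∈ Ico m m' then 1 else 0) +
        (if b e ∈ Ico m m' then 1 else 0)) := by
    intro e he
    have hnn : ∀ p : Prop, [Decidable p] → (0 : ℤ) ≤ if p then 1 else 0 := by
      intro p _
      split_ifs <;> norm_num
    have n1 := hnn (a e ∈ Ico m m')
    have n2 := hnn (b e ∈ Ico m m')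
    have e1 : a e ∈ Ico m m' → (if a e ∈ Ico m m' then (1 : ℤ) else 0) = 1 := fun h => if_pos h
    have e2 : b e ∈ Ico m m' → (if b e ∈ Ico m m' then (1 : ℤ) else 0) = 1 := fun h => if_pos h
    generalize (if a e ∈ Ico m m' then (1 : ℤ) else 0) = y1 at n1 e1 ⊢
    generalize (if b e ∈ Ico m m' then (1 : ℤ) else 0) = y2 at n2 e2 ⊢
    by_cases hes : e = s
    · rw [if_pos hes]
      have h1 : a e ∉ F := by rw [hF, mem_Ico, hes]; omega
      have h2 : b e ∉ F := by rw [hF, mem_Ico, hes]; omega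
      rw [if_neg h1, if_neg h2]
      have h3 : |((0 : ℤ) - 0) - ((if P e then 1 else 0) - (if D e then 1 else 0))| ≤ 1 := by
        rw [abs_le]
        split_ifs <;> norm_num
      linarith
    · rw [if_neg hes]
      have Fe := hab e he
      have d1 : a e ≠ a s := fun h => hes (ainj e he s hsO h)
      have d2 : b e ≠ b s := fun h => hes (binj e he s hsO h)
      have d3 : a e ≠ b s := fun h => Fe.odd hq hI (by rw [h]; exact Fs.even hq hI)
      have d4 : b e ≠ a s := fun h => Fs.odd hq hI (by rw [← h]; exact Fe.even hq hI)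
      by_cases hPe : P e
      · have h1 := hmin e (mem_filter.2 ⟨he, Or.inl hPe⟩)
        have hDe : ¬ D e := fun h => by
          obtain ⟨h2, -, -⟩ := h
          obtain ⟨h3, -, -⟩ := hPe
          omega
        obtain ⟨h2, h3, h4⟩ := id hPe
        have h5 : a e ∈ F := by rw [hF, mem_Ico]; omega
        have h6 : b e ∉ F := by rw [hF, mem_Ico]; omega
        rw [if_pos h5, if_neg h6, if_pos hPe, if_neg hDe]
        norm_num
        linarith
      by_cases hDe : D e
      · have h1 := hmin e (mem_filter.2 ⟨he, Or.inr hDe⟩)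
        obtain ⟨h2, h3, h4⟩ := id hDe
        have h5 : b e ∈ F := by rw [hF, mem_Ico]; omega
        have h6 : a e ∉ F := by rw [hF, mem_Ico]; omega
        rw [if_pos h5, if_neg h6, if_neg hPe, if_pos hDe]
        norm_num
        linarith
      rw [if_neg hPe, if_neg hDe]
      by_cases h5 : a e ∈ F
      · obtain ⟨h6, h7, h8⟩ := hins e he hes (Or.inl h5)
        rw [if_pos h5]
        by_cases h9 : b e ∈ F
        · rw [if_pos h9]
          norm_num
          linarith
        · rw [if_neg h9]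
          have h10 : b e ∈ Ico m m' := by
            rw [hF, mem_Ico] at h5 h9
            rw [mem_Ico]
            by_contra h11
            exact hPe ⟨h5.2, by omega, h6⟩
          have e3 := e2 h10
          norm_num
          linarith
      · rw [if_neg h5]
        by_cases h9 : b e ∈ F
        · obtain ⟨h6, h7, h8⟩ := hins e he hes (Or.inr h9)
          rw [if_pos h9]
          have h10 : a e ∈ Ico m m' := by
            rw [hF, mem_Ico] at h5 h9
            rw [mem_Ico]
            by_contra h11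
            exact hDe ⟨by omega, h9.2, h6⟩
          have e3 := e1 h10
          norm_num
          linarith
        · rw [if_neg h9]
          norm_num
          linarith
  have hsum := (abs_sum_le_sum_abs _ O).trans (sum_le_sum key)
  rw [sum_sub_distrib, sum_sub_distrib, sum_sub_distrib, sum_add_distrib, sum_add_distrib,
    sum_boole, sum_boole, sum_boole, sum_boole, sum_boole, sum_boole, sum_boole, cA F hFn, cB F hFn,
    cA (Ico m m') (fun k hk => by rw [mem_Ico] at hk; omega),
    cB (Ico m m') (fun k hk => by rw [mem_Ico] at hk; omega)] at hsum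
  have c1 : ((O.filter fun e => e = s).card : ℤ) ≤ 1 := by
    have : (O.filter fun e => e = s).card ≤ 1 := card_le_one.2 fun x hx y hy => by
      rw [(mem_filter.1 hx).2, (mem_filter.1 hy).2]
    exact_mod_cast this
  have c2 : (((Ico m m').filter fun k : ℕ => ¬ Even ((q (k : ZMod n)).1 + (q (k : ZMod n)).2)).card : ℤ) +
      ((Ico m m').filter fun k : ℕ => Even ((q (k : ZMod n)).1 + (q (k : ZMod n)).2)).card ≤ 1 := by
    have h1 := card_filter_add_card_filter_not (s := Ico m m')
      (fun k : ℕ => Even ((q (k : ZMod n)).1 + (q (k : ZMod n)).2))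
    rw [Nat.card_Ico] at h1
    have : ((Ico m m').filter fun k : ℕ => Even ((q (k : ZMod n)).1 + (q (k : ZMod n)).2)).card +
      ((Ico m m').filter fun k : ℕ => ¬ Even ((q (k : ZMod n)).1 + (q (k : ZMod n)).2)).card ≤ 1 := by
      omega
    omega
  have c3 : |((F.filter fun k : ℕ => ¬ Even ((q (k : ZMod n)).1 + (q (k : ZMod n)).2)).card : ℤ) -
      (F.filter fun k : ℕ => Even ((q (k : ZMod n)).1 + (q (k : ZMod n)).2)).card| ≤ 1 := by
    have h1 := sum_alt (s := fun k : ℕ => if Even ((q (k : ZMod n)).1 + (q (k : ZMod n)).2) then -1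
      else 1) (fun k => by
        simp only [Nat.cast_succ]
        by_cases hp : Even ((q (k : ZMod n)).1 + (q (k : ZMod n)).2)
        · rw [if_pos hp, if_neg, neg_neg]
          rw [← (be_even hq hI hp).2.1]
          exact BR.odd_rs _
        · rw [if_neg hp, if_pos]
          rw [← (be_odd hq hI hp).2.1]
          exact BR.even_ls _) (show lo + 1 ≤ m by omega)
    have h2 : ∑ k ∈ F, (if Even ((q (k : ZMod n)).1 + (q (k : ZMod n)).2) then (-1 : ℤ) else 1) =
        ((F.filter fun k : ℕ => ¬ Even ((q (k : ZMod n)).1 + (q (k : ZMod n)).2)).card : ℤ) -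
        (F.filter fun k : ℕ => Even ((q (k : ZMod n)).1 + (q (k : ZMod n)).2)).card := by
      rw [← sum_boole, ← sum_boole, ← sum_sub_distrib]
      refine sum_congr rfl fun k _ => ?_
      split_ifs <;> norm_num
    rw [← hF, h2] at h1
    rw [abs_le]
    split_ifs at h1 <;> constructor <;> linarith
  rw [abs_le] at hsum c3 ⊢
  obtain ⟨s1, s2⟩ := hsum
  obtain ⟨t1, t2⟩ := c3
  constructor <;> linarith

end Vale.Agent.P167.H871.Q
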