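import Vale.Agent.P167.H871.Q.Rect

/-!
# P167, general `q`, exterior strands of frames: bumps on a closed lattice path

A row of squares outside of a straight piece of the path is added to the domain: the path goes around
the row.
-/

namespace Vale.Agent.P167.H871.Q

open Finset
open Vale.Agent.P167.Top

variable {D : Set (ℤ × ℤ)} {n s e : ℕ} {P : ℕ → ℤ × ℤ} {u : ℕ → ℤ} {w : ℤ}

/-- Every side of `D` is a side of the path. -/
def Cov (D : Set (ℤ × ℤ)) (P : ℕ → ℤ × ℤ) (u : ℕ → ℤ) : Prop :=
  ∀ (v : ℤ × ℤ) (t : ℤ), sqL v t ∈ D → sqL v (t - 1) ∉ D → ∃ k, P k = v ∧ (u k) % 4 = t % 4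

theorem Cov.lt (hc : Cov D P u) (hb : Bd D n P u 1) (hn : 0 < n) {v : ℤ × ℤ} {t : ℤ}
    (h1 : sqL v t ∈ D) (h2 : sqL v (t - 1) ∉ D) : ∃ k < n, P k = v ∧ (u k) % 4 = t % 4 := by
  obtain ⟨k, h3, h4⟩ := hc v t h1 h2
  obtain ⟨g1, g2⟩ := hb.perN (k % n) (k / n)
  rw [Nat.mod_add_div] at g1 g2
  refine ⟨k % n, Nat.mod_lt k hn, by rw [← g2, h3], ?_⟩
  rw [← h4, g1, mul_assoc]
  omega

theorem Cov.shift (hc : Cov D P u) (hb : Bd D n P u 1) (hn : 0 < n) (c : ℕ) :
    Cov D (fun k => P (k + c)) (fun k => u (k + c)) := by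
  intro v t h1 h2
  obtain ⟨k, h3, h4⟩ := hc v t h1 h2
  obtain ⟨g1, g2⟩ := hb.perN k c
  obtain ⟨k', hk⟩ : ∃ k', k' + c = k + n * c := by
    refine ⟨k + n * c - c, Nat.sub_add_cancel ?_⟩
    have := Nat.le_mul_of_pos_left c hn
    omega
  refine ⟨k', ?_, ?_⟩
  · show P (k' + c) = v
    rw [hk, g2, h3]
  · show u (k' + c) % 4 = t % 4
    rw [hk, g1, ← h4, mul_assoc]
    omega

theorem bd_shift (hb : Bd D n P u 1) (c : ℕ) :
    Bd D n (fun k => P (k + c)) (fun k => u (k + c)) 1 := by
  refine ⟨fun k => ?_, fun k => ?_, fun k => ?_, fun k => ?_, fun k l h1 h2 => ?_, fun k => ?_,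
    fun k => ?_⟩
  · show P (k + 1 + c) = _
    rw [show k + 1 + c = k + c + 1 by ring]
    exact hb.step _
  · show |u (k + 1 + c) - u (k + c)| ≤ 1
    rw [show k + 1 + c = k + c + 1 by ring]
    exact hb.turn _
  · show u (k + n + c) = u (k + c) + 4 * 1
    rw [show k + n + c = k + c + n by ring]
    exact hb.per _
  · show P (k + n + c) = P (k + c)
    rw [show k + n + c = k + c + n by ring]
    exact hb.perP _
  · exact hb.inj _ _ (by omega) (by omega)
  · exact hb.left _
  · exact hb.right _

/-- The corners of a square. -/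
theorem sqL_corner {a b : ℤ × ℤ} {t d : ℤ} (h : sqL a t = sqL b d) :
    a = b ∨ a = b + vec d ∨ a = b + vec (d + 1) ∨ a = b + vec d + vec (d + 1) := by
  obtain ⟨a1, a2⟩ := a
  obtain ⟨b1, b2⟩ := b
  unfold sqL vec at *
  simp only [Prod.mk.injEq, Prod.mk_add_mk] at h ⊢
  rcases head_cases d with ⟨x, y, z⟩ | ⟨x, y, z⟩ | ⟨x, y, z⟩ | ⟨x, y, z⟩ <;>
    rcases head_cases (d + 1) with ⟨x', y', z'⟩ | ⟨x', y', z'⟩ | ⟨x', y', z'⟩ | ⟨x', y', z'⟩ <;>
    first
    | (exfalso; omega)
    | (rw [y, z, y', z']; split_ifs at h <;> omega)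

theorem sqL_inj {a b : ℤ × ℤ} {t : ℤ} (h : sqL a t = sqL b t) : a = b := by
  unfold sqL at h
  simp only [Prod.mk.injEq] at h
  ext <;> omega

/-- The square beyond. -/
theorem sqL_vec (a b : ℤ × ℤ) (t : ℤ) : sqL (a + b) t = sqL a t + b := by
  unfold sqL
  ext <;> simp <;> ring

theorem vec_back (d : ℤ) : vec (d + 2) = - vec d := (vec_nt d).1

/-- The squares outside of the steps `s ≤ k < e`. -/
def osqs (P : ℕ → ℤ × ℤ) (u : ℕ → ℤ) (s e : ℕ) : Set (ℤ × ℤ) :=
  {v | ∃ k, s ≤ k ∧ k < e ∧ v = sqL (P k) (u k - 1)}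

/-- The path with a bump over the sites `s ≤ k ≤ e`, one period. -/
def p0 (P : ℕ → ℤ × ℤ) (s e : ℕ) (w : ℤ) (k : ℕ) : ℤ × ℤ :=
  if k ≤ s then P k else if k ≤ e + 1 then P (k - 1) + vec (w - 1) else P (k - 2)

/-- The directions of the path with a bump. -/
def v0 (u : ℕ → ℤ) (s e : ℕ) (w : ℤ) (k : ℕ) : ℤ :=
  if k < s then u k else if k = s then w - 1 else if k ≤ e then w else if k = e + 1 then w + 1
    else u (k - 2)

/-- A row outside of a straight piece of the path. -/
structure Bmp (D : Set (ℤ × ℤ)) (n : ℕ) (P : ℕ → ℤ × ℤ) (u : ℕ → ℤ) (s e : ℕ) (w : ℤ) : Prop where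
  bd : Bd D n P u 1
  cov : Cov D P u
  h1 : 1 ≤ s
  h2 : s < e
  h3 : e < n
  str : ∀ k, s ≤ k + 1 → k ≤ e → u k = w
  free : ∀ k, s ≤ k → k ≤ e → ∀ l, P l ≠ P k + vec (w - 1)

namespace Bmp

variable (h : Bmp D n P u s e w)

include h

theorem mem {k : ℕ} (h1 : s ≤ k) (h2 : k < e) : sqL (P k) (w - 1) ∈ osqs P u s e :=
  ⟨k, h1, h2, by rw [h.str k (by omega) (by omega)]⟩

theorem mem_iff {v : ℤ × ℤ} : v ∈ osqs P u s e ↔ ∃ k, s ≤ k ∧ k < e ∧ v = sqL (P k) (w - 1) := by
  constructor
  · rintro ⟨k, h1, h2, h3⟩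
    exact ⟨k, h1, h2, by rw [h3, h.str k (by omega) (by omega)]⟩
  · rintro ⟨k, h1, h2, rfl⟩
    exact h.mem h1 h2

theorem nx {k : ℕ} (h1 : s ≤ k + 1) (h2 : k ≤ e) : P (k + 1) = P k + vec w := by
  rw [h.bd.step, h.str k h1 h2]

theorem inj {k l : ℕ} (h1 : k < n) (h2 : l < n) (h3 : P k = P l) : k = l := by
  rcases lt_trichotomy k l with h4 | h4 | h4
  · exact absurd h3 (h.bd.inj _ _ h4 (by omega))
  · exact h4
  · exact absurd h3.symm (h.bd.inj _ _ h4 (by omega))

/-- The squares outside of the other steps are not in the row. -/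
theorem off {k : ℕ} (hk : k < n) (hks : k < s ∨ e ≤ k) : sqL (P k) (u k - 1) ∉ osqs P u s e := by
  intro h4
  obtain ⟨j, h5, h6, h7⟩ := h.mem_iff.1 h4
  have h8 := h.h3
  have h9 := h.nx (k := j) (by omega) (by omega)
  rcases sqL_corner h7 with g | g | g | g
  · have := h.inj hk (by omega) g
    omega
  · exact h.free j h5 (by omega) k g
  · rw [sub_add_cancel, ← h9] at g
    have g1 := h.inj hk (by omega) g
    have g2 : k = e := by omega
    rw [h.str k (by omega) (by omega)] at h7
    have := h.inj hk (by omega) (sqL_inj h7)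
    omega
  · refine h.free (j + 1) (by omega) (by omega) k ?_
    rw [g, sub_add_cancel, h9]
    abel

/-- The beyond squares are not in `D`. -/
theorem byd {k : ℕ} (h1 : s ≤ k) (h2 : k < e) :
    sqL (P k + vec (w - 1)) (w - 1) ∉ D ∪ osqs P u s e := by
  rintro (h3 | h3)
  · have h4 := h.nx (k := k) (by omega) (by omega)
    -- the side from `P (k + 1) + vec (w - 1)` in the direction `w + 2`
    have e1 : sqL (P (k + 1) + vec (w - 1)) (w + 2) = sqL (P k + vec (w - 1)) (w - 1) := by
      have := sqL_next (P k + vec (w - 1)) w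
      rw [h4, add_right_comm, sqL_congr (d' := w - 2) (by omega), this]
    have e2 : sqL (P (k + 1) + vec (w - 1)) (w + 2 - 1) = sqL (P k) (w - 1) := by
      have g1 := sqL_next (P (k + 1)) (w - 1)
      have g2 := sqL_next (P k) w
      rw [sqL_congr (d' := w - 1 - 2) (by omega), g1, show w - 1 - 1 = w - 2 by ring, h4, g2]
    obtain ⟨l, h5, -⟩ := h.cov (P (k + 1) + vec (w - 1)) (w + 2) (by rw [e1]; exact h3) (by
      rw [e2]
      have := h.bd.right k
      rwa [h.str k (by omega) (by omega)] at this)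
    exact h.free (k + 1) (by omega) (by omega) l h5
  · obtain ⟨j, h5, h6, h7⟩ := h.mem_iff.1 h3
    exact h.free k h1 (by omega) j (sqL_inj h7).symm

/-- **The path with a bump.** -/
theorem bump : Bd (D ∪ osqs P u s e) (n + 2) (fun k => p0 P s e w (k % (n + 2)))
    (fun k => v0 u s e w (k % (n + 2)) + 4 * 1 * ((k / (n + 2) : ℕ) : ℤ)) 1 := by
  have a1 := h.h1
  have a2 := h.h2
  have a3 := h.h3
  have hP : ∀ k, (k ≤ s → p0 P s e w k = P k) ∧
      (s < k → k ≤ e + 1 → p0 P s e w k = P (k - 1) + vec (w - 1)) ∧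
      (e + 1 < k → p0 P s e w k = P (k - 2)) := by
    intro k
    unfold p0
    refine ⟨fun h => if_pos h, fun h h' => ?_, fun h => ?_⟩
    · rw [if_neg (by omega), if_pos h']
    · rw [if_neg (by omega), if_neg (by omega)]
  have hU : ∀ k, (k < s → v0 u s e w k = u k) ∧ (k = s → v0 u s e w k = w - 1) ∧
      (s < k → k ≤ e → v0 u s e w k = w) ∧ (k = e + 1 → v0 u s e w k = w + 1) ∧
      (e + 1 < k → v0 u s e w k = u (k - 2)) := by
    intro k
    unfold v0
    refine ⟨fun h => if_pos h, fun h => ?_, fun h h' => ?_, fun h => ?_, fun h => ?_⟩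
    · rw [if_neg (by omega), if_pos h]
    · rw [if_neg (by omega), if_neg (by omega), if_pos h']
    · rw [if_neg (by omega), if_neg (by omega), if_neg (by omega), if_pos h]
    · rw [if_neg (by omega), if_neg (by omega), if_neg (by omega), if_neg (by omega)]
  have hcase : ∀ k : ℕ, k < s ∨ k = s ∨ (s < k ∧ k ≤ e) ∨ k = e + 1 ∨ e + 1 < k := fun k => by omega
  have ew : u e = w := h.str e (by omega) le_rfl
  have sw : u (s - 1) = w := h.str (s - 1) (by omega) (by omega)
  refine bd_fin (by omega) ?_ ?_ ?_ ?_ ?_ ?_ ?_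
  · rw [(hP (n + 2)).2.2 (by omega), (hP 0).1 (by omega)]
    have := h.bd.perP 0
    rw [zero_add] at this
    exact this
  · rw [(hU (n + 2)).2.2.2.2 (by omega), (hU 0).1 (by omega)]
    have := h.bd.per 0
    rw [zero_add] at this
    exact this
  · intro k hk
    rcases hcase k with g | g | g | g | g
    · rw [(hP k).1 (by omega), (hP (k + 1)).1 (by omega), (hU k).1 g]
      exact h.bd.step k
    · rw [(hP k).1 (by omega), (hP (k + 1)).2.1 (by omega) (by omega), (hU k).2.1 g]
      simp
    · rw [(hP k).2.1 g.1 (by omega), (hP (k + 1)).2.1 (by omega) (by omega),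
        (hU k).2.2.1 g.1 g.2]
      have := h.nx (k := k - 1) (by omega) (by omega)
      rw [show k - 1 + 1 = k by omega] at this
      rw [Nat.add_sub_cancel, this]
      abel
    · rw [(hP k).2.1 (by omega) (by omega), (hP (k + 1)).2.2 (by omega), (hU k).2.2.2.1 g,
        show k + 1 - 2 = k - 1 by omega, add_assoc]
      have := vec_back (w - 1)
      rw [show w - 1 + 2 = w + 1 by ring] at this
      rw [this]
      simp
    · rw [(hP k).2.2 g, (hP (k + 1)).2.2 (by omega), (hU k).2.2.2.2 g]
      have := h.bd.step (k - 2)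
      rwa [show k - 2 + 1 = k + 1 - 2 by omega] at this
  · intro k hk
    rcases hcase k with g | g | g | g | g
    · rw [(hU k).1 g]
      rcases (by omega : k + 1 < s ∨ k + 1 = s) with g' | g'
      · rw [(hU (k + 1)).1 g']
        exact h.bd.turn k
      · rw [(hU (k + 1)).2.1 g', show k = s - 1 by omega, sw]
        simp
    · rw [(hU k).2.1 g, (hU (k + 1)).2.2.1 (by omega) (by omega)]
      simp
    · rw [(hU k).2.2.1 g.1 g.2]
      rcases (by omega : k + 1 ≤ e ∨ k + 1 = e + 1) with g' | g'
      · rw [(hU (k + 1)).2.2.1 (by omega) g']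
        simp
      · rw [(hU (k + 1)).2.2.2.1 g']
        simp
    · rw [(hU k).2.2.2.1 g, (hU (k + 1)).2.2.2.2 (by omega), show k + 1 - 2 = e by omega, ew]
      simp
    · rw [(hU k).2.2.2.2 g, (hU (k + 1)).2.2.2.2 (by omega)]
      have := h.bd.turn (k - 2)
      rwa [show k - 2 + 1 = k + 1 - 2 by omega] at this
  · intro k l hkl hl he
    rcases hcase k with g | g | g | g | g <;> rcases hcase l with g' | g' | g' | g' | g' <;>
      first
      | (exfalso; omega)
      | (rw [(hP k).1 (by omega), (hP l).1 (by omega)] at he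
         have := h.inj (by omega) (by omega) he
         omega)
      | (rw [(hP k).2.2 (by omega), (hP l).2.2 (by omega)] at he
         have := h.inj (by omega) (by omega) he
         omega)
      | (rw [(hP k).1 (by omega), (hP l).2.2 (by omega)] at he
         have := h.inj (by omega) (by omega) he
         omega)
      | (rw [(hP k).2.1 (by omega) (by omega), (hP l).2.1 (by omega) (by omega)] at he
         have := h.inj (by omega) (by omega) (add_right_cancel he)
         omega)
      | (rw [(hP k).1 (by omega), (hP l).2.1 (by omega) (by omega)] at he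
         exact h.free (l - 1) (by omega) (by omega) _ he)
      | (rw [(hP k).2.1 (by omega) (by omega), (hP l).2.2 (by omega)] at he
         exact h.free (k - 1) (by omega) (by omega) _ he.symm)
  · intro k hk
    rcases hcase k with g | g | g | g | g
    · rw [(hP k).1 (by omega), (hU k).1 g]
      exact Or.inl (h.bd.left k)
    · rw [(hP k).1 (by omega), (hU k).2.1 g]
      exact Or.inr (h.mem (by omega) (by omega))
    · rw [(hP k).2.1 (by omega) (by omega), (hU k).2.2.1 g.1 g.2]
      have := sqL_next' (P (k - 1)) (w - 1)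
      rw [sub_add_cancel] at this
      rw [this]
      exact Or.inr (h.mem (by omega) (by omega))
    · rw [(hP k).2.1 (by omega) (by omega), (hU k).2.2.2.1 g]
      have g1 := sqL_next (P (k - 1)) (w - 1)
      have g2 := sqL_next (P (k - 2)) w
      have g3 := h.nx (k := k - 2) (by omega) (by omega)
      rw [show k - 2 + 1 = k - 1 by omega] at g3
      rw [sqL_congr (d' := w - 1 - 2) (by omega), g1, show w - 1 - 1 = w - 2 by ring, g3, g2]
      exact Or.inr (h.mem (by omega) (by omega))
    · rw [(hP k).2.2 g, (hU k).2.2.2.2 g]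
      exact Or.inl (h.bd.left _)
  · intro k hk
    rcases hcase k with g | g | g | g | g
    · rw [(hP k).1 (by omega), (hU k).1 g]
      rintro (h4 | h4)
      · exact h.bd.right k h4
      · exact h.off (by omega) (Or.inl g) h4
    · rw [(hP k).1 (by omega), (hU k).2.1 g]
      have g2 := sqL_next (P (s - 1)) w
      have g3 := h.nx (k := s - 1) (by omega) (by omega)
      rw [show s - 1 + 1 = s by omega] at g3
      rw [g, show w - 1 - 1 = w - 2 by ring, g3, g2]
      have g4 := h.bd.right (s - 1)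
      have g5 := h.off (k := s - 1) (by omega) (Or.inl (by omega))
      rw [sw] at g4 g5
      rintro (h4 | h4)
      · exact g4 h4
      · exact g5 h4
    · rw [(hP k).2.1 (by omega) (by omega), (hU k).2.2.1 g.1 g.2]
      exact h.byd (by omega) (by omega)
    · rw [(hP k).2.1 (by omega) (by omega), (hU k).2.2.2.1 g]
      have g1 := sqL_next' (P (k - 1)) (w - 1)
      rw [sub_add_cancel] at g1
      rw [show w + 1 - 1 = w by ring, g1, show k - 1 = e by omega]
      have g4 := h.bd.right e
      have g5 := h.off (k := e) (by omega) (Or.inr le_rfl)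
      rw [ew] at g4 g5
      rintro (h4 | h4)
      · exact g4 h4
      · exact g5 h4
    · rw [(hP k).2.2 g, (hU k).2.2.2.2 g]
      rintro (h4 | h4)
      · exact h.bd.right _ h4
      · exact h.off (by omega) (Or.inr (by omega)) h4

/-- Every side of the new domain is a side of the new path. -/
theorem bcov : Cov (D ∪ osqs P u s e) (fun k => p0 P s e w (k % (n + 2)))
    (fun k => v0 u s e w (k % (n + 2)) + 4 * 1 * ((k / (n + 2) : ℕ) : ℤ)) := by
  have a1 := h.h1
  have a2 := h.h2
  have a3 := h.h3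
  have key : ∀ k < n + 2, ∀ (v : ℤ × ℤ) (t : ℤ), p0 P s e w k = v → v0 u s e w k % 4 = t % 4 →
      ∃ k, (fun k => p0 P s e w (k % (n + 2))) k = v ∧
        (fun k => v0 u s e w (k % (n + 2)) + 4 * 1 * ((k / (n + 2) : ℕ) : ℤ)) k % 4 = t % 4 := by
    intro k hk v t h1 h2
    refine ⟨k, ?_, ?_⟩
    · show p0 P s e w (k % (n + 2)) = v
      rw [Nat.mod_eq_of_lt hk, h1]
    · show (v0 u s e w (k % (n + 2)) + 4 * 1 * ((k / (n + 2) : ℕ) : ℤ)) % 4 = t % 4
      rw [Nat.mod_eq_of_lt hk, Nat.div_eq_of_lt hk, ← h2]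
      simp
  intro v t h1 h2
  have h2D : sqL v (t - 1) ∉ D := fun g => h2 (Or.inl g)
  have h2R : sqL v (t - 1) ∉ osqs P u s e := fun g => h2 (Or.inr g)
  rcases h1 with h1 | h1
  · obtain ⟨k, hk, h3, h4⟩ := h.cov.lt h.bd (by omega) h1 h2D
    rcases (by omega : k < s ∨ (s ≤ k ∧ k < e) ∨ e ≤ k) with g | g | g
    · refine key k (by omega) v t ?_ ?_
      · unfold p0; rw [if_pos (by omega), h3]
      · unfold v0; rw [if_pos g, h4]
    · exfalso
      apply h2R
      rw [← h3, sqL_congr (d' := w - 1) (by rw [h.str k (by omega) (by omega)] at h4; omega)]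
      exact h.mem g.1 g.2
    · refine key (k + 2) (by omega) v t ?_ ?_
      · unfold p0; rw [if_neg (by omega), if_neg (by omega), Nat.add_sub_cancel, h3]
      · unfold v0
        rw [if_neg (by omega), if_neg (by omega), if_neg (by omega), if_neg (by omega),
          Nat.add_sub_cancel, h4]
  · obtain ⟨j, h5, h6, h7⟩ := h.mem_iff.1 h1
    have hj := h.nx (k := j) (by omega) (by omega)
    -- the previous and the next square
    have hprev : sqL (P j) (w - 2) ∈ osqs P u s e ∨ j = s := by
      rcases (by omega : j = s ∨ s < j) with g | g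
      · exact Or.inr g
      · left
        have g2 := sqL_next (P (j - 1)) w
        have g3 := h.nx (k := j - 1) (by omega) (by omega)
        rw [show j - 1 + 1 = j by omega] at g3
        rw [g3, g2]
        exact h.mem (by omega) (by omega)
    have hnext : sqL (P (j + 1)) (w - 1) ∈ osqs P u s e ∨ j + 1 = e := by
      rcases (by omega : j + 1 = e ∨ j + 1 < e) with g | g
      · exact Or.inr g
      · exact Or.inl (h.mem (by omega) g)
    rcases (by omega : t % 4 = (w - 1) % 4 ∨ t % 4 = w % 4 ∨ t % 4 = (w + 1) % 4 ∨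
      t % 4 = (w + 2) % 4) with g | g | g | g
    · rw [sqL_congr g] at h7
      have hv : v = P j := sqL_inj h7
      rcases hprev with g' | g'
      · exfalso
        apply h2R
        rw [hv, sqL_congr (d' := w - 2) (by omega)]
        exact g'
      · refine key s (by omega) v t ?_ ?_
        · unfold p0; rw [if_pos le_rfl, hv, g']
        · unfold v0; rw [if_neg (by omega), if_pos rfl]; omega
    · have g1 := sqL_next' (P j) (w - 1)
      rw [sub_add_cancel] at g1
      rw [sqL_congr g, ← g1] at h7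
      have hv := sqL_inj h7
      refine key (j + 1) (by omega) v t ?_ ?_
      · unfold p0; rw [if_neg (by omega), if_pos (by omega), Nat.add_sub_cancel, hv]
      · unfold v0; rw [if_neg (by omega), if_neg (by omega), if_pos (by omega)]; omega
    · have g1 := sqL_next (P (j + 1)) (w - 1)
      have g2 := sqL_next (P j) w
      rw [show w - 1 - 1 = w - 2 by ring, hj, g2, ← hj, sqL_congr (d' := w + 1) (by omega)] at g1
      rw [sqL_congr g, ← g1] at h7
      have hv := sqL_inj h7
      rcases hnext with g' | g'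
      · exfalso
        apply h2R
        have g3 := sqL_next' (P (j + 1)) (w - 1)
        rw [sub_add_cancel] at g3
        rw [hv, sqL_congr (d' := w) (by omega), g3]
        exact g'
      · refine key (e + 1) (by omega) v t ?_ ?_
        · unfold p0; rw [if_neg (by omega), if_pos (by omega), Nat.add_sub_cancel, hv, g']
        · unfold v0
          rw [if_neg (by omega), if_neg (by omega), if_neg (by omega), if_pos rfl]
          omega
    · have g2 := sqL_next (P j) w
      rw [← hj, sqL_congr (d' := w + 2) (by omega)] at g2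
      rw [sqL_congr g, ← g2] at h7
      have hv := sqL_inj h7
      exfalso
      apply h2D
      have g3 := sqL_next' (P j) w
      rw [hv, sqL_congr (d' := w + 1) (by omega), hj, g3]
      have := h.bd.left j
      rwa [h.str j (by omega) (by omega)] at this

end Bmp

end Vale.Agent.P167.H871.Q
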