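import Vale.Agent.P167.H871.Q.Bump

/-!
# P167, general `q`, exterior strands of frames: the path around a domain with several rows
-/

namespace Vale.Agent.P167.H871.Q

open Finset
open Vale.Agent.P167.Top

/-- Disjoint rows outside of straight pieces of the path, in one period. -/
structure Rws (D : Set (ℤ × ℤ)) (n : ℕ) (P : ℕ → ℤ × ℤ) (u : ℕ → ℤ) (N : ℕ) (s e : ℕ → ℕ) :
    Prop where
  bd : Bd D n P u 1
  cov : Cov D P u
  h1 : ∀ a < N, 1 ≤ s a
  h2 : ∀ a < N, s a < e a
  h3 : ∀ a < N, e a < n
  sep : ∀ a < N, ∀ b < a, e b < s a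
  str : ∀ a < N, ∀ k, s a ≤ k + 1 → k ≤ e a → u k = u (s a)
  free : ∀ a < N, ∀ k, s a ≤ k → k ≤ e a → ∀ l, P l ≠ P k + vec (u (s a) - 1)
  free2 : ∀ a < N, ∀ b < a, ∀ k l, s a ≤ k → k ≤ e a → s b ≤ l → l ≤ e b →
    P k + vec (u (s a) - 1) ≠ P l + vec (u (s b) - 1)

/-- The squares of the rows. -/
def rws (P : ℕ → ℤ × ℤ) (u : ℕ → ℤ) (N : ℕ) (s e : ℕ → ℕ) : Set (ℤ × ℤ) :=
  {v | ∃ a < N, v ∈ osqs P u (s a) (e a)}

/-- The step `k` is in a row. -/
def InR (N : ℕ) (s e : ℕ → ℕ) (k : ℕ) : Prop := ∃ a < N, s a ≤ k ∧ k < e a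

/-- The index of the step `k` on the path with a bump. -/
def bι (s e k : ℕ) : ℕ := if k < s then k else if k < e then k + 1 else k + 2

/-- **The path around the rows.** -/
theorem exists_bumps {N : ℕ} {D : Set (ℤ × ℤ)} {n : ℕ} {P : ℕ → ℤ × ℤ} {u : ℕ → ℤ} {s e : ℕ → ℕ}
    (h : Rws D n P u N s e) : ∃ (n' : ℕ) (P' : ℕ → ℤ × ℤ) (u' : ℕ → ℤ) (ι : ℕ → ℕ),
      Bd (D ∪ rws P u N s e) n' P' u' 1 ∧ Cov (D ∪ rws P u N s e) P' u' ∧ n ≤ n' ∧
      (∀ k l, k < l → l < n → ι k < ι l) ∧ (∀ k < n, ι k < n') ∧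
      (∀ k < n, InR N s e k → P' (ι k) = P k + vec (u k - 1)) ∧
      (∀ k < n, ¬ InR N s e k → P' (ι k) = P k) ∧ (∀ k < n, u' (ι k) = u k) := by
  induction N generalizing D n P u with
  | zero =>
    have h0 : D ∪ rws P u 0 s e = D := by
      ext v
      constructor
      · rintro (h | ⟨a, ha, -⟩)
        · exact h
        · exact absurd ha (by omega)
      · exact Or.inl
    refine ⟨n, P, u, fun k => k, ?_, ?_, le_rfl, fun k l h1 _ => h1, fun k hk => hk, ?_,
      fun k _ _ => rfl, fun k _ => rfl⟩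
    · rw [h0]; exact h.bd
    · rw [h0]; exact h.cov
    · rintro k - ⟨a, ha, -⟩
      exact absurd ha (by omega)
  | succ N ih =>
    have a1 := h.h1 N (by omega)
    have a2 := h.h2 N (by omega)
    have a3 := h.h3 N (by omega)
    set w := u (s N) with hw
    have hB : Bmp D n P u (s N) (e N) w :=
      ⟨h.bd, h.cov, a1, a2, a3, h.str N (by omega), h.free N (by omega)⟩
    set P1 : ℕ → ℤ × ℤ := fun k => p0 P (s N) (e N) w (k % (n + 2)) with hP1
    set u1 : ℕ → ℤ := fun k => v0 u (s N) (e N) w (k % (n + 2)) +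
      4 * 1 * ((k / (n + 2) : ℕ) : ℤ) with hu1
    have hP1k : ∀ k < n + 2, P1 k = p0 P (s N) (e N) w k := fun k hk => by
      rw [hP1]; simp only [Nat.mod_eq_of_lt hk]
    have hu1k : ∀ k < n + 2, u1 k = v0 u (s N) (e N) w k := fun k hk => by
      rw [hu1]; simp [Nat.mod_eq_of_lt hk, Nat.div_eq_of_lt hk]
    have pl : ∀ k ≤ s N, P1 k = P k := fun k hk => by
      rw [hP1k k (by omega)]; unfold p0; rw [if_pos hk]
    have ul : ∀ k < s N, u1 k = u k := fun k hk => by
      rw [hu1k k (by omega)]; unfold v0; rw [if_pos hk]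
    have hea : ∀ a < N, e a < s N := fun a ha => h.sep N (by omega) a ha
    have hsa : ∀ a < N, s a < s N := fun a ha => (h.h2 a (by omega)).trans (hea a ha)
    have hval : ∀ l, (∃ m, P1 l = P m) ∨ (∃ m, s N ≤ m ∧ m ≤ e N ∧ P1 l = P m + vec (w - 1)) := by
      intro l
      have h5 := Nat.mod_lt l (show 0 < n + 2 by omega)
      rw [hP1]
      simp only [p0]
      split_ifs with c1 c2
      · exact Or.inl ⟨_, rfl⟩
      · exact Or.inr ⟨_, by omega, by omega, rfl⟩
      · exact Or.inl ⟨_, rfl⟩
    have hrow : ∀ a < N, osqs P1 u1 (s a) (e a) = osqs P u (s a) (e a) := by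
      intro a ha
      ext v
      have h6 := hea a ha
      constructor
      · rintro ⟨k, h3, h4, rfl⟩
        exact ⟨k, h3, h4, by rw [pl k (by omega), ul k (by omega)]⟩
      · rintro ⟨k, h3, h4, rfl⟩
        exact ⟨k, h3, h4, by rw [pl k (by omega), ul k (by omega)]⟩
    have hD : D ∪ osqs P u (s N) (e N) ∪ rws P1 u1 N s e = D ∪ rws P u (N + 1) s e := by
      ext v
      constructor
      · rintro ((h4 | h4) | ⟨a, ha, h4⟩)
        · exact Or.inl h4
        · exact Or.inr ⟨N, by omega, h4⟩
        · rw [hrow a ha] at h4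
          exact Or.inr ⟨a, by omega, h4⟩
      · rintro (h4 | ⟨a, ha, h4⟩)
        · exact Or.inl (Or.inl h4)
        · rcases (by omega : a < N ∨ a = N) with h5 | rfl
          · right
            exact ⟨a, h5, by rw [hrow a h5]; exact h4⟩
          · exact Or.inl (Or.inr h4)
    have hR : Rws (D ∪ osqs P u (s N) (e N)) (n + 2) P1 u1 N s e := by
      refine ⟨hB.bump, hB.bcov, fun a ha => h.h1 a (by omega), fun a ha => h.h2 a (by omega),
        fun a ha => ?_, fun a ha b hb => h.sep a (by omega) b hb, fun a ha k hk1 hk2 => ?_,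
        fun a ha k hk1 hk2 l => ?_, fun a ha b hb k l k1 k2 l1 l2 => ?_⟩
      · have := h.h3 a (by omega)
        omega
      · have h6 := hea a ha
        have h7 := hsa a ha
        rw [ul k (by omega), ul (s a) h7]
        exact h.str a (by omega) k hk1 hk2
      · have h6 := hea a ha
        have h7 := hsa a ha
        rw [pl k (by omega), ul (s a) h7]
        rcases hval l with ⟨m, hm⟩ | ⟨m, m1, m2, hm⟩
        · rw [hm]
          exact h.free a (by omega) k hk1 hk2 m
        · rw [hm]
          exact h.free2 N (by omega) a ha m k m1 m2 hk1 hk2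
      · have h6 := hea a ha
        have h7 := hsa a ha
        have h8 := hea b (by omega)
        have h9 := hsa b (by omega)
        rw [pl k (by omega), ul (s a) h7, pl l (by omega), ul (s b) h9]
        exact h.free2 a (by omega) b hb k l k1 k2 l1 l2
    obtain ⟨n', P', u', ι, g1, g2, g3, g4, g5, g6, g7, g8⟩ := ih hR
    rw [hD] at g1 g2
    have hι : ∀ k, bι (s N) (e N) k < n + 2 ∨ n ≤ k := fun k => by
      unfold bι; split_ifs <;> omega
    have hι2 : ∀ k l, k < l → bι (s N) (e N) k < bι (s N) (e N) l := fun k l hkl => by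
      unfold bι; split_ifs <;> omega
    refine ⟨n', P', u', fun k => ι (bι (s N) (e N) k), g1, g2, by omega, fun k l h3 h4 => ?_,
      fun k hk => ?_, fun k hk h3 => ?_, fun k hk h3 => ?_, fun k hk => ?_⟩
    · refine g4 _ _ (hι2 k l h3) ?_
      have := hι l
      omega
    · refine g5 _ ?_
      have := hι k
      omega
    · obtain ⟨a, ha, h4, h5⟩ := h3
      rcases (by omega : a < N ∨ a = N) with h6 | rfl
      · have h7 := hea a h6
        have h8 : bι (s N) (e N) k = k := by unfold bι; rw [if_pos (by omega)]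
        show P' (ι (bι (s N) (e N) k)) = _
        rw [h8, g6 k (by omega) ⟨a, h6, h4, h5⟩, pl k (by omega), ul k (by omega)]
      · have h8 : bι (s a) (e a) k = k + 1 := by
          unfold bι; rw [if_neg (by omega), if_pos h5]
        show P' (ι (bι (s a) (e a) k)) = _
        rw [h8, g7 (k + 1) (by omega) ?_, hP1k _ (by omega), hB.str k (by omega) (by omega)]
        · unfold p0
          rw [if_neg (by omega), if_pos (by omega), Nat.add_sub_cancel]
        · rintro ⟨b, hb, h9, h10⟩
          have := hea b hb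
          omega
    · have h4 : ¬ InR N s e k := fun ⟨a, ha, h5⟩ => h3 ⟨a, by omega, h5⟩
      show P' (ι (bι (s N) (e N) k)) = _
      rcases (by omega : k < s N ∨ (s N ≤ k ∧ k < e N) ∨ e N ≤ k) with h5 | h5 | h5
      · have h8 : bι (s N) (e N) k = k := by unfold bι; rw [if_pos h5]
        rw [h8, g7 k (by omega) h4, pl k (by omega)]
      · exact absurd ⟨N, by omega, h5⟩ h3
      · have h8 : bι (s N) (e N) k = k + 2 := by
          unfold bι; rw [if_neg (by omega), if_neg (by omega)]
        rw [h8, g7 (k + 2) (by omega) ?_, hP1k _ (by omega)]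
        · unfold p0
          rw [if_neg (by omega), if_neg (by omega), Nat.add_sub_cancel]
        · rintro ⟨b, hb, h9, h10⟩
          have := hea b hb
          omega
    · show u' (ι (bι (s N) (e N) k)) = _
      have h4 := hι k
      rw [g8 _ (by omega), hu1k _ (by omega)]
      rcases (by omega : k < s N ∨ (s N ≤ k ∧ k < e N) ∨ e N ≤ k) with h5 | h5 | h5
      · have h8 : bι (s N) (e N) k = k := by unfold bι; rw [if_pos h5]
        rw [h8]; unfold v0; rw [if_pos h5]
      · have h8 : bι (s N) (e N) k = k + 1 := by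
          unfold bι; rw [if_neg (by omega), if_pos h5.2]
        rw [h8]; unfold v0
        rw [if_neg (by omega), if_neg (by omega), if_pos (by omega), hB.str k (by omega) (by omega)]
      · have h8 : bι (s N) (e N) k = k + 2 := by
          unfold bι; rw [if_neg (by omega), if_neg (by omega)]
        rw [h8]; unfold v0
        rw [if_neg (by omega), if_neg (by omega), if_neg (by omega), if_neg (by omega),
          Nat.add_sub_cancel]

end Vale.Agent.P167.H871.Q
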