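import Vale.Agent.P167.H871.Q.AltT
import Vale.Agent.P167.H825.Q.FrmH
import Vale.Agent.P167.QX.TS
import Vale.Agent.P167.H871.Q.OutQ

/-!
# P167, general `q`: the weights of the strands of a row near a special point
-/

namespace Vale.Agent.P167.H871.Q

open Finset
open Vale.Agent.P167.FK
open Vale.Agent.P167.Top
open Vale.Agent.P167.A (plane plane_sg)
open Vale.Agent.P167.E6 (IsPolygon Encloses dir)
open Vale.Agent.P167.BR (be)
open Vale.Agent.P167.XDL (bS mem_bS)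
open Vale.Agent.P167.H199 (strand ret Returns mem_strand ret_min ret_le cang ah at' hb)
open Vale.Agent.P167.QX (exc mem_exc exc_last ExtPot out_stays returns_good rS natS ClT lst wS TS InB)
open Vale.Agent.P167.H680.T (thk sgb)
open Vale.Agent.P167.H825.Q (Row sq_hb sgb_hb sg_sg)
open Vale.Agent.P167.H945.Q (face faces lrs SP tipL tipR jn natw relw)

variable {r : Row} {b : Bool} {v : ℤ × ℤ} {k : ℕ} {ω ω' : Cfg} {B : Finset (ℤ × ℤ)} {e x : Ed}
  {I : Finset (ℤ × ℤ)} {A A' : Finset Ed} {lo hi : ℕ} {θ z : ℝ} {Φ τ : ℤ × ℤ → ℝ}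

/-! ### the phases -/

theorem ah_thk (h1 : hdv e ∉ I) (h2 : tlv e ∈ I) : ah plane (thk θ I Φ τ z).a e =
    Φ (tlv e) + τ (tlv e) * ((3 * θ - Real.pi) / 4) := by
  have h3 : e ∈ bS I := mem_bS.2 (Or.inr ⟨h1, h2⟩)
  obtain ⟨g1, g2⟩ := sq_hb e
  show (if e ∈ bS I then (if H680.T.sq e (hb plane e) ∈ I then 0 else
    sgb (hb plane e) * Φ (H680.T.sq e (!hb plane e)) +
      (sg e : ℝ) * τ (H680.T.sq e (!hb plane e)) * ((3 * θ - Real.pi) / 4)) else 0) * plane.sg e = _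
  rw [if_pos h3, g1, if_neg h1, g2]
  have g3 := (sgb_hb e).1
  have g4 := sg_sg e
  linear_combination Φ (tlv e) * g3 + τ (tlv e) * ((3 * θ - Real.pi) / 4) * g4

theorem at_thk (h1 : hdv e ∈ I) (h2 : tlv e ∉ I) : at' plane (thk θ I Φ τ z).a e =
    -Φ (hdv e) + τ (hdv e) * ((3 * θ - Real.pi) / 4) := by
  have h3 : e ∈ bS I := mem_bS.2 (Or.inl ⟨h1, h2⟩)
  obtain ⟨g1, g2⟩ := sq_hb e
  show (if e ∈ bS I then (if H680.T.sq e (!hb plane e) ∈ I then 0 else
    sgb (!hb plane e) * Φ (H680.T.sq e (!!hb plane e)) +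
      (sg e : ℝ) * τ (H680.T.sq e (!!hb plane e)) * ((3 * θ - Real.pi) / 4)) else 0) *
        plane.sg e = _
  rw [if_pos h3, g2, if_neg h2, Bool.not_not, g1]
  have g3 := (sgb_hb e).2
  have g4 := sg_sg e
  linear_combination Φ (hdv e) * g3 + τ (hdv e) * ((3 * θ - Real.pi) / 4) * g4

theorem thk_off (h : e ∉ bS I) : ah plane (thk θ I Φ τ z).a e + at' plane (thk θ I Φ τ z).a e = 0 := by
  have h1 : (thk θ I Φ τ z).a e = 0 := (thk θ I Φ τ z).off e h
  unfold ah at'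
  rw [h1]
  simp

/-- The angle of an outer strand of a thick wall. -/
theorem cang_thk (h1 : hdv e ∉ I) (h2 : tlv e ∈ I) (hr : Returns (nx ω) (bS I) e) :
    cang plane θ (thk θ I Φ τ z).a ω (strand (nx ω) (bS I) e) =
      θ / 4 * (tr I ω e : ℝ) + (Φ (tlv e) - Φ (hdv (lst I ω e))) +
        (τ (tlv e) + τ (hdv (lst I ω e))) * ((3 * θ - Real.pi) / 4) := by
  have h3 := cang_strand (θ := θ) (a := (thk θ I Φ τ z).a) (mem_bS.2 (Or.inr ⟨h1, h2⟩)) hr
    (fun k k1 k2 => thk_off (ret_min k1 k2))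
  obtain ⟨g1, g2⟩ := exc_last h1 hr
  rw [h3, ah_thk h1 h2, at_thk g1 g2]
  unfold tr lst
  ring

/-! ### the weights -/

theorem U1_mono {L i j : ℕ} (hij : i ≤ j) (hj : j < 2 * L + 2) : U1 L i ≤ U1 L j := by
  rw [U1_eq (by omega), U1_eq hj]
  unfold U0
  split_ifs <;> omega

/-- **The relative weight of a strand which stays in a box.** `Φ`, `τ`: the phases of the wall, `τ`
is the colour of the frozen squares. -/
theorem rS_eq (hθ : 0 < Real.sin θ) (hL : 1 ≤ r.L) (hR : Rays r.I (B : Set (ℤ × ℤ)))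
    (h0 : w0 r b ∉ B) (hf : ∀ v ∈ r.I, (τ v = 1 ∧ ω v = false) ∨ (τ v = -1 ∧ ω v = true))
    (h1 : hdv e ∉ r.I) (h2 : tlv e ∈ r.I) (hr : Returns (nx ω) (bS r.I) e)
    (hs : Stays r.I (B : Set (ℤ × ℤ)) ω e) :
    rS θ r.I (thk θ r.I Φ τ z).a ω e = relw θ (tr r.I ω e)
      (Φ (tlv e) - Φ (hdv (lst r.I ω e))) (τ (tlv e)) (τ (hdv (lst r.I ω e))) := by
  classical
  have hq := rqr_polygon (r := r) (b := b) hL
  have hI := rqr_encloses (r := r) (b := b) hL
  have h0' : w0 r b ∉ (B : Set (ℤ × ℤ)) := fun h => h0 (mem_coe.1 h)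
  obtain ⟨i, j, φ, σ, F, hφ, hσ, hv, hoff, hT⟩ := row_pot (b := b) hL hR h0' h1 h2 hr hs
  have hT' : tr r.I ω e = U1 r.L j - U1 r.L i + (if i < j then 2 else -2) := hT
  have hij := F.ne hq hI
  -- the sign of the turning
  have hsgn : (0 < tr r.I ω e ↔ σ = 1) ∧ (tr r.I ω e < 0 ↔ σ = -1) := by
    rw [hT', hσ]
    rcases lt_or_gt_of_ne hij with h | h
    · have := U1_mono h.le F.hj
      rw [if_pos h, if_pos h]
      constructor <;> constructor <;> intro <;> omega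
    · have := U1_mono h.le F.hi
      rw [if_neg (by omega), if_neg (by omega)]
      constructor <;> constructor <;> intro <;> omega
  have huniq : ∀ {σ' : ℤ} {φ' : ℤ × ℤ → ℤ}, ExtPot r.I (exc r.I ω e) σ' φ' → σ' = σ := by
    intro σ' φ' hφ'
    rw [hσ]
    exact pot_sgn hq hI F hφ' (pot_off hR hr hs hφ' h0' (isC_w0 hL))
  have hlast := exc_last h1 hr
  have hl : hdv (lst r.I ω e) ∈ r.I := hlast.1
  set τ1 := τ (tlv e) with hτ1
  set τ2 := τ (hdv (lst r.I ω e)) with hτ2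
  have hcl : ClT r.I ω e ↔ τ1 = τ2 ∧ 0 < τ1 * (tr r.I ω e : ℝ) := by
    have k1 := hf _ h2
    have k2 := hf _ hl
    rw [← hτ1] at k1
    rw [← hτ2] at k2
    unfold ClT
    rcases k1 with ⟨k1, k1'⟩ | ⟨k1, k1'⟩ <;> rcases k2 with ⟨k2, k2'⟩ | ⟨k2, k2'⟩
    · rw [k1', k2', k1, k2]
      simp only [true_and, one_mul, Bool.false_eq_true, false_and, or_false]
      rw [Int.cast_pos, hsgn.1]
      constructor
      · rintro ⟨φ', hφ'⟩
        exact (huniq hφ').symm
      · intro h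
        rw [← h]
        exact ⟨φ, hφ⟩
    · rw [k1', k2', k1, k2]
      simp
      intro h
      norm_num at h
    · rw [k1', k2', k1, k2]
      simp
      intro h
      norm_num at h
    · rw [k1', k2', k1, k2]
      simp only [Bool.true_eq_false, false_and, false_or, true_and]
      rw [neg_one_mul, neg_pos, Int.cast_lt_zero, hsgn.2]
      constructor
      · rintro ⟨φ', hφ'⟩
        exact (huniq hφ').symm
      · intro h
        rw [← h]
        exact ⟨φ, hφ⟩
  have hnat : natw θ (tr r.I ω e) τ1 τ2 = Real.sin θ * natS θ r.I ω e := by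
    unfold natw natS
    by_cases h : ClT r.I ω e
    · rw [if_pos h, if_pos (hcl.1 h), Real.sin_two_mul]
      ring
    · rw [if_neg h, if_neg fun h' => h (hcl.2 h'), mul_one]
  unfold rS wS relw
  rw [cang_thk h1 h2 hr, hnat, abs_div, div_div, abs_of_pos hθ]

/-! ### values of `relw` -/

theorem relw_nat {t s : ℝ} (hθ : 0 < Real.sin θ) (hθ2 : 0 < Real.sin (2 * θ)) (hs : s = 1 ∨ s = -1)
    (ht : t = 2 ∨ t = -2) : relw θ t 0 s s = 1 := by
  have key : ∀ {x y : ℝ}, 0 < y → (Real.cos x = y) → |Real.cos x| / y = 1 := by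
    intro x y hy h
    rw [h, abs_of_pos hy, div_self hy.ne']
  unfold relw natw
  rcases hs with rfl | rfl <;> rcases ht with rfl | rfl
  · rw [if_pos ⟨rfl, by norm_num⟩]
    refine key hθ2 ?_
    rw [show θ / 4 * 2 + 0 + (1 + 1) * ((3 * θ - Real.pi) / 4) = 2 * θ - Real.pi / 2 by ring,
      Real.cos_sub_pi_div_two]
  · rw [if_neg (fun h => by norm_num at h)]
    refine key hθ ?_
    rw [show θ / 4 * -2 + 0 + (1 + 1) * ((3 * θ - Real.pi) / 4) = θ - Real.pi / 2 by ring,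
      Real.cos_sub_pi_div_two]
  · rw [if_neg (fun h => by norm_num at h)]
    refine key hθ ?_
    rw [show θ / 4 * 2 + 0 + (-1 + -1) * ((3 * θ - Real.pi) / 4) = Real.pi / 2 - θ by ring,
      Real.cos_pi_div_two_sub]
  · rw [if_pos ⟨rfl, by norm_num⟩]
    refine key hθ2 ?_
    rw [show θ / 4 * -2 + 0 + (-1 + -1) * ((3 * θ - Real.pi) / 4) = Real.pi / 2 - 2 * θ by ring,
      Real.cos_pi_div_two_sub]

theorem natw_ge (hθ2 : Real.sin θ ≤ Real.sin (2 * θ)) (t s s' : ℝ) : Real.sin θ ≤ natw θ t s s' := by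
  unfold natw
  split_ifs
  · exact hθ2
  · exact le_rfl

theorem relw_nonneg (hθ : 0 < Real.sin θ) (hθ2 : Real.sin θ ≤ Real.sin (2 * θ)) (t d s s' : ℝ) :
    0 ≤ relw θ t d s s' :=
  div_nonneg (abs_nonneg _) (hθ.le.trans (natw_ge hθ2 t s s'))

theorem relw_le (hθ : 0 < Real.sin θ) (hθ2 : Real.sin θ ≤ Real.sin (2 * θ)) (t d s s' : ℝ) :
    relw θ t d s s' ≤ 1 / Real.sin θ := by
  unfold relw
  exact div_le_div₀ zero_le_one (Real.abs_cos_le_one _) hθ (natw_ge hθ2 t s s')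

/-! ### classification of the strands in a box -/

theorem near_hd (x : Ed) : nm (hdv x - tlv x) ≤ 1 := by
  rcases x with ⟨a, b⟩ | ⟨a, b⟩ <;> by_cases h : Even (a + b) <;> simp [hdv, tlv, h, nm]

/-- The outer square of the side `L` is the square behind the end. -/
theorem outer_mid (hL : 1 ≤ r.L) {w : ℤ × ℤ}
    (h : (w = hdv (be (rqr r b) (r.L : ZMod (2 * r.L + 2))) ∨
      w = tlv (be (rqr r b) (r.L : ZMod (2 * r.L + 2)))) ∧ w ∉ r.I) :
    w = w1 r b := by
  rw [be_outer hL _ h, P1_eq (by omega), U1_eq (by omega)]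
  have e1 : P0 r.L r.L = ((r.L : ℤ), 0) := by
    unfold P0
    rw [if_pos le_rfl]
  have e2 : U0 r.L r.L = 1 := by
    unfold U0
    rw [if_neg (by omega), if_pos rfl]
  rw [e1, e2]
  unfold w1 sqm Ls fz0 fd sqL
  cases hb : b <;> by_cases h : r.o = true <;> simp [h, dx, dy]

/-- **Classification.** The feet of a strand which stays in `B` (`w0 r b` is off `B`): the turning,
and the box contains all squares at the sites of the polygon between the feet. -/
theorem row_cls (hL : 1 ≤ r.L) (hR : Rays r.I (B : Set (ℤ × ℤ))) (h0 : w0 r b ∉ B)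
    (h1 : hdv e ∉ r.I) (h2 : tlv e ∈ r.I) (hr : Returns (nx ω) (bS r.I) e)
    (hs : Stays r.I (B : Set (ℤ × ℤ)) ω e) :
    ∃ i j, Foot (rqr r b) r.I ω e i j ∧ i < 2 * r.L + 1 ∧ j < 2 * r.L + 1 ∧
      tr r.I ω e = U1 r.L j - U1 r.L i + (if i < j then 2 else -2) ∧
      ∀ m ≤ 2 * r.L + 2, min i j < m → m ≤ max i j → ∀ v,
        IsC v (rqr r b (m : ZMod (2 * r.L + 2))) → v ∈ B := by
  have h0' : w0 r b ∉ (B : Set (ℤ × ℤ)) := fun h => h0 (mem_coe.1 h)
  obtain ⟨i, j, φ, σ, F, hφ, hσ, hv, hoff, hT⟩ := row_pot (b := b) hL hR h0' h1 h2 hr hs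
  refine ⟨i, j, F, ?_, ?_, hT, ?_⟩
  · by_contra hi
    have e1 : i = 2 * r.L + 1 := by have := F.hi; omega
    have h8 := hs 0 hr.spec.1
    rw [Function.iterate_zero, id] at h8
    have h9 := F.e1
    rw [e1] at h9
    have h10 := outer_end hL (b := b) (w := hdv e) ⟨Or.inl (by rw [← h9]), h1⟩
    rw [h10] at h8
    exact h0' h8
  · by_contra hj
    have e1 : j = 2 * r.L + 1 := by have := F.hj; omega
    have h8 := tl_last hr hs
    have h9 := (exc_last h1 hr).2
    rw [F.e2, e1] at h8 h9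
    rw [outer_end hL ⟨Or.inr rfl, h9⟩] at h8
    exact h0' h8
  · intro m hm g1 g2 v hc
    by_contra hB
    have h3 := hv m hm
    rw [hoff v (fun h => hB (mem_coe.1 h)) _ hc] at h3
    split_ifs at h3 <;> omega

/-- The squares of a face. -/
theorem face_sq (hv : v = hdv (face r b k) ∨ v = tlv (face r b k))
    (hI : v ∈ r.I) : v = r.sq k := by
  rw [mem_rI] at hI
  unfold face at hv
  unfold Row.sq
  cases hb : b <;> by_cases ho : r.o = true <;> simp only [hb, ho, if_true, if_false, Row.sq,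
    Bool.false_eq_true] at hv hI ⊢ <;>
    rcases hv with rfl | rfl <;> simp only [hdv, tlv] at hI ⊢ <;> split_ifs at hI ⊢ <;>
    first | rfl | (exfalso; simp only at hI; omega) | (ext <;> simp)

end Vale.Agent.P167.H871.Q
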