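import Vale.Agent.P167.H871.Q.Far
import Vale.Agent.P167.H871.Q.Val
import Vale.Agent.P167.H680.T.Red

/-!
# P167, general `q`: the exterior weight table of a frame of rows

`Fam`: a family of rows outside of straight pieces of the sides of a polygon, with the outward phases
and the colours of the steps. `cang_far`: the angle of an exterior strand. `wE`: its cosine.
-/

namespace Vale.Agent.P167.H871.Q

open Finset
open Vale.Agent.P167.FK
open Vale.Agent.P167.Top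
open Vale.Agent.P167.A (plane plane_sg)
open Vale.Agent.P167.E6 (IsPolygon Encloses dir)
open Vale.Agent.P167.H199 (strand ret Returns mem_strand ret_min ret_le cang ah at' hb)
open Vale.Agent.P167.BR (be)
open Vale.Agent.P167.XDL (bS mem_bS)
open Vale.Agent.P167.QX (out_stays exc_last ExtPot exc)
open Vale.Agent.P167.H680.T (thk rowC uI mem_uI)
open Vale.Agent.P167.H825.Q (Row stΦ stτ)

variable {ι : Type} [Fintype ι] {r : ι → Row} {θ β : ℝ} {x : Ed} {i : ι} {ω : Cfg}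

/-! ### the phases of a family of rows -/

theorem ph_one (h : ∀ j, j ≠ i → x ∉ bS (r j).I) :
    (rowC θ r 0).ph x = (thk θ (r i).I (r i).Φ (r i).τ 0).a x := by
  funext b
  show ∑ y, ((rowC θ r 0).w y).a x b + (0 : ℝ) / 2 = _
  rw [zero_div, add_zero, sum_eq_single_of_mem i (mem_univ _)]
  · rfl
  · intro j _ hj
    rw [((rowC θ r 0).w j).off x (h j hj)]
    rfl

theorem ph_none (h : ∀ j, x ∉ bS (r j).I) : (rowC θ r 0).ph x = 0 := by
  funext b
  show ∑ y, ((rowC θ r 0).w y).a x b + (0 : ℝ) / 2 = _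
  rw [zero_div, add_zero, sum_eq_zero]
  · rfl
  · intro j _
    rw [((rowC θ r 0).w j).off x (h j)]
    rfl

/-- The phase at an exit. -/
theorem ah_rows (hd : ∀ i j v, v ∈ (r i).I → v ∈ (r j).I → i = j) (h1 : hdv x ∉ uI r)
    (h2 : tlv x ∈ (r i).I) : ah plane (rowC θ r 0).ph x =
      (r i).Φ (tlv x) + (r i).τ (tlv x) * ((3 * θ - Real.pi) / 4) := by
  have h3 : ∀ j, hdv x ∉ (r j).I := fun j h => h1 (mem_uI.2 ⟨j, h⟩)
  have h4 : (rowC θ r 0).ph x = (thk θ (r i).I (r i).Φ (r i).τ 0).a x := by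
    refine ph_one fun j hj h => ?_
    rw [mem_bS] at h
    rcases h with h | h
    · exact h3 j h.1
    · exact hj (hd _ _ _ h.2 h2)
  have h5 := ah_thk (θ := θ) (Φ := (r i).Φ) (τ := (r i).τ) (z := 0) (h3 i) h2
  unfold ah at h5 ⊢
  rw [h4, h5]

/-- The phase at an entry. -/
theorem at_rows (hd : ∀ i j v, v ∈ (r i).I → v ∈ (r j).I → i = j) (h1 : hdv x ∈ (r i).I)
    (h2 : tlv x ∉ uI r) : at' plane (rowC θ r 0).ph x =
      -(r i).Φ (hdv x) + (r i).τ (hdv x) * ((3 * θ - Real.pi) / 4) := by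
  have h3 : ∀ j, tlv x ∉ (r j).I := fun j h => h2 (mem_uI.2 ⟨j, h⟩)
  have h4 : (rowC θ r 0).ph x = (thk θ (r i).I (r i).Φ (r i).τ 0).a x := by
    refine ph_one fun j hj h => ?_
    rw [mem_bS] at h
    rcases h with h | h
    · exact hj (hd _ _ _ h.1 h1)
    · exact h3 j h.2
  have h5 := at_thk (θ := θ) (Φ := (r i).Φ) (τ := (r i).τ) (z := 0) h1 (h3 i)
  unfold at' at h5 ⊢
  rw [h4, h5]

/-- **The angle of a strand of a family of rows.** -/
theorem cang_rows (hd : ∀ i j v, v ∈ (r i).I → v ∈ (r j).I → i = j) {j : ι} (h1 : hdv x ∉ uI r)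
    (h2 : tlv x ∈ (r i).I) (hr : Returns (nx ω) (bS (uI r)) x)
    (h3 : hdv ((nx ω)^[ret (nx ω) (bS (uI r)) x] x) ∈ (r j).I) :
    cang plane θ (rowC θ r 0).ph ω (strand (nx ω) (bS (uI r)) x) =
      θ / 4 * ((∑ k ∈ range (ret (nx ω) (bS (uI r)) x), trn ω ((nx ω)^[k] x) : ℤ) : ℝ) +
        ((r i).Φ (tlv x) - (r j).Φ (hdv ((nx ω)^[ret (nx ω) (bS (uI r)) x] x))) +
        ((r i).τ (tlv x) + (r j).τ (hdv ((nx ω)^[ret (nx ω) (bS (uI r)) x] x))) *
          ((3 * θ - Real.pi) / 4) := by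
  have h4 : x ∈ bS (uI r) := mem_bS.2 (Or.inr ⟨h1, mem_uI.2 ⟨i, h2⟩⟩)
  have h5 := cang_strand (θ := θ) (a := (rowC θ r 0).ph) h4 hr fun k k1 k2 => by
    have e1 : hdv ((nx ω)^[k] x) ∉ uI r := out_stays h1 k2
    have e2 : tlv ((nx ω)^[k] x) ∉ uI r := by
      obtain ⟨m, hm⟩ : ∃ m, k = m + 1 := ⟨k - 1, by omega⟩
      rw [hm, Function.iterate_succ_apply', tlv_nx]
      exact out_stays h1 (by omega)
    have e3 : (rowC θ r 0).ph ((nx ω)^[k] x) = 0 := ph_none fun j h => by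
      rw [mem_bS] at h
      rcases h with h | h
      · exact e1 (mem_uI.2 ⟨j, h.1⟩)
      · exact e2 (mem_uI.2 ⟨j, h.2⟩)
    unfold ah at'
    rw [e3]
    simp
  rw [h5, ah_rows hd h1 h2, at_rows hd h3 (exc_last h1 hr).2]
  ring

/-! ### families of rows along a polygon -/

/-- The mean phase at the step `k`. -/
noncomputable def bt (β : ℝ) (ka k : ℕ) : ℝ := if k < ka then 0 else β

/-- A family of rows outside of straight pieces of the sides of a polygon (window from `c`), with the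
phases and the colours of the steps. -/
structure Fam (θ β : ℝ) (r : ι → Row) {n : ℕ} (q : ZMod n → ℤ × ℤ) (D : Finset (ℤ × ℤ)) (u : ℕ → ℤ)
    (ka c N : ℕ) (s e : ℕ → ℕ) : Prop where
  hq : IsPolygon q
  hD : Encloses q D
  hu : Bd (D : Set (ℤ × ℤ)) n (fun k => q (k : ZMod n)) u 1
  hc : c ≤ n
  hR : Rws (D : Set (ℤ × ℤ)) n (fun k => q ((k + c : ℕ) : ZMod n)) (fun k => u (k + c)) N s e
  hK : ((uI r : Finset (ℤ × ℤ)) : Set (ℤ × ℤ)) =
    rws (fun k => q ((k + c : ℕ) : ZMod n)) (fun k => u (k + c)) N s e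
  disj : ∀ i j v, v ∈ (r i).I → v ∈ (r j).I → i = j
  ph : ∀ z < n, InK n c N s e z → ∃ y, sqL (q (z : ZMod n)) (u z - 1) ∈ (r y).I ∧
    (r y).Φ (sqL (q (z : ZMod n)) (u z - 1)) = stΦ θ β u ka z ∧
    (r y).τ (sqL (q (z : ZMod n)) (u z - 1)) = stτ ka z

/-- The squares before and after the rows. -/
def endK {n : ℕ} (q : ZMod n → ℤ × ℤ) (u : ℕ → ℤ) (c N : ℕ) (s e : ℕ → ℕ) : Set (ℤ × ℤ) :=
  ends (fun k => q ((k + c : ℕ) : ZMod n)) (fun k => u (k + c)) N s e

/-- The value of the exterior potential at the step `z`. -/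
def vE (i j z : ℕ) (σ : ℤ) : ℤ :=
  (if i < j then (σ - 1) / 2 else (σ + 1) / 2) + (if i < z then 1 else 0) - (if j < z then 1 else 0)

/-- The exterior strand `x` goes from the far side `i` to the far side `j`, potential `φ`, `σ`. -/
structure ExtS (r : ι → Row) {n : ℕ} (q : ZMod n → ℤ × ℤ) (D : Finset (ℤ × ℤ)) (u : ℕ → ℤ)
    (c N : ℕ) (s e : ℕ → ℕ) (ω : Cfg) (x : Ed) (i j : ℕ) (σ : ℤ) (φ : ℤ × ℤ → ℤ) : Prop where
  hi : i < n
  hj : j < n
  ne : i ≠ j
  ri : InK n c N s e i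
  rj : InK n c N s e j
  tl : tlv x = sqL (q (i : ZMod n)) (u i - 1)
  P4i : P4 x = M4 (q (i : ZMod n) + vec (u i - 1)) (u i)
  hd : hdv ((nx ω)^[ret (nx ω) (bS (uI r)) x] x) = sqL (q (j : ZMod n)) (u j - 1)
  P4j : P4 ((nx ω)^[ret (nx ω) (bS (uI r)) x] x) = M4 (q (j : ZMod n) + vec (u j - 1)) (u j)
  pot : ExtPot (D ∪ uI r) (exc (uI r) ω x) σ φ
  turn : ∑ k ∈ range (ret (nx ω) (bS (uI r)) x), trn ω ((nx ω)^[k] x) = u j - u i +
        (if i < j then (if σ = 1 then 2 else -6) else (if σ = 1 then 6 else -2))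
  far : ∀ z < n, InK n c N s e z → φ (q (z : ZMod n) + vec (u z - 1)) = vE i j z σ
  off : ∀ z < n, ¬ InK n c N s e z → φ (q (z : ZMod n)) = vE i j z σ

/-- The cosine of the angle of an exterior strand. -/
noncomputable def wE (θ β : ℝ) (ka i j : ℕ) (σ : ℤ) : ℝ :=
  if i < ka ∧ j < ka then
    (if i < j then (if σ = 1 then Real.sin (2 * θ) else 0) else
      (if σ = 1 then Real.sin (3 * θ) else Real.sin θ))
  else if ka ≤ i ∧ ka ≤ j then
    (if i < j then (if σ = 1 then Real.sin θ else Real.sin (3 * θ)) else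
      (if σ = 1 then 0 else Real.sin (2 * θ)))
  else if (i < j ↔ σ = 1) then Real.cos (θ / 2 - β) else Real.cos (3 * θ / 2 + β)

variable {n : ℕ} {q : ZMod n → ℤ × ℤ} {D : Finset (ℤ × ℤ)} {u : ℕ → ℤ} {ka c N : ℕ} {s e : ℕ → ℕ}

/-- The mixed weights. -/
theorem mixed_one (h : β = (θ - Real.pi) / 2) :
    Real.cos (θ / 2 - β) = 0 ∧ Real.cos (3 * θ / 2 + β) = Real.sin (2 * θ) := by
  constructor
  · rw [h, show θ / 2 - (θ - Real.pi) / 2 = Real.pi / 2 by ring, Real.cos_pi_div_two]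
  · rw [h, show 3 * θ / 2 + (θ - Real.pi) / 2 = 2 * θ - Real.pi / 2 by ring, Real.cos_sub_pi_div_two]

theorem mixed_two (h : β = (Real.pi - 3 * θ) / 2) :
    Real.cos (θ / 2 - β) = Real.sin (2 * θ) ∧ Real.cos (3 * θ / 2 + β) = 0 := by
  constructor
  · rw [h, show θ / 2 - (Real.pi - 3 * θ) / 2 = 2 * θ - Real.pi / 2 by ring,
      Real.cos_sub_pi_div_two]
  · rw [h, show 3 * θ / 2 + (Real.pi - 3 * θ) / 2 = Real.pi / 2 by ring, Real.cos_pi_div_two]

namespace Fam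

variable (F : Fam θ β r q D u ka c N s e)

include F

/-- **The exterior strands.** -/
theorem exists_ext (hx1 : tlv x ∈ uI r) (hx2 : hdv x ∉ uI r) (hx3 : hdv x ∉ endK q u c N s e)
    (hr : Returns (nx ω) (bS (uI r)) x)
    (hs : ∀ k < ret (nx ω) (bS (uI r)) x, hdv ((nx ω)^[k] x) ∉ D)
    (hx4 : tlv ((nx ω)^[ret (nx ω) (bS (uI r)) x] x) ∉ endK q u c N s e) :
    ∃ i j σ φ, ExtS r q D u c N s e ω x i j σ φ := by
  obtain ⟨i, j, φ, σ, h1, h2, h3, h4, h5, h6, h7, h8, h9, h10, h11, h12⟩ :=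
    far_turn' F.hq F.hu F.hc F.hR F.hK hx1 hx2 hx3 hr hs hx4
  exact ⟨i, j, σ, φ, h1, h2, h3, h4, h5, h6, h7, h8, h9, h10, h11, fun z hz => (h12 z hz).1,
    fun z hz => (h12 z hz).2⟩

/-- **The angle of an exterior strand.** -/
theorem cang_far {i j : ℕ} {σ : ℤ} {φ : ℤ × ℤ → ℤ} (E : ExtS r q D u c N s e ω x i j σ φ)
    (hx2 : hdv x ∉ uI r) (hr : Returns (nx ω) (bS (uI r)) x) :
    cang plane θ (rowC θ r 0).ph ω (strand (nx ω) (bS (uI r)) x) =
      θ / 4 * (if i < j then (if σ = 1 then 2 else -6) else (if σ = 1 then 6 else -2)) +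
        (bt β ka i - bt β ka j) + (stτ ka i + stτ ka j) * ((3 * θ - Real.pi) / 4) := by
  obtain ⟨y, y1, y2, y3⟩ := F.ph i E.hi E.ri
  obtain ⟨z, z1, z2, z3⟩ := F.ph j E.hj E.rj
  rw [← E.tl] at y1 y2 y3
  rw [← E.hd] at z1 z2 z3
  rw [cang_rows F.disj hx2 y1 hr z1, E.turn, y2, y3, z2, z3]
  unfold stΦ bt
  push_cast
  ring

/-- **The exterior weight table.** -/
theorem cos_far {i j : ℕ} {σ : ℤ} {φ : ℤ × ℤ → ℤ} (E : ExtS r q D u c N s e ω x i j σ φ)
    (hx2 : hdv x ∉ uI r) (hr : Returns (nx ω) (bS (uI r)) x) :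
    Real.cos (cang plane θ (rowC θ r 0).ph ω (strand (nx ω) (bS (uI r)) x)) = wE θ β ka i j σ := by
  rw [F.cang_far E hx2 hr]
  have hne := E.ne
  have hσ := E.pot.sgn
  have h0 : ∀ t : ℝ, t = -(Real.pi / 2) → Real.cos t = 0 := fun t ht => by
    rw [ht, Real.cos_neg, Real.cos_pi_div_two]
  have h0' : ∀ t : ℝ, t = Real.pi / 2 → Real.cos t = 0 := fun t ht => by
    rw [ht, Real.cos_pi_div_two]
  have h1 : ∀ t a : ℝ, t = a - Real.pi / 2 → Real.cos t = Real.sin a := fun t a ht => by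
    rw [ht, Real.cos_sub_pi_div_two]
  have h2 : ∀ t a : ℝ, t = Real.pi / 2 - a → Real.cos t = Real.sin a := fun t a ht => by
    rw [ht, Real.cos_pi_div_two_sub]
  have h3 : ∀ t a : ℝ, t = -a → Real.cos t = Real.cos a := fun t a ht => by
    rw [ht, Real.cos_neg]
  unfold wE bt stτ
  by_cases hi : i < ka <;> by_cases hj : j < ka
  · rw [if_pos (show i < ka ∧ j < ka from ⟨hi, hj⟩), if_pos hi, if_pos hj, if_pos hi, if_pos hj]
    split_ifs
    · exact h1 _ _ (by ring)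
    · exact h0 _ (by ring)
    · exact h1 _ _ (by ring)
    · exact h1 _ _ (by ring)
  · rw [if_neg (show ¬ (i < ka ∧ j < ka) by tauto), if_neg (show ¬ (ka ≤ i ∧ ka ≤ j) by omega),
      if_pos hi, if_neg hj, if_pos hi, if_neg hj, if_pos (show i < j by omega)]
    by_cases h : σ = 1
    · rw [if_pos h, if_pos (show (i < j ↔ σ = 1) from ⟨fun _ => h, fun _ => by omega⟩)]
      congr 1; ring
    · rw [if_neg h, if_neg (show ¬ (i < j ↔ σ = 1) from fun h' => h (h'.1 (by omega)))]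
      exact h3 _ _ (by ring)
  · rw [if_neg (show ¬ (i < ka ∧ j < ka) by tauto), if_neg (show ¬ (ka ≤ i ∧ ka ≤ j) by omega),
      if_neg hi, if_pos hj, if_neg hi, if_pos hj, if_neg (show ¬ i < j by omega)]
    by_cases h : σ = 1
    · rw [if_pos h, if_neg (show ¬ (i < j ↔ σ = 1) from fun h' => absurd (h'.2 h) (by omega))]
      congr 1; ring
    · rw [if_neg h, if_pos (show (i < j ↔ σ = 1) from ⟨fun h' => absurd h' (by omega),
        fun h' => absurd h' h⟩)]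
      exact h3 _ _ (by ring)
  · rw [if_neg (show ¬ (i < ka ∧ j < ka) by tauto), if_pos (show ka ≤ i ∧ ka ≤ j by omega),
      if_neg hi, if_neg hj, if_neg hi, if_neg hj]
    split_ifs
    · exact h2 _ _ (by ring)
    · exact h2 _ _ (by ring)
    · exact h0' _ (by ring)
    · exact h2 _ _ (by ring)

end Fam

end Vale.Agent.P167.H871.Q
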