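import Vale.Agent.P167.H871.Q.BumpN
import Vale.Agent.P167.H871.Q.AltA

/-!
# P167, general `q`: the exterior strands of a frame of rows

`D`: polygon; `K`: rows outside of straight pieces of its sides. A strand of `K` outside of `D` which
does not end at the ends of the rows: turning and exterior potential of `D ∪ K`.
-/

namespace Vale.Agent.P167.H871.Q

open Finset
open Vale.Agent.P167.Top
open Vale.Agent.P167.E6 (IsPolygon Encloses dir)
open Vale.Agent.P167.H199 (strand ret Returns ret_le)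
open Vale.Agent.P167.BR (be)
open Vale.Agent.P167.XDL (bS mem_bS exists_idx P4_be)
open Vale.Agent.P167.QX (out_stays exc_last ExtPot exc)

variable {ω : Cfg} {x : Ed}

/-- The strand of a smaller set. -/
theorem ret_ext {J I : Finset (ℤ × ℤ)} (hJ : J ⊆ I) (h1 : hdv x ∉ J)
    (hr : Returns (nx ω) (bS J) x) (hs : ∀ k < ret (nx ω) (bS J) x, hdv ((nx ω)^[k] x) ∉ I) :
    Returns (nx ω) (bS I) x ∧ ret (nx ω) (bS I) x = ret (nx ω) (bS J) x := by
  obtain ⟨h3, h4⟩ := hr.spec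
  have h5 := exc_last h1 hr
  obtain ⟨m, hm⟩ : ∃ m, ret (nx ω) (bS J) x = m + 1 := ⟨ret (nx ω) (bS J) x - 1, by omega⟩
  have h6 : (nx ω)^[ret (nx ω) (bS J) x] x ∈ bS I := by
    rw [mem_bS]
    left
    refine ⟨hJ h5.1, ?_⟩
    rw [hm, Function.iterate_succ_apply', tlv_nx]
    exact hs m (by omega)
  have hr' : Returns (nx ω) (bS I) x := ⟨_, h3, h6⟩
  refine ⟨hr', le_antisymm (ret_le h3 h6) ?_⟩
  by_contra hlt
  push Not at hlt
  obtain ⟨h7, h8⟩ := hr'.spec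
  obtain ⟨l, hl⟩ : ∃ l, ret (nx ω) (bS I) x = l + 1 := ⟨ret (nx ω) (bS I) x - 1, by omega⟩
  rw [mem_bS] at h8
  rcases h8 with h8 | h8
  · exact hs _ hlt h8.1
  · refine hs l (by omega) ?_
    have h9 := h8.2
    rw [hl, Function.iterate_succ_apply', tlv_nx] at h9
    exact h9

theorem exc_ext {J I : Finset (ℤ × ℤ)} (hJ : J ⊆ I) (h1 : hdv x ∉ J)
    (hr : Returns (nx ω) (bS J) x) (hs : ∀ k < ret (nx ω) (bS J) x, hdv ((nx ω)^[k] x) ∉ I) :
    exc I ω x = exc J ω x := by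
  obtain ⟨-, h2⟩ := ret_ext hJ h1 hr hs
  ext y
  rw [QX.mem_exc, QX.mem_exc, h2]

/-- The head and the tail of a medial edge. -/
theorem hdv_tlv (x : Ed) : hdv x = tlv x + vec (hd4 x) := by
  have h1 := P4_hdv x
  have h2 := P4_tlv x
  rw [h1] at h2
  simp only [Prod.mk.injEq] at h2
  unfold vec
  ext
  · simp only [Prod.fst_add]; omega
  · simp only [Prod.snd_add]; omega

/-- The midpoint of the far side. -/
theorem far_mid (a : ℤ × ℤ) (w : ℤ) :
    M4 (a + vec (w - 1)) w = (4 * (sqL a (w - 1)).1 + 2 * dx (w - 1),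
      4 * (sqL a (w - 1)).2 + 2 * dy (w - 1)) := by
  rw [M4_eq]
  unfold sqL vec
  rcases head_cases w with ⟨a1, b, c⟩ | ⟨a1, b, c⟩ | ⟨a1, b, c⟩ | ⟨a1, b, c⟩ <;>
    rcases head_cases (w - 1) with ⟨a', b', c'⟩ | ⟨a', b', c'⟩ | ⟨a', b', c'⟩ | ⟨a', b', c'⟩ <;>
    first
    | (exfalso; omega)
    | (rw [b, c, b', c']; simp only [Prod.fst_add, Prod.snd_add, Prod.mk.injEq]; split_ifs <;> omega)

/-- The squares before and after the rows. -/
def ends (P : ℕ → ℤ × ℤ) (u : ℕ → ℤ) (N : ℕ) (s e : ℕ → ℕ) : Set (ℤ × ℤ) :=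
  {v | ∃ a < N, v = sqL (P (s a - 1)) (u (s a - 1) - 1) ∨ v = sqL (P (e a)) (u (e a) - 1)}

section rows

variable {D : Set (ℤ × ℤ)} {n N : ℕ} {P : ℕ → ℤ × ℤ} {u : ℕ → ℤ} {s e : ℕ → ℕ}

/-- The far side of a square of a row. -/
theorem far_side (hR : Rws D n P u N s e) {v : ℤ × ℤ} {t : ℤ} (hv : v ∈ rws P u N s e)
    (h1 : v + vec t ∉ D) (h2 : v + vec t ∉ rws P u N s e) (h3 : v + vec t ∉ ends P u N s e) :
    ∃ k < n, InR N s e k ∧ v = sqL (P k) (u k - 1) ∧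
      (4 * v.1 + 2 * dx t, 4 * v.2 + 2 * dy t) = M4 (P k + vec (u k - 1)) (u k) := by
  obtain ⟨a, ha, k, hk1, hk2, hvk⟩ := hv
  have a1 := hR.h1 a ha
  have a3 := hR.h3 a ha
  refine ⟨k, by omega, ⟨a, ha, hk1, hk2⟩, hvk, ?_⟩
  have hstr := hR.str a ha
  set w := u (s a) with hw
  have huk : u k = w := hstr k (by omega) (by omega)
  rw [huk] at hvk ⊢
  rcases (by omega : t % 4 = (w - 1) % 4 ∨ t % 4 = w % 4 ∨ t % 4 = (w + 1) % 4 ∨
    t % 4 = (w - 2) % 4) with g | g | g | g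
  · rw [far_mid, ← hvk, dx_congr g, dy_congr g]
  · exfalso
    have e1 : v + vec t = sqL (P (k + 1)) (w - 1) := by
      rw [hR.bd.step, huk, sqL_vec, ← hvk, vec_congr g]
    rcases (by omega : k + 1 < e a ∨ k + 1 = e a) with g' | g'
    · refine h2 ⟨a, ha, k + 1, by omega, g', ?_⟩
      rw [e1, hstr (k + 1) (by omega) (by omega)]
    · refine h3 ⟨a, ha, Or.inr ?_⟩
      rw [e1, g', hstr (e a) (by omega) le_rfl]
  · exfalso
    apply h1
    have e1 := sqL_next' (P k) (w - 1)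
    have e2 : v + vec t = sqL (P k) w := by
      have h4 : vec (w + 1) + vec (w - 1) = 0 := by
        have := vec_back (w - 1)
        rw [show w - 1 + 2 = w + 1 by ring] at this
        rw [this]; simp
      rw [sub_add_cancel] at e1
      rw [hvk, ← e1, vec_congr g, sqL_vec, add_assoc, add_comm (vec (w - 1)), h4, add_zero]
    rw [e2, ← huk]
    exact hR.bd.left k
  · exfalso
    have e1 : v + vec t = sqL (P (k - 1)) (w - 1) := by
      have h4 := hR.bd.step (k - 1)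
      rw [show k - 1 + 1 = k by omega, hstr (k - 1) (by omega) (by omega)] at h4
      have h5 : vec w + vec (w - 2) = 0 := by
        have := vec_back (w - 2)
        rw [sub_add_cancel] at this
        rw [this]; simp
      rw [hvk, h4, sqL_vec, vec_congr g, add_assoc, h5, add_zero]
    rcases (by omega : s a ≤ k - 1 ∨ k = s a) with g' | g'
    · refine h2 ⟨a, ha, k - 1, g', by omega, ?_⟩
      rw [e1, hstr (k - 1) (by omega) (by omega)]
    · refine h3 ⟨a, ha, Or.inl ?_⟩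
      rw [e1, g', hstr (s a - 1) (by omega) (by omega)]

end rows

variable {n : ℕ} {q : ZMod n → ℤ × ℤ} {D K : Finset (ℤ × ℤ)} {u : ℕ → ℤ}

/-- Every side of an enclosed domain is a side of the polygon. -/
theorem cov_of (hq : IsPolygon q) (hD : Encloses q D)
    (hu : Bd (D : Set (ℤ × ℤ)) n (fun k => q (k : ZMod n)) u 1) :
    Cov (D : Set (ℤ × ℤ)) (fun k => q (k : ZMod n)) u := by
  have hn : NeZero n := ⟨by have := hq.1; omega⟩
  intro v t h1 h2
  obtain ⟨r, hr⟩ := exists_fin t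
  have h3 := (hD v r).2 ⟨by rw [face_eq, sqL_congr hr]; exact h1, by
    rw [face_pred, sqL_congr (show (((r.val : ℕ) : ℤ) - 1) % 4 = (t - 1) % 4 by omega)]
    exact h2⟩
  obtain ⟨i, h4, h5⟩ := h3
  refine ⟨i.val, ?_, ?_⟩
  · show q ((i.val : ℕ) : ZMod n) = v
    rw [ZMod.natCast_zmod_val, h4]
  · have h6 := hu.step i.val
    try simp only at h6
    rw [Nat.cast_succ, ZMod.natCast_zmod_val, h4, h5, ← vec_fin] at h6
    have h7 := add_left_cancel h6
    unfold vec at h7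
    simp only [Prod.mk.injEq] at h7
    rcases head_cases (u i.val) with ⟨a, b, c⟩ | ⟨a, b, c⟩ | ⟨a, b, c⟩ | ⟨a, b, c⟩ <;>
      rcases head_cases ((r.val : ℕ) : ℤ) with ⟨a', b', c'⟩ | ⟨a', b', c'⟩ | ⟨a', b', c'⟩ |
        ⟨a', b', c'⟩ <;> rw [b, c, b', c'] at h7 <;> omega

/-- Two steps with the same midpoint. -/
theorem idx_eq {E : Set (ℤ × ℤ)} {P : ℕ → ℤ × ℤ} (h : Bd E n P u 1) {k l : ℕ} (hk : k < n)
    (hl : l < n) (h1 : M4 (P k) (u k) = M4 (P l) (u l)) : k = l := by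
  rcases lt_trichotomy k l with h2 | h2 | h2
  · exact absurd h1 (M4_ne h h2 (by omega))
  · exact h2
  · exact absurd h1.symm (M4_ne h h2 (by omega))

/-- The values of the potential along the polygon, any base point. -/
theorem pot_all {I : Finset (ℤ × ℤ)} {q : ZMod n → ℤ × ℤ} {y : Ed} {i j : ℕ} {φ : ℤ × ℤ → ℤ}
    {σ : ℤ} (hq : IsPolygon q) (hI : Encloses q I) (F : Foot q I ω y i j)
    (hφ : ExtPot I (exc I ω y) σ φ) : ∀ k ≤ n, φ (q (k : ZMod n)) =
      (if i < j then (σ - 1) / 2 else (σ + 1) / 2) + (if i < k then 1 else 0) -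
        (if j < k then 1 else 0) := by
  have key : ∀ k ≤ n, φ (q (k : ZMod n)) = φ (q 0) + (if i < k then 1 else 0) -
      (if j < k then 1 else 0) := by
    intro k
    induction k with
    | zero => intro _; simp
    | succ k ih =>
      intro hk
      have hk' := ih (by omega)
      have hb := be_bS hq hI k
      have hm := F.mem_iff hq (show k < n by omega) hb
      rw [Nat.cast_succ]
      by_cases hp : Even ((q (k : ZMod n)).1 + (q (k : ZMod n)).2)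
      · obtain ⟨g1, g2, g3, g4⟩ := BR.be_even hq hI hp
        have h1 := hφ.jump (be q (k : ZMod n)) (Or.inr g4)
        have hki : k ≠ i := fun h => F.odd hq hI (by rw [← h]; exact hp)
        rw [g1, g2, hk'] at h1
        by_cases hkj : k = j
        · rw [if_pos (hm.2 (Or.inr hkj))] at h1
          split_ifs at h1 ⊢ <;> omega
        · rw [if_neg (fun h => (hm.1 h).elim hki hkj)] at h1
          split_ifs at h1 ⊢ <;> omega
      · obtain ⟨g1, g2, g3, g4⟩ := BR.be_odd hq hI hp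
        have h1 := hφ.jump (be q (k : ZMod n)) (Or.inl g4)
        have hkj : k ≠ j := fun h => hp (by rw [h]; exact F.even hq hI)
        rw [g1, g2, hk'] at h1
        by_cases hki : k = i
        · rw [if_pos (hm.2 (Or.inl hki))] at h1
          split_ifs at h1 ⊢ <;> omega
        · rw [if_neg (fun h => (hm.1 h).elim hki hkj)] at h1
          split_ifs at h1 ⊢ <;> omega
  intro k hk
  have h1 := hφ.right y F.mem
  obtain ⟨g1, -⟩ := BR.be_odd hq hI (F.odd hq hI)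
  rw [← F.e1] at g1
  rw [g1, key i F.hi.le, if_neg (lt_irrefl i)] at h1
  have h2 := F.ne hq hI
  rw [key k hk]
  have h3 : φ (q 0) = if i < j then (σ - 1) / 2 else (σ + 1) / 2 := by
    rcases hφ.sgn with rfl | rfl <;> split_ifs at h1 ⊢ <;> omega
  rw [h3]

/-- **Exterior strands of rows**, window numbering, with the values of the potential at the sites on
the far side of the rows. -/
theorem far_win' {P : ℕ → ℤ × ℤ} {N : ℕ} {s e : ℕ → ℕ} (hn : 2 < n)
    (hR : Rws (D : Set (ℤ × ℤ)) n P u N s e) (hK : (K : Set (ℤ × ℤ)) = rws P u N s e)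
    (hx1 : tlv x ∈ K) (hx2 : hdv x ∉ K) (hx3 : hdv x ∉ ends P u N s e)
    (hr : Returns (nx ω) (bS K) x) (hs : ∀ k < ret (nx ω) (bS K) x, hdv ((nx ω)^[k] x) ∉ D)
    (hx4 : tlv ((nx ω)^[ret (nx ω) (bS K) x] x) ∉ ends P u N s e) :
    ∃ k l φ, ∃ σ : ℤ, k < n ∧ l < n ∧ k ≠ l ∧ InR N s e k ∧ InR N s e l ∧
      tlv x = sqL (P k) (u k - 1) ∧ P4 x = M4 (P k + vec (u k - 1)) (u k) ∧
      hdv ((nx ω)^[ret (nx ω) (bS K) x] x) = sqL (P l) (u l - 1) ∧
      P4 ((nx ω)^[ret (nx ω) (bS K) x] x) = M4 (P l + vec (u l - 1)) (u l) ∧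
      ExtPot (D ∪ K) (exc K ω x) σ φ ∧
      ∑ i ∈ range (ret (nx ω) (bS K) x), trn ω ((nx ω)^[i] x) = u l - u k +
        (if k < l then (if σ = 1 then 2 else -6) else (if σ = 1 then 6 else -2)) ∧
      ∀ z < n, (InR N s e z → φ (P z + vec (u z - 1)) =
        (if k < l then (σ - 1) / 2 else (σ + 1) / 2) + (if k < z then 1 else 0) -
          (if l < z then 1 else 0)) ∧ (¬ InR N s e z → φ (P z) =
        (if k < l then (σ - 1) / 2 else (σ + 1) / 2) + (if k < z then 1 else 0) -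
          (if l < z then 1 else 0)) := by
  obtain ⟨n', P', u', ι, g1, g2, g3, g4, g5, g6, g7, g8⟩ := exists_bumps hR
  have hout : ∀ k < ret (nx ω) (bS K) x, hdv ((nx ω)^[k] x) ∉ D ∪ K := fun k hk h => by
    rcases mem_union.1 h with h | h
    · exact hs k hk h
    · exact out_stays hx2 hk h
  obtain ⟨hr', hret⟩ := ret_ext (I := D ∪ K) subset_union_right hx2 hr hout
  have hexc := exc_ext (I := D ∪ K) subset_union_right hx2 hr hout
  have hb : Bd ((D ∪ K : Finset (ℤ × ℤ)) : Set (ℤ × ℤ)) n' P' u' 1 := by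
    rw [coe_union, hK]; exact g1
  have hcov : Cov ((D ∪ K : Finset (ℤ × ℤ)) : Set (ℤ × ℤ)) P' u' := by
    rw [coe_union, hK]; exact g2
  have hm := hr.spec.1
  have hq' := qp_polygon (by omega) hb
  have hD' := qp_encloses (by omega) hb fun v t h1 h2 => hcov.lt hb (by omega) h1 h2
  have hu' := qp_bd (by omega) hb
  have h00 : hdv x ∉ D ∪ K := hout 0 (by omega)
  obtain ⟨i, j, φ, σ, c1, c2, c3, c4, c5, c6, c7⟩ := exists_ext hq' hD' hu'
    h00 (mem_union_right _ hx1) hr'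
  have hF : Foot (qp n' P') (D ∪ K) ω x i j := ⟨c1, c2, h00, mem_union_right _ hx1, hr', c4, c5⟩
  have hval := pot_all hq' hD' hF c6
  rw [hret] at c5 c7
  rw [hexc] at c6
  have p1 : P4 x = M4 (P' i) (u' i) := by
    rw [c4, P4_be hq' hu', qp_nat (by omega) hb]
  have p2 : P4 ((nx ω)^[ret (nx ω) (bS K) x] x) = M4 (P' j) (u' j) := by
    rw [c5, P4_be hq' hu', qp_nat (by omega) hb]
  have hlast := exc_last hx2 hr
  have hK' : ∀ v, v ∈ rws P u N s e ↔ v ∈ K := fun v => by rw [← hK, mem_coe]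
  obtain ⟨k, k1, k2, k3, k4⟩ := far_side hR (v := tlv x) (t := hd4 x) ((hK' _).2 hx1)
    (by rw [← hdv_tlv]; exact hs 0 (by omega))
    (by rw [← hdv_tlv, hK']; exact hx2) (by rw [← hdv_tlv]; exact hx3)
  rw [← P4_tlv] at k4
  set f := (nx ω)^[ret (nx ω) (bS K) x] x with hf
  have hft : tlv f = hdv f + vec (hd4 f + 2) := by
    rw [hdv_tlv f, vec_back, add_assoc, add_neg_cancel, add_zero]
  have htl : tlv f ∉ D := by
    obtain ⟨m, hm'⟩ : ∃ m, ret (nx ω) (bS K) x = m + 1 := ⟨ret (nx ω) (bS K) x - 1, by omega⟩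
    rw [hf, hm', Function.iterate_succ_apply', tlv_nx]
    exact hs m (by omega)
  obtain ⟨l, l1, l2, l3, l4⟩ := far_side hR (v := hdv f) (t := hd4 f + 2) ((hK' _).2 hlast.1)
    (by rw [← hft]; exact htl) (by rw [← hft, hK']; exact hlast.2) (by rw [← hft]; exact hx4)
  have hl4 : P4 f = M4 (P l + vec (u l - 1)) (u l) := by
    rw [← l4, P4_hdv]
    have h1 := vec_back (hd4 f)
    unfold vec at h1
    simp only [Prod.neg_mk, Prod.mk.injEq] at h1
    rw [h1.1, h1.2]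
    ext
    · show _ - _ = _ + 2 * -_; ring
    · show _ - _ = _ + 2 * -_; ring
  have q1 : M4 (P k + vec (u k - 1)) (u k) = M4 (P' (ι k)) (u' (ι k)) := by
    rw [g6 k k1 k2, g8 k k1]
  have q2 : M4 (P l + vec (u l - 1)) (u l) = M4 (P' (ι l)) (u' (ι l)) := by
    rw [g6 l l1 l2, g8 l l1]
  have hi : i = ι k := idx_eq hb c1 (g5 k k1) (by rw [← p1, k4, q1])
  have hj : j = ι l := idx_eq hb c2 (g5 l l1) (by rw [← p2, hl4, q2])
  have hkl : k ≠ l := fun h => c3 (by rw [hi, hj, h])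
  have hlt : ∀ a < n, ∀ b < n, (ι a < ι b ↔ a < b) := by
    intro a ha b hb
    constructor
    · intro h
      by_contra h'
      rcases (by omega : a = b ∨ b < a) with h'' | h''
      · rw [h''] at h; omega
      · have := g4 b a h'' ha
        omega
    · exact fun h => g4 a b h hb
  refine ⟨k, l, φ, σ, k1, l1, hkl, k2, l2, k3, k4, l3, hl4, c6, ?_,
    fun z hz => ⟨fun hz' => ?_, fun hz' => ?_⟩⟩
  · rw [c7, hi, hj, g8 k k1, g8 l l1]
    simp only [hlt k k1 l l1]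
  · have h1 := hval (ι z) (g5 z hz).le
    rw [qp_nat (by omega) hb, g6 z hz hz', hi, hj] at h1
    rw [h1]
    simp only [hlt k k1 l l1, hlt k k1 z hz, hlt l l1 z hz]
  · have h1 := hval (ι z) (g5 z hz).le
    rw [qp_nat (by omega) hb, g7 z hz hz', hi, hj] at h1
    rw [h1]
    simp only [hlt k k1 l l1, hlt k k1 z hz, hlt l l1 z hz]

/-- **Exterior strands of rows**, window numbering. -/
theorem far_win {P : ℕ → ℤ × ℤ} {N : ℕ} {s e : ℕ → ℕ} (hn : 2 < n)
    (hR : Rws (D : Set (ℤ × ℤ)) n P u N s e) (hK : (K : Set (ℤ × ℤ)) = rws P u N s e)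
    (hx1 : tlv x ∈ K) (hx2 : hdv x ∉ K) (hx3 : hdv x ∉ ends P u N s e)
    (hr : Returns (nx ω) (bS K) x) (hs : ∀ k < ret (nx ω) (bS K) x, hdv ((nx ω)^[k] x) ∉ D)
    (hx4 : tlv ((nx ω)^[ret (nx ω) (bS K) x] x) ∉ ends P u N s e) :
    ∃ k l φ, ∃ σ : ℤ, k < n ∧ l < n ∧ k ≠ l ∧ InR N s e k ∧ InR N s e l ∧
      tlv x = sqL (P k) (u k - 1) ∧ P4 x = M4 (P k + vec (u k - 1)) (u k) ∧
      hdv ((nx ω)^[ret (nx ω) (bS K) x] x) = sqL (P l) (u l - 1) ∧
      P4 ((nx ω)^[ret (nx ω) (bS K) x] x) = M4 (P l + vec (u l - 1)) (u l) ∧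
      ExtPot (D ∪ K) (exc K ω x) σ φ ∧
      ∑ i ∈ range (ret (nx ω) (bS K) x), trn ω ((nx ω)^[i] x) = u l - u k +
        (if k < l then (if σ = 1 then 2 else -6) else (if σ = 1 then 6 else -2)) := by
  obtain ⟨k, l, φ, σ, h1, h2, h3, h4, h5, h6, h7, h8, h9, h10, h11, -⟩ :=
    far_win' hn hR hK hx1 hx2 hx3 hr hs hx4
  exact ⟨k, l, φ, σ, h1, h2, h3, h4, h5, h6, h7, h8, h9, h10, h11⟩

/-- The step `i` of the polygon is in a row (window from `c`). -/
def InK (n c N : ℕ) (s e : ℕ → ℕ) (i : ℕ) : Prop := ∃ k, InR N s e k ∧ (k + c) % n = i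

theorem cyc {n c k l w k' l' w' : ℕ} (hk : k < n) (hl : l < n) (hw : w < n) (hkl : k ≠ l)
    (h1 : (k + c < n ∧ k' = k + c) ∨ (n ≤ k + c ∧ k' + n = k + c))
    (h2 : (l + c < n ∧ l' = l + c) ∨ (n ≤ l + c ∧ l' + n = l + c))
    (h3 : (w + c < n ∧ w' = w + c) ∨ (n ≤ w + c ∧ w' + n = w + c)) :
    ((if k < l then (0 : ℤ) else 1) + (if k < w then 1 else 0) - (if l < w then 1 else 0)) =
      ((if k' < l' then 0 else 1) + (if k' < w' then 1 else 0) - (if l' < w' then 1 else 0)) := by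
  have hh : ∀ (p : Prop) [Decidable p] (a b : ℤ), (p ∧ (if p then a else b) = a) ∨
      (¬ p ∧ (if p then a else b) = b) := by
    intro p _ a b
    by_cases h : p
    · exact Or.inl ⟨h, if_pos h⟩
    · exact Or.inr ⟨h, if_neg h⟩
  rcases hh (k < l) 0 1 with ⟨p1, a1⟩ | ⟨p1, a1⟩ <;>
    rcases hh (k < w) 1 0 with ⟨p2, a2⟩ | ⟨p2, a2⟩ <;>
    rcases hh (l < w) 1 0 with ⟨p3, a3⟩ | ⟨p3, a3⟩ <;> rw [a1, a2, a3] <;>
    rcases hh (k' < l') 0 1 with ⟨q1, b1⟩ | ⟨q1, b1⟩ <;>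
    rcases hh (k' < w') 1 0 with ⟨q2, b2⟩ | ⟨q2, b2⟩ <;>
    rcases hh (l' < w') 1 0 with ⟨q3, b3⟩ | ⟨q3, b3⟩ <;> rw [b1, b2, b3] <;> omega

/-- **Exterior strands of rows**, with the values of the potential at the sites on the far side of
the rows. -/
theorem far_turn' (hq : IsPolygon q) (hu : Bd (D : Set (ℤ × ℤ)) n (fun k => q (k : ZMod n)) u 1)
    {c N : ℕ} {s e : ℕ → ℕ} (hc : c ≤ n)
    (hR : Rws (D : Set (ℤ × ℤ)) n (fun k => q ((k + c : ℕ) : ZMod n)) (fun k => u (k + c)) N s e)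
    (hK : (K : Set (ℤ × ℤ)) = rws (fun k => q ((k + c : ℕ) : ZMod n)) (fun k => u (k + c)) N s e)
    (hx1 : tlv x ∈ K) (hx2 : hdv x ∉ K)
    (hx3 : hdv x ∉ ends (fun k => q ((k + c : ℕ) : ZMod n)) (fun k => u (k + c)) N s e)
    (hr : Returns (nx ω) (bS K) x) (hs : ∀ k < ret (nx ω) (bS K) x, hdv ((nx ω)^[k] x) ∉ D)
    (hx4 : tlv ((nx ω)^[ret (nx ω) (bS K) x] x) ∉
      ends (fun k => q ((k + c : ℕ) : ZMod n)) (fun k => u (k + c)) N s e) :
    ∃ i j φ, ∃ σ : ℤ, i < n ∧ j < n ∧ i ≠ j ∧ InK n c N s e i ∧ InK n c N s e j ∧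
      tlv x = sqL (q (i : ZMod n)) (u i - 1) ∧
      P4 x = M4 (q (i : ZMod n) + vec (u i - 1)) (u i) ∧
      hdv ((nx ω)^[ret (nx ω) (bS K) x] x) = sqL (q (j : ZMod n)) (u j - 1) ∧
      P4 ((nx ω)^[ret (nx ω) (bS K) x] x) = M4 (q (j : ZMod n) + vec (u j - 1)) (u j) ∧
      ExtPot (D ∪ K) (exc K ω x) σ φ ∧
      ∑ k ∈ range (ret (nx ω) (bS K) x), trn ω ((nx ω)^[k] x) = u j - u i +
        (if i < j then (if σ = 1 then 2 else -6) else (if σ = 1 then 6 else -2)) ∧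
      ∀ z < n, (InK n c N s e z → φ (q (z : ZMod n) + vec (u z - 1)) =
        (if i < j then (σ - 1) / 2 else (σ + 1) / 2) + (if i < z then 1 else 0) -
          (if j < z then 1 else 0)) ∧ (¬ InK n c N s e z → φ (q (z : ZMod n)) =
        (if i < j then (σ - 1) / 2 else (σ + 1) / 2) + (if i < z then 1 else 0) -
          (if j < z then 1 else 0)) := by
  have hn : 2 < n := hq.1
  obtain ⟨k, l, φ, σ, c1, c2, c3, c4, c5, c6, c7, c8, c9, c10, c11, c12⟩ := far_win' hn hR hK hx1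
    hx2 hx3 hr hs hx4
  have hred : ∀ k < n, (k + c < n ∧ (k + c) % n = k + c ∧ u ((k + c) % n) = u (k + c)) ∨
      (n ≤ k + c ∧ (k + c) % n = k + c - n ∧ u ((k + c) % n) = u (k + c) - 4) := by
    intro k hk
    rcases Nat.lt_or_ge (k + c) n with h | h
    · exact Or.inl ⟨h, Nat.mod_eq_of_lt h, by rw [Nat.mod_eq_of_lt h]⟩
    · right
      have h1 : (k + c) % n = k + c - n := by
        rw [Nat.mod_eq_sub_mod h, Nat.mod_eq_of_lt (by omega)]
      refine ⟨h, h1, ?_⟩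
      have h2 := hu.per (k + c - n)
      rw [show k + c - n + n = k + c by omega] at h2
      rw [h1, h2]; ring
  have hqc : ∀ k : ℕ, q (((k + c) % n : ℕ) : ZMod n) = q ((k + c : ℕ) : ZMod n) := fun k => by
    rw [ZMod.natCast_mod]
  have hn0 : 0 < n := by omega
  have hw : ∀ k < n, vec (u (k + c) - 1) = vec (u ((k + c) % n) - 1) ∧
      ∀ a, sqL a (u (k + c) - 1) = sqL a (u ((k + c) % n) - 1) ∧
        M4 a (u (k + c)) = M4 a (u ((k + c) % n)) := by
    intro k hk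
    rcases hred k hk with ⟨-, -, h⟩ | ⟨-, -, h⟩
    · rw [h]; exact ⟨rfl, fun a => ⟨rfl, rfl⟩⟩
    · exact ⟨vec_congr (by omega), fun a => ⟨sqL_congr (by omega), M4_congr (by omega)⟩⟩
  try simp only at c6 c7 c8 c9 c11
  refine ⟨(k + c) % n, (l + c) % n, φ, σ, Nat.mod_lt _ hn0, Nat.mod_lt _ hn0, ?_, ⟨k, c4, rfl⟩,
    ⟨l, c5, rfl⟩, ?_, ?_, ?_, ?_, c10, ?_, ?_⟩
  · have h1 := hred k c1
    have h2 := hred l c2
    omega
  · rw [hqc, c6]
    exact ((hw k c1).2 _).1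
  · rw [hqc, c7, (hw k c1).1]
    exact ((hw k c1).2 _).2
  · rw [hqc, c8]
    exact ((hw l c2).2 _).1
  · rw [hqc, c9, (hw l c2).1]
    exact ((hw l c2).2 _).2
  · rw [c11]
    rcases hred k c1 with ⟨h1, h2, h3⟩ | ⟨h1, h2, h3⟩ <;>
      rcases hred l c2 with ⟨h4, h5, h6⟩ | ⟨h4, h5, h6⟩ <;> rw [h3, h6, h2, h5] <;>
      split_ifs <;> omega
  · have hs2 : ∀ a b : ℕ, (if a < b then (σ - 1) / 2 else (σ + 1) / 2) =
        (if a < b then (0 : ℤ) else 1) + (σ - 1) / 2 := by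
      intro a b
      rcases c10.sgn with h | h <;> rw [h] <;> split_ifs <;> norm_num
    have h8 : ∀ a < n, (a + c < n ∧ (a + c) % n = a + c) ∨ (n ≤ a + c ∧ (a + c) % n + n = a + c) := by
      intro a ha
      rcases hred a ha with ⟨h1, h2, -⟩ | ⟨h1, h2, -⟩
      · exact Or.inl ⟨h1, h2⟩
      · exact Or.inr ⟨h1, by omega⟩
    intro z hz
    constructor
    · rintro ⟨w, ⟨a, ha, hw1, hw2⟩, rfl⟩
      have hwn : w < n := by have := hR.h3 a ha; omega
      have h7 := (c12 w hwn).1 ⟨a, ha, hw1, hw2⟩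
      try simp only at h7
      rw [hqc, ← (hw w hwn).1, h7]
      have h9 := cyc c1 c2 hwn c3 (h8 k c1) (h8 l c2) (h8 w hwn)
      rw [hs2, hs2]
      linarith
    · intro hz'
      obtain ⟨w, hwn, hwz⟩ : ∃ w < n, (w + c) % n = z := by
        rcases Nat.lt_or_ge z c with h | h
        · refine ⟨z + n - c, by omega, ?_⟩
          rw [show z + n - c + c = z + n by omega, Nat.add_mod_right, Nat.mod_eq_of_lt hz]
        · refine ⟨z - c, by omega, ?_⟩
          rw [Nat.sub_add_cancel h, Nat.mod_eq_of_lt hz]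
      have h7 := (c12 w hwn).2 fun h => hz' ⟨w, h, hwz⟩
      try simp only at h7
      rw [← hwz, hqc, h7]
      have h9 := cyc c1 c2 hwn c3 (h8 k c1) (h8 l c2) (h8 w hwn)
      rw [hs2, hs2]
      linarith

/-- **Exterior strands of rows.** -/
theorem far_turn (hq : IsPolygon q) (hu : Bd (D : Set (ℤ × ℤ)) n (fun k => q (k : ZMod n)) u 1)
    {c N : ℕ} {s e : ℕ → ℕ} (hc : c ≤ n)
    (hR : Rws (D : Set (ℤ × ℤ)) n (fun k => q ((k + c : ℕ) : ZMod n)) (fun k => u (k + c)) N s e)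
    (hK : (K : Set (ℤ × ℤ)) = rws (fun k => q ((k + c : ℕ) : ZMod n)) (fun k => u (k + c)) N s e)
    (hx1 : tlv x ∈ K) (hx2 : hdv x ∉ K)
    (hx3 : hdv x ∉ ends (fun k => q ((k + c : ℕ) : ZMod n)) (fun k => u (k + c)) N s e)
    (hr : Returns (nx ω) (bS K) x) (hs : ∀ k < ret (nx ω) (bS K) x, hdv ((nx ω)^[k] x) ∉ D)
    (hx4 : tlv ((nx ω)^[ret (nx ω) (bS K) x] x) ∉
      ends (fun k => q ((k + c : ℕ) : ZMod n)) (fun k => u (k + c)) N s e) :
    ∃ i j φ, ∃ σ : ℤ, i < n ∧ j < n ∧ i ≠ j ∧ InK n c N s e i ∧ InK n c N s e j ∧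
      tlv x = sqL (q (i : ZMod n)) (u i - 1) ∧
      P4 x = M4 (q (i : ZMod n) + vec (u i - 1)) (u i) ∧
      hdv ((nx ω)^[ret (nx ω) (bS K) x] x) = sqL (q (j : ZMod n)) (u j - 1) ∧
      P4 ((nx ω)^[ret (nx ω) (bS K) x] x) = M4 (q (j : ZMod n) + vec (u j - 1)) (u j) ∧
      ExtPot (D ∪ K) (exc K ω x) σ φ ∧
      ∑ k ∈ range (ret (nx ω) (bS K) x), trn ω ((nx ω)^[k] x) = u j - u i +
        (if i < j then (if σ = 1 then 2 else -6) else (if σ = 1 then 6 else -2)) := by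
  obtain ⟨k, l, φ, σ, h1, h2, h3, h4, h5, h6, h7, h8, h9, h10, h11, -⟩ :=
    far_turn' hq hu hc hR hK hx1 hx2 hx3 hr hs hx4
  exact ⟨k, l, φ, σ, h1, h2, h3, h4, h5, h6, h7, h8, h9, h10, h11⟩

end Vale.Agent.P167.H871.Q
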