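import Vale.Agent.P167.H871.Q.ExtW
import Vale.Agent.P167.QX.Loops

/-!
# P167, general `q`: the strands of the loops of a frame which do not visit the holes

Interior strands and their weights; every strand of a loop which does not visit the holes is an
interior or an exterior strand; the product over these loops is not zero if there are no strands over
the special points of zero type.
-/

namespace Vale.Agent.P167.H871.Q

open Finset
open Vale.Agent.P167.FK
open Vale.Agent.P167.Top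
open Vale.Agent.P167.A (plane plane_sg)
open Vale.Agent.P167.E6 (IsPolygon Encloses dir)
open Vale.Agent.P167.H199 (strand ret Returns mem_strand ret_min ret_le cang ah at' hb loop_iter)
open Vale.Agent.P167.BR (be)
open Vale.Agent.P167.XDL (bS mem_bS exists_idx P4_be)
open Vale.Agent.P167.QX (out_stays exc_last ExtPot exc VisL TO fLp wS returns_good)
open Vale.Agent.P167.H680.T (thk rowC uI mem_uI)
open Vale.Agent.P167.H825.Q (Row stΦ stτ)
open Vale.Agent.P167.H685 (LE mem_LE)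

/-! ### outer squares in the rows -/

section rows

variable {D : Set (ℤ × ℤ)} {n N : ℕ} {P : ℕ → ℤ × ℤ} {u : ℕ → ℤ} {s e : ℕ → ℕ}

theorem Rws.bmp (h : Rws D n P u N s e) {a : ℕ} (ha : a < N) : Bmp D n P u (s a) (e a) (u (s a)) :=
  ⟨h.bd, h.cov, h.h1 a ha, h.h2 a ha, h.h3 a ha, h.str a ha, h.free a ha⟩

/-- The outer square of a step is in a row only if the step is. -/
theorem Rws.inR (h : Rws D n P u N s e) {k : ℕ} (hk : k < n)
    (h1 : sqL (P k) (u k - 1) ∈ rws P u N s e) : InR N s e k := by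
  obtain ⟨a, ha, h2⟩ := h1
  refine ⟨a, ha, ?_⟩
  by_contra h3
  exact (h.bmp ha).off hk (by omega) h2

/-- The rows are outside of the domain. -/
theorem Rws.nin (h : Rws D n P u N s e) {v : ℤ × ℤ} (h1 : v ∈ rws P u N s e) : v ∉ D := by
  obtain ⟨a, ha, k, -, -, rfl⟩ := h1
  exact h.bd.right k

end rows

variable {ι : Type} [Fintype ι] {r : ι → Row} {θ β : ℝ} {x : Ed} {ω : Cfg} {n : ℕ}
  {q : ZMod n → ℤ × ℤ} {D : Finset (ℤ × ℤ)} {u : ℕ → ℤ} {ka c N : ℕ} {s e : ℕ → ℕ}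

/-- The interior strand `x` goes from the side `i` to the side `j`. -/
structure IntS (r : ι → Row) {n : ℕ} (q : ZMod n → ℤ × ℤ) (u : ℕ → ℤ)
    (c N : ℕ) (s e : ℕ → ℕ) (ω : Cfg) (x : Ed) (i j : ℕ) : Prop where
  hi : i < n
  hj : j < n
  ne : i ≠ j
  ri : InK n c N s e i
  rj : InK n c N s e j
  e1 : x = be q (i : ZMod n)
  e2 : (nx ω)^[ret (nx ω) (bS (uI r)) x] x = be q (j : ZMod n)
  tl : tlv x = sqL (q (i : ZMod n)) (u i - 1)
  hd : hdv ((nx ω)^[ret (nx ω) (bS (uI r)) x] x) = sqL (q (j : ZMod n)) (u j - 1)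
  turn : ∑ k ∈ range (ret (nx ω) (bS (uI r)) x), trn ω ((nx ω)^[k] x) = u j - u i +
        (if i < j then -2 else 2)

/-- The cosine of the angle of an interior strand. -/
noncomputable def wI (θ β : ℝ) (ka i j : ℕ) : ℝ :=
  if (i < ka ↔ j < ka) then (if (i < ka ↔ i < j) then Real.sin θ else Real.sin (2 * θ))
  else Real.cos (θ / 2 + β)

theorem mixed_in (h : β = (θ - Real.pi) / 2 ∨ β = (Real.pi - 3 * θ) / 2) :
    Real.cos (θ / 2 + β) = Real.sin θ := by
  rcases h with h | h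
  · rw [h, show θ / 2 + (θ - Real.pi) / 2 = θ - Real.pi / 2 by ring, Real.cos_sub_pi_div_two]
  · rw [h, show θ / 2 + (Real.pi - 3 * θ) / 2 = Real.pi / 2 - θ by ring, Real.cos_pi_div_two_sub]

namespace Fam

variable (F : Fam θ β r q D u ka c N s e)

include F

theorem nin {v : ℤ × ℤ} (h : v ∈ uI r) : v ∉ D := by
  have h1 : v ∈ ((uI r : Finset (ℤ × ℤ)) : Set (ℤ × ℤ)) := mem_coe.2 h
  rw [F.hK] at h1
  exact fun h2 => F.hR.nin h1 (mem_coe.2 h2)

/-- The outer square of a step is in the rows only if the step is. -/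
theorem inK {i : ℕ} (hi : i < n) (h : sqL (q (i : ZMod n)) (u i - 1) ∈ uI r) :
    InK n c N s e i := by
  have hn : 2 < n := F.hq.1
  have hc := F.hc
  obtain ⟨w, hwn, hwz, hu⟩ : ∃ w < n, (w + c) % n = i ∧ (u (w + c)) % 4 = (u i) % 4 := by
    rcases Nat.lt_or_ge i c with h | h
    · refine ⟨i + n - c, by omega, ?_, ?_⟩
      · rw [show i + n - c + c = i + n by omega, Nat.add_mod_right, Nat.mod_eq_of_lt hi]
      · rw [show i + n - c + c = i + n by omega, F.hu.per]; omega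
    · refine ⟨i - c, by omega, ?_, ?_⟩
      · rw [Nat.sub_add_cancel h, Nat.mod_eq_of_lt hi]
      · rw [Nat.sub_add_cancel h]
  have h1 : sqL (q (i : ZMod n)) (u i - 1) ∈ ((uI r : Finset (ℤ × ℤ)) : Set (ℤ × ℤ)) :=
    mem_coe.2 h
  rw [F.hK] at h1
  refine ⟨w, F.hR.inR hwn ?_, hwz⟩
  have h2 : q ((w + c : ℕ) : ZMod n) = q (i : ZMod n) := by rw [← hwz, ZMod.natCast_mod]
  show sqL (q ((w + c : ℕ) : ZMod n)) (u (w + c) - 1) ∈ _
  rw [h2, sqL_congr (d' := u i - 1) (by omega)]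
  exact h1

/-- **The interior strands.** -/
theorem exists_int (hx1 : tlv x ∈ uI r) (hx2 : hdv x ∉ uI r)
    (hr : Returns (nx ω) (bS (uI r)) x)
    (hs : ∀ k < ret (nx ω) (bS (uI r)) x, hdv ((nx ω)^[k] x) ∈ D) :
    ∃ i j, IntS r q u c N s e ω x i j := by
  obtain ⟨hm, -⟩ := hr.spec
  have h0 : hdv x ∈ D := hs 0 (by omega)
  have h1 : x ∈ bS D := mem_bS.2 (Or.inl ⟨h0, F.nin hx1⟩)
  obtain ⟨i, hin, hi⟩ := exists_idx F.hq F.hD F.hu h1
  have hlast := exc_last hx2 hr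
  set f := (nx ω)^[ret (nx ω) (bS (uI r)) x] x with hf
  have hft : tlv f ∈ D := by
    obtain ⟨m, hm'⟩ : ∃ m, ret (nx ω) (bS (uI r)) x = m + 1 :=
      ⟨ret (nx ω) (bS (uI r)) x - 1, by omega⟩
    rw [hf, hm', Function.iterate_succ_apply', tlv_nx]
    exact hs m (by omega)
  have h2 : f ∈ bS D := mem_bS.2 (Or.inr ⟨F.nin hlast.1, hft⟩)
  obtain ⟨j, hjn, hj⟩ := exists_idx F.hq F.hD F.hu h2
  have p1 : P4 x = M4 (q (i : ZMod n)) (u i) := by rw [hi]; exact P4_be F.hq F.hu i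
  have p2 : P4 f = M4 (q (j : ZMod n)) (u j) := by rw [hj]; exact P4_be F.hq F.hu j
  have tl : tlv x = sqL (q (i : ZMod n)) (u i - 1) := by
    rcases side p1 with ⟨-, -, h⟩ | ⟨-, -, h⟩
    · exact h
    · exfalso
      have := F.hu.left i
      exact F.nin hx1 (h ▸ mem_coe.1 this)
  have hd : hdv f = sqL (q (j : ZMod n)) (u j - 1) := by
    rcases side p2 with ⟨-, h, -⟩ | ⟨-, h, -⟩
    · exfalso
      have := F.hu.left j
      exact F.nin hlast.1 (h ▸ mem_coe.1 this)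
    · exact h
  obtain ⟨c1, c2⟩ := strand_turn F.hu hm hin hjn p1 p2 hs (F.nin hx1) (F.nin hlast.1)
  exact ⟨i, j, hin, hjn, c1, F.inK hin (tl ▸ hx1), F.inK hjn (hd ▸ hlast.1), hi, hj, tl, hd, c2⟩

/-- **The interior weight table.** -/
theorem cos_int {i j : ℕ} (E : IntS r q u c N s e ω x i j)
    (hx2 : hdv x ∉ uI r) (hr : Returns (nx ω) (bS (uI r)) x) :
    Real.cos (cang plane θ (rowC θ r 0).ph ω (strand (nx ω) (bS (uI r)) x)) = wI θ β ka i j := by
  obtain ⟨y, y1, y2, y3⟩ := F.ph i E.hi E.ri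
  obtain ⟨z, z1, z2, z3⟩ := F.ph j E.hj E.rj
  rw [← E.tl] at y1 y2 y3
  rw [← E.hd] at z1 z2 z3
  rw [cang_rows F.disj hx2 y1 hr z1, E.turn, y2, y3, z2, z3]
  have hne := E.ne
  have h1 : ∀ t a : ℝ, t = a - Real.pi / 2 → Real.cos t = Real.sin a := fun t a ht => by
    rw [ht, Real.cos_sub_pi_div_two]
  have h2 : ∀ t a : ℝ, t = Real.pi / 2 - a → Real.cos t = Real.sin a := fun t a ht => by
    rw [ht, Real.cos_pi_div_two_sub]
  have h3 : ∀ t a : ℝ, t = -a → Real.cos t = Real.cos a := fun t a ht => by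
    rw [ht, Real.cos_neg]
  unfold wI stΦ stτ
  by_cases hi : i < ka <;> by_cases hj : j < ka
  · rw [if_pos (show (i < ka ↔ j < ka) by tauto), if_pos hi, if_pos hj, if_pos hi, if_pos hj]
    by_cases h : i < j
    · rw [if_pos h, if_pos (show (i < ka ↔ i < j) by tauto)]
      refine h1 _ _ ?_
      push_cast; ring
    · rw [if_neg h, if_neg (show ¬ (i < ka ↔ i < j) by tauto)]
      refine h1 _ _ ?_
      push_cast; ring
  · rw [if_neg (show ¬ (i < ka ↔ j < ka) by tauto), if_pos hi, if_neg hj, if_pos hi, if_neg hj,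
      if_pos (show i < j by omega)]
    refine h3 _ _ ?_
    push_cast; ring
  · rw [if_neg (show ¬ (i < ka ↔ j < ka) by tauto), if_neg hi, if_pos hj, if_neg hi, if_pos hj,
      if_neg (show ¬ i < j by omega)]
    congr 1
    push_cast; ring
  · rw [if_pos (show (i < ka ↔ j < ka) by tauto), if_neg hi, if_neg hj, if_neg hi, if_neg hj]
    by_cases h : i < j
    · rw [if_pos h, if_neg (show ¬ (i < ka ↔ i < j) by tauto)]
      refine h2 _ _ ?_
      push_cast; ring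
    · rw [if_neg h, if_pos (show (i < ka ↔ i < j) by tauto)]
      refine h2 _ _ ?_
      push_cast; ring

/-- **The strands of a loop which does not visit the holes.** -/
theorem cases {B : Set (ℤ × ℤ)} (hg : Good ω) (hB1 : ∀ v ∈ endK q u c N s e, v ∈ B)
    (hB2 : ∀ y ∈ bS D, y ∉ bS (uI r) → hdv y ∈ B) {ℓ : Finset Ed} (hl : IsLoop ω ℓ)
    (hv : ¬ VisL B ℓ) (hx : x ∈ ℓ) (hx1 : tlv x ∈ uI r) (hx2 : hdv x ∉ uI r) :
    Returns (nx ω) (bS (uI r)) x ∧ ((hdv x ∈ D ∧ ∃ i j, IntS r q u c N s e ω x i j) ∨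
      (hdv x ∉ D ∧ (∀ k < ret (nx ω) (bS (uI r)) x, hdv ((nx ω)^[k] x) ∉ D) ∧
        ∃ i j σ φ, ExtS r q D u c N s e ω x i j σ φ)) := by
  have hx0 : x ∈ bS (uI r) := mem_bS.2 (Or.inr ⟨hx2, hx1⟩)
  have hr := returns_good hg hx0
  have hnv : ∀ y ∈ ℓ, hdv y ∉ B := fun y hy h => hv ⟨y, hy, h⟩
  have hit : ∀ k, (nx ω)^[k] x ∈ ℓ := loop_iter hl hx
  -- no crossing
  have hstep : ∀ k, k + 1 < ret (nx ω) (bS (uI r)) x →
      (hdv ((nx ω)^[k] x) ∈ D ↔ hdv ((nx ω)^[k + 1] x) ∈ D) := by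
    intro k hk
    by_contra hne
    have h1 : (nx ω)^[k + 1] x ∈ bS D := by
      rw [mem_bS]
      have h2 : tlv ((nx ω)^[k + 1] x) = hdv ((nx ω)^[k] x) := by
        rw [Function.iterate_succ_apply', tlv_nx]
      rw [h2]
      tauto
    exact hnv _ (hit _) (hB2 _ h1 (ret_min (by omega) hk))
  have hall : ∀ k < ret (nx ω) (bS (uI r)) x, (hdv ((nx ω)^[k] x) ∈ D ↔ hdv x ∈ D) := by
    intro k
    induction k with
    | zero => intro _; rfl
    | succ k ih => intro hk; rw [← hstep k hk]; exact ih (by omega)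
  refine ⟨hr, ?_⟩
  by_cases h : hdv x ∈ D
  · exact Or.inl ⟨h, F.exists_int hx1 hx2 hr fun k hk => (hall k hk).2 h⟩
  · refine Or.inr ⟨h, fun k hk => mt (hall k hk).1 h, ?_⟩
    refine F.exists_ext hx1 hx2 (fun h' => hnv x hx (hB1 _ h')) hr
      (fun k hk => mt (hall k hk).1 h) fun h' => ?_
    obtain ⟨hm, -⟩ := hr.spec
    obtain ⟨m, hm'⟩ : ∃ m, ret (nx ω) (bS (uI r)) x = m + 1 :=
      ⟨ret (nx ω) (bS (uI r)) x - 1, by omega⟩
    rw [hm', Function.iterate_succ_apply', tlv_nx] at h'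
    exact hnv _ (hit m) (hB1 _ h')

end Fam

end Vale.Agent.P167.H871.Q
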