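import Vale.Agent.P167.H871.Q.IntW

/-!
# P167, general `q`: the product over the loops off the holes is not zero

`Zro`: no strand over the special points of zero type (potential zero at the outer site).
-/

namespace Vale.Agent.P167.H871.Q

open Finset
open Vale.Agent.P167.FK
open Vale.Agent.P167.Top
open Vale.Agent.P167.A (plane plane_sg)
open Vale.Agent.P167.E6 (IsPolygon Encloses dir)
open Vale.Agent.P167.H199 (strand ret Returns cang)
open Vale.Agent.P167.XDL (bS mem_bS)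
open Vale.Agent.P167.QX (ExtPot exc VisL TO fLp wS)
open Vale.Agent.P167.H680.T (rowC uI mem_uI)
open Vale.Agent.P167.H825.Q (Row)
open Vale.Agent.P167.H685 (LE mem_LE)

variable {ι : Type} [Fintype ι] {r : ι → Row} {θ β : ℝ} {x : Ed} {ω : Cfg} {n : ℕ}
  {q : ZMod n → ℤ × ℤ} {D : Finset (ℤ × ℤ)} {u : ℕ → ℤ} {ka c N : ℕ} {s e : ℕ → ℕ}

/-- The outer site of the step `z`, on the far side of the row. -/
def yK (q : ZMod n → ℤ × ℤ) (u : ℕ → ℤ) (z : ℕ) : ℤ × ℤ := q (z : ZMod n) + vec (u z - 1)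

/-- The conditions on the values `v0`, `va` at the base point and at the junction. -/
def ZroV (θ β : ℝ) (n ka : ℕ) (σ v0 va : ℤ) : Prop :=
  (n ≤ ka → (σ = -1 ∨ Real.sin (3 * θ) = 0) → v0 = 0) ∧
  (ka = 0 → (σ = 1 ∨ Real.sin (3 * θ) = 0) → v0 = 0) ∧
  (0 < ka → ka < n → β = (θ - Real.pi) / 2 → va = 0) ∧
  (0 < ka → ka < n → β = (Real.pi - 3 * θ) / 2 → v0 = 0)

/-- **No strand over the special points of zero type.** Only free (`n ≤ ka`): base point, `σ = -1`;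
only wired (`ka = 0`): base point, `σ = 1`; Dobrushin: the junction if `β = (θ - π) / 2`, the base
point if `β = (π - 3 θ) / 2`. -/
def Zro (θ β : ℝ) {n : ℕ} (ka : ℕ) (q : ZMod n → ℤ × ℤ) (u : ℕ → ℤ) (σ : ℤ) (φ : ℤ × ℤ → ℤ) :
    Prop := ZroV θ β n ka σ (φ (yK q u 0)) (φ (yK q u ka))

theorem sin_pos' (hθ : 0 < θ) (hθ' : θ ≤ Real.pi / 3) : 0 < Real.sin θ ∧ 0 < Real.sin (2 * θ) ∧
    0 ≤ Real.sin (3 * θ) ∧ 0 < Real.cos θ := by
  have hp := Real.pi_pos
  exact ⟨Real.sin_pos_of_pos_of_lt_pi hθ (by linarith),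
    Real.sin_pos_of_pos_of_lt_pi (by linarith) (by linarith),
    Real.sin_nonneg_of_nonneg_of_le_pi (by linarith) (by linarith),
    Real.cos_pos_of_mem_Ioo ⟨by linarith, by linarith⟩⟩

/-- The exterior weights are not negative. -/
theorem wE_nonneg (hθ : 0 < θ) (hθ' : θ ≤ Real.pi / 3) {i j : ℕ} {σ : ℤ} (hi : i < n) (hj : j < n)
    (hβ : 0 < ka → ka < n → β = (θ - Real.pi) / 2 ∨ β = (Real.pi - 3 * θ) / 2) :
    0 ≤ wE θ β ka i j σ := by
  obtain ⟨h1, h2, h3, h4⟩ := sin_pos' hθ hθ'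
  unfold wE
  split_ifs with a b
  all_goals try positivity
  all_goals
    have hka : 0 < ka ∧ ka < n := by omega
    rcases hβ hka.1 hka.2 with h | h
    · obtain ⟨g1, g2⟩ := mixed_one h
      first
      | (rw [g1])
      | (rw [g2]; exact h2.le)
    · obtain ⟨g1, g2⟩ := mixed_two h
      first
      | (rw [g1]; exact h2.le)
      | (rw [g2])

/-- The interior weights are positive. -/
theorem wI_pos (hθ : 0 < θ) (hθ' : θ ≤ Real.pi / 3) {i j : ℕ} (hi : i < n) (hj : j < n)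
    (hβ : 0 < ka → ka < n → β = (θ - Real.pi) / 2 ∨ β = (Real.pi - 3 * θ) / 2) :
    0 < wI θ β ka i j := by
  obtain ⟨h1, h2, h3, h4⟩ := sin_pos' hθ hθ'
  unfold wI
  split_ifs with a b
  · exact h1
  · exact h2
  · have hka : 0 < ka ∧ ka < n := by omega
    rw [mixed_in (hβ hka.1 hka.2)]
    exact h1

/-- The weight is not zero if no special point of zero type is passed. -/
theorem wE_ne (hθ : 0 < θ) (hθ' : θ ≤ Real.pi / 3) {i j : ℕ} {σ : ℤ} (hσ : σ = 1 ∨ σ = -1)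
    (hi : i < n) (hj : j < n) (hij : i ≠ j)
    (hβ : 0 < ka → ka < n → β = (θ - Real.pi) / 2 ∨ β = (Real.pi - 3 * θ) / 2)
    (hz : ZroV θ β n ka σ (vE i j 0 σ) (vE i j ka σ)) : wE θ β ka i j σ ≠ 0 := by
  obtain ⟨h1, h2, h3, h4⟩ := sin_pos' hθ hθ'
  obtain ⟨z1, z2, z3, z4⟩ := hz
  have v0 : vE i j 0 σ = if i < j then (σ - 1) / 2 else (σ + 1) / 2 := by
    unfold vE; simp
  rw [v0] at z1 z2 z4
  unfold vE at z3
  unfold wE
  by_cases hia : i < ka <;> by_cases hja : j < ka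
  · rw [if_pos (show i < ka ∧ j < ka from ⟨hia, hja⟩)]
    rcases hσ with rfl | rfl <;> rcases (by omega : i < j ∨ j < i) with h | h
    · rw [if_pos h, if_pos rfl]; exact h2.ne'
    · rw [if_neg (show ¬ i < j by omega), if_pos rfl]
      rw [if_neg (show ¬ i < j by omega)] at z1 z3 z4
      intro h5
      rcases (by omega : n ≤ ka ∨ (0 < ka ∧ ka < n)) with h6 | h6
      · have := z1 h6 (Or.inr h5); omega
      · rcases hβ h6.1 h6.2 with h7 | h7
        · have := z3 h6.1 h6.2 h7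
          rw [if_pos hia, if_pos hja] at this
          omega
        · have := z4 h6.1 h6.2 h7; omega
    · exfalso
      rw [if_pos h] at z1 z3 z4
      rcases (by omega : n ≤ ka ∨ (0 < ka ∧ ka < n)) with h6 | h6
      · have := z1 h6 (Or.inl rfl); omega
      · rcases hβ h6.1 h6.2 with h7 | h7
        · have := z3 h6.1 h6.2 h7
          rw [if_pos hia, if_pos hja] at this
          omega
        · have := z4 h6.1 h6.2 h7; omega
    · rw [if_neg (show ¬ i < j by omega), if_neg (by norm_num)]; exact h1.ne'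
  · rw [if_neg (show ¬ (i < ka ∧ j < ka) by tauto), if_neg (show ¬ (ka ≤ i ∧ ka ≤ j) by omega)]
    have h6 : 0 < ka ∧ ka < n := by omega
    have hlt : i < j := by omega
    rw [if_pos hlt] at z3 z4
    rw [if_pos hia, if_neg hja] at z3
    rcases hβ h6.1 h6.2 with h7 | h7
    · have h8 := z3 h6.1 h6.2 h7
      obtain ⟨g1, g2⟩ := mixed_one h7
      have h9 : σ = -1 := by rcases hσ with rfl | rfl <;> [omega; rfl]
      rw [if_neg (show ¬ (i < j ↔ σ = 1) from fun h => by have := h.1 hlt; omega), g2]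
      exact h2.ne'
    · have h8 := z4 h6.1 h6.2 h7
      obtain ⟨g1, g2⟩ := mixed_two h7
      have h9 : σ = 1 := by rcases hσ with rfl | rfl <;> [rfl; omega]
      rw [if_pos (show (i < j ↔ σ = 1) from ⟨fun _ => h9, fun _ => hlt⟩), g1]
      exact h2.ne'
  · rw [if_neg (show ¬ (i < ka ∧ j < ka) by tauto), if_neg (show ¬ (ka ≤ i ∧ ka ≤ j) by omega)]
    have h6 : 0 < ka ∧ ka < n := by omega
    have hlt : ¬ i < j := by omega
    rw [if_neg hlt] at z3 z4
    rw [if_neg hia, if_pos hja] at z3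
    rcases hβ h6.1 h6.2 with h7 | h7
    · have h8 := z3 h6.1 h6.2 h7
      obtain ⟨g1, g2⟩ := mixed_one h7
      have h9 : σ = 1 := by rcases hσ with rfl | rfl <;> [rfl; omega]
      rw [if_neg (show ¬ (i < j ↔ σ = 1) from fun h => hlt (h.2 h9)), g2]
      exact h2.ne'
    · have h8 := z4 h6.1 h6.2 h7
      obtain ⟨g1, g2⟩ := mixed_two h7
      have h9 : σ = -1 := by rcases hσ with rfl | rfl <;> [omega; rfl]
      rw [if_pos (show (i < j ↔ σ = 1) from ⟨fun h => absurd h hlt, fun h => by omega⟩), g1]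
      exact h2.ne'
  · rw [if_neg (show ¬ (i < ka ∧ j < ka) by tauto), if_pos (show ka ≤ i ∧ ka ≤ j by omega)]
    rcases hσ with rfl | rfl <;> rcases (by omega : i < j ∨ j < i) with h | h
    · rw [if_pos h, if_pos rfl]; exact h1.ne'
    · exfalso
      rw [if_neg (show ¬ i < j by omega)] at z2 z3 z4
      rcases (by omega : ka = 0 ∨ (0 < ka ∧ ka < n)) with h6 | h6
      · have := z2 h6 (Or.inl rfl); omega
      · rcases hβ h6.1 h6.2 with h7 | h7
        · have := z3 h6.1 h6.2 h7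
          rw [if_neg hia, if_neg hja] at this
          omega
        · have := z4 h6.1 h6.2 h7; omega
    · rw [if_pos h, if_neg (by norm_num)]
      rw [if_pos h] at z2 z3 z4
      intro h5
      rcases (by omega : ka = 0 ∨ (0 < ka ∧ ka < n)) with h6 | h6
      · have := z2 h6 (Or.inr h5); omega
      · rcases hβ h6.1 h6.2 with h7 | h7
        · have := z3 h6.1 h6.2 h7
          rw [if_neg hia, if_neg hja] at this
          omega
        · have := z4 h6.1 h6.2 h7; omega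
    · rw [if_neg (show ¬ i < j by omega), if_neg (by norm_num)]; exact h2.ne'

namespace Fam

variable (F : Fam θ β r q D u ka c N s e)

include F

/-- **The product over the loops off the holes is not zero** if no exterior strand of these loops
passes a special point of zero type. -/
theorem TO_ne {B : Set (ℤ × ℤ)} (hθ : 0 < θ) (hθ' : θ ≤ Real.pi / 3)
    (hβ : 0 < ka → ka < n → β = (θ - Real.pi) / 2 ∨ β = (Real.pi - 3 * θ) / 2) (hg : Good ω)
    (hB1 : ∀ v ∈ endK q u c N s e, v ∈ B) (hB2 : ∀ y ∈ bS D, y ∉ bS (uI r) → hdv y ∈ B)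
    (h0 : InK n c N s e 0) (ha : 0 < ka → ka < n → InK n c N s e ka)
    (hZ : ∀ ℓ ∈ LE ω (bS (uI r)), ¬ VisL B ℓ → ∀ y ∈ ℓ, tlv y ∈ uI r → hdv y ∉ uI r → hdv y ∉ D →
      ∀ (σ : ℤ) (φ : ℤ × ℤ → ℤ), ExtPot (D ∪ uI r) (exc (uI r) ω y) σ φ → Zro θ β ka q u σ φ) :
    TO θ (uI r) (rowC θ r 0).ph B ω ≠ 0 := by
  classical
  obtain ⟨h1, h2, h3, h4⟩ := sin_pos' hθ hθ'
  have hn : 2 < n := F.hq.1
  unfold TO
  rw [prod_ne_zero_iff]
  intro ℓ hℓ
  obtain ⟨hℓ1, hv⟩ := mem_filter.1 hℓ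
  have hl := (mem_LE.1 hℓ1).1
  unfold fLp
  refine div_ne_zero ?_ (by positivity)
  rw [prod_ne_zero_iff]
  intro y hy
  obtain ⟨y1, y2, y3⟩ := mem_filter.1 hy
  have y4 : tlv y ∈ uI r := by
    rw [mem_bS] at y1
    rcases y1 with h | h
    · exact absurd h.1 y2
    · exact h.2
  unfold wS
  refine div_ne_zero ?_ h1.ne'
  obtain ⟨hr, ⟨c1, i, j, E⟩ | ⟨c1, -, i, j, σ, φ, E⟩⟩ := F.cases hg hB1 hB2 hl hv y3 y4 y2
  · rw [F.cos_int E y2 hr]
    exact (wI_pos hθ hθ' E.hi E.hj hβ).ne'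
  · rw [F.cos_far E y2 hr]
    refine wE_ne hθ hθ' E.pot.sgn E.hi E.hj E.ne hβ ?_
    obtain ⟨z1, z2, z3, z4⟩ := hZ ℓ hℓ1 hv y y3 y4 y2 c1 σ φ E.pot
    have e0 : φ (yK q u 0) = vE i j 0 σ := E.far 0 (by omega) h0
    rw [e0] at z1 z2 z4
    refine ⟨z1, z2, fun k1 k2 k3 => ?_, z4⟩
    have ea : φ (yK q u ka) = vE i j ka σ := E.far ka k2 (ha k1 k2)
    rw [← ea]
    exact z3 k1 k2 k3

/-- The factor of a loop off the holes is not negative. -/
theorem fLp_nonneg {B : Set (ℤ × ℤ)} (hθ : 0 < θ) (hθ' : θ ≤ Real.pi / 3)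
    (hβ : 0 < ka → ka < n → β = (θ - Real.pi) / 2 ∨ β = (Real.pi - 3 * θ) / 2) (hg : Good ω)
    (hB1 : ∀ v ∈ endK q u c N s e, v ∈ B) (hB2 : ∀ y ∈ bS D, y ∉ bS (uI r) → hdv y ∈ B)
    {ℓ : Finset Ed} (hl : IsLoop ω ℓ) (hv : ¬ VisL B ℓ) :
    0 ≤ fLp θ (uI r) (rowC θ r 0).ph ω ℓ := by
  obtain ⟨h1, h2, h3, h4⟩ := sin_pos' hθ hθ'
  unfold fLp
  refine div_nonneg (prod_nonneg fun y hy => ?_) (by positivity)
  obtain ⟨y1, y2, y3⟩ := mem_filter.1 hy
  have y4 : tlv y ∈ uI r := by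
    rw [mem_bS] at y1
    rcases y1 with h | h
    · exact absurd h.1 y2
    · exact h.2
  unfold wS
  refine div_nonneg ?_ h1.le
  obtain ⟨hr, ⟨c1, i, j, E⟩ | ⟨c1, -, i, j, σ, φ, E⟩⟩ := F.cases hg hB1 hB2 hl hv y3 y4 y2
  · rw [F.cos_int E y2 hr]
    exact (wI_pos hθ hθ' E.hi E.hj hβ).le
  · rw [F.cos_far E y2 hr]
    exact wE_nonneg hθ hθ' E.hi E.hj hβ

end Fam

end Vale.Agent.P167.H871.Q
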