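import Vale.Agent.P167.H704.S.Half
import Vale.Agent.P167.H135.Z.Side
import Vale.Agent.P167.QX.Trap

/-!
# P167, general `q`, START (P2S): a strand over the special outer site stays near it

`lf1`: an exterior strand with nonzero potential at the special outer site `p` stays in a small box if
there is a path of the other side from near `p` to far away, no crossing of the half annulus around `p`
and no crossing of a big annulus.
-/

namespace Vale.Agent.P167.H871.Q

open Finset Relation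
open Vale.Agent.P167.FK
open Vale.Agent.P167.Top
open Vale.Agent.P167.BR
open Vale.Agent.P145.FB (PStep PConn)
open Vale.Agent.P167.XDL (bS mem_bS)
open Vale.Agent.P167.H199 (ret Returns)
open Vale.Agent.P167.H632 (cs pr NoX an bl crossing nm_le le_nm cs_compl)
open Vale.Agent.P167.H166N (Hs Qs NX)
open Vale.Agent.P167.H704.S (NH pr_not')
open Vale.Agent.P167.H135.Z (sd sd_par sd_isC sd_nx Rc isC_iff)
open Vale.Agent.P167.QX (exc mem_exc exc_last exc_nx ExtPot out_stays const_geA const_leA pot_hor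
  pot_ver)

variable {I D K : Finset (ℤ × ℤ)} {A : Finset Ed} {ω : Cfg} {p v t z : ℤ × ℤ} {r0 : Fin 4}
  {c e' e'' : Bool} {m m' M0 M M' R σ : ℤ} {φ : ℤ × ℤ → ℤ} {y x x' : Ed}

/-- The corners of the squares off `K`. -/
def CK (K : Finset (ℤ × ℤ)) : Set (ℤ × ℤ) := {z | ∃ v ∉ K, IsC v z}

theorem rc_pconn {B : Finset (ℤ × ℤ)} (hB : ∀ v ∈ B, v ∉ K) {s t : ℤ × ℤ} (h : Rc c B ω s t)
    (hs : s ∈ CK K) : PConn (cs c ω) (CK K) s t := by
  induction h with
  | refl => exact PConn.refl hs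
  | @tail u w _ h ih =>
    obtain ⟨h1, h2, h3, h4⟩ := h
    refine ih.tail ⟨h1, h2, h3⟩ ⟨_, hB _ h4, ?_⟩
    rw [isC_iff]
    dsimp only
    omega

/-- **The sides of a strand are joined.** -/
theorem side_conn (hk : ∀ k < ret (nx ω) (bS I) y, hdv ((nx ω)^[k] y) ∉ K)
    (hr : Returns (nx ω) (bS I) y) (c : Bool) (hx : x ∈ exc I ω y) :
    PConn (cs c ω) (CK K) (sd c y) (sd c x) := by
  obtain ⟨k, hk', rfl⟩ := mem_exc.1 hx
  clear hx
  induction k with
  | zero =>
    refine PConn.refl ⟨_, hk 0 hr.spec.1, ?_⟩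
    exact (sd_isC c y).1
  | succ k ih =>
    have ih := ih (by omega)
    rw [Function.iterate_succ_apply']
    refine ih.trans (rc_pconn (B := {hdv ((nx ω)^[k] y)}) ?_ (sd_nx _ (mem_singleton_self _) c)
      ih.right_mem)
    intro v hv
    rw [mem_singleton.1 hv]
    exact hk k (by omega)

theorem nm_isC {v z p : ℤ × ℤ} (h : IsC v z) :
    nm (v - p) ≤ nm (z - p) + 1 ∧ nm (z - p) ≤ nm (v - p) + 1 := by
  rw [isC_iff] at h
  have k1 : nm (z - p) ≤ nm (z - p) := le_rfl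
  have k2 : nm (v - p) ≤ nm (v - p) := le_rfl
  constructor
  · rw [nm_le] at k1 ⊢
    simp only [Prod.fst_sub, Prod.snd_sub] at *
    omega
  · rw [nm_le] at k2 ⊢
    simp only [Prod.fst_sub, Prod.snd_sub] at *
    omega

/-- The strand does not leave the big box. -/
theorem strand_big (hk : ∀ k < ret (nx ω) (bS I) y, hdv ((nx ω)^[k] y) ∉ K)
    (hr : Returns (nx ω) (bS I) y) (y1 : nm (tlv y - p) + 1 ≤ M) (hM : M ≤ M')
    (hconf : ω ∈ NX e'' p M M') (hx : x ∈ exc I ω y) :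
    nm (hdv x - p) ≤ M' ∧ nm (tlv x - p) ≤ M' := by
  have h1 : nm (sd (!e'') x - p) < M' := by
    by_contra hcon
    push Not at hcon
    have h2 := side_conn hk hr (!e'') hx
    have h3 := (nm_isC (p := p) (sd_isC (!e'') y).2).2
    obtain ⟨z, z', g1, g2, g3, g4, -⟩ := crossing hM h2 (by omega) hcon
    refine hconf z z' ?_ g1 g2 ?_
    · rw [← g3.parity, sd_par, pr_not']
    · rw [cs_compl]
      refine PConn.mono subset_rfl ?_ g4
      rintro w ⟨-, hw⟩
      exact ⟨trivial, hw⟩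
  obtain ⟨h4, h5⟩ := sd_isC (!e'') x
  have h6 := (nm_isC (p := p) h4).1
  have h7 := (nm_isC (p := p) h5).1
  exact ⟨by omega, by omega⟩

/-- **Potentials vanish far from the edges and from `K`.** -/
theorem pot_far0 (hφ : ExtPot K A σ φ) (hK : ∀ v ∈ K, nm (v - p) ≤ R)
    (hA : ∀ x ∈ A, nm (hdv x - p) ≤ R ∧ nm (tlv x - p) ≤ R) (ht : R + 2 ≤ nm (t - p)) :
    φ t = 0 := by
  obtain ⟨N, hN⟩ := hφ.far
  have off : ∀ w : ℤ × ℤ, R < nm (w - p) → w ∉ K ∧ ∀ y ∈ A, hdv y ≠ w ∧ tlv y ≠ w := by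
    intro w hw
    refine ⟨fun h => ?_, fun y hy => ⟨fun h => ?_, fun h => ?_⟩⟩
    · have := hK w h; omega
    · have := (hA y hy).1; rw [h] at this; omega
    · have := (hA y hy).2; rw [h] at this; omega
  have a1 := le_abs_self N
  have a2 := abs_nonneg N
  rw [le_nm] at ht
  simp only [Prod.fst_sub, Prod.snd_sub] at ht
  rcases ht with ht | ht | ht | ht
  · have h3 : ∀ a, a < t.1 → φ (a, t.2) = φ (a + 1, t.2) := fun a ha => by
      obtain ⟨b1, b2⟩ := off (a, t.2) (by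
        rw [← Int.add_one_le_iff, le_nm]; simp only [Prod.fst_sub, Prod.snd_sub]; omega)
      exact pot_hor hφ (Or.inr b1) fun y hy => Or.inr (b2 y hy)
    have h4 := const_leA h3 (t.1 - (|N| + |t.1| + 1)) (by have := abs_nonneg t.1; omega)
    rw [hN _ (Or.inl (by
      have := le_abs_self t.1
      have := abs_nonneg t.1
      dsimp only
      rw [lt_abs]
      omega))] at h4
    exact h4.symm
  · have h3 : ∀ a, t.1 ≤ a → φ (a, t.2) = φ (a + 1, t.2) := fun a ha => by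
      obtain ⟨b1, b2⟩ := off (a, t.2) (by
        rw [← Int.add_one_le_iff, le_nm]; simp only [Prod.fst_sub, Prod.snd_sub]; omega)
      exact pot_hor hφ (Or.inr b1) fun y hy => Or.inr (b2 y hy)
    have h4 := const_geA h3 (t.1 + (|N| + |t.1| + 1)) (by have := abs_nonneg t.1; omega)
    rw [hN _ (Or.inl (by
      have := neg_abs_le t.1
      have := abs_nonneg t.1
      dsimp only
      rw [lt_abs]
      omega))] at h4
    exact h4.symm
  · have h3 : ∀ b, b < t.2 → φ (t.1, b) = φ (t.1, b + 1) := fun b hb => by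
      obtain ⟨b1, b2⟩ := off (t.1, b) (by
        rw [← Int.add_one_le_iff, le_nm]; simp only [Prod.fst_sub, Prod.snd_sub]; omega)
      exact pot_ver hφ (Or.inr b1) fun y hy => Or.inr (b2 y hy)
    have h4 := const_leA h3 (t.2 - (|N| + |t.2| + 1)) (by have := abs_nonneg t.2; omega)
    rw [hN _ (Or.inr (by
      have := le_abs_self t.2
      have := abs_nonneg t.2
      dsimp only
      rw [lt_abs]
      omega))] at h4
    exact h4.symm
  · have h3 : ∀ b, t.2 ≤ b → φ (t.1, b) = φ (t.1, b + 1) := fun b hb => by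
      obtain ⟨b1, b2⟩ := off (t.1, b) (by
        rw [← Int.add_one_le_iff, le_nm]; simp only [Prod.fst_sub, Prod.snd_sub]; omega)
      exact pot_ver hφ (Or.inr b1) fun y hy => Or.inr (b2 y hy)
    have h4 := const_geA h3 (t.2 + (|N| + |t.2| + 1)) (by have := abs_nonneg t.2; omega)
    rw [hN _ (Or.inr (by
      have := neg_abs_le t.2
      have := abs_nonneg t.2
      dsimp only
      rw [lt_abs]
      omega))] at h4
    exact h4.symm

/-- No jump between two sites off the side of colour `c` of the edges. -/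
theorem loc_hor (hφ : ExtPot K A σ φ) {a b : ℤ} (h : (a, b - 1) ∉ K ∨ (a, b) ∉ K)
    (hA : ∀ y ∈ A, sd c y ≠ (a, b) ∧ sd c y ≠ (a + 1, b)) : φ (a, b) = φ (a + 1, b) := by
  refine pot_hor hφ h fun y hy => ?_
  obtain ⟨h1, h2⟩ := hA y hy
  obtain ⟨h3, h4⟩ := sd_isC c y
  rw [isC_iff] at h3 h4
  rw [Ne, Prod.ext_iff] at h1 h2
  simp only at h1 h2
  simp only [ne_eq, Prod.ext_iff]
  by_contra hcon
  omega

theorem loc_ver (hφ : ExtPot K A σ φ) {a b : ℤ} (h : (a - 1, b) ∉ K ∨ (a, b) ∉ K)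
    (hA : ∀ y ∈ A, sd c y ≠ (a, b) ∧ sd c y ≠ (a, b + 1)) : φ (a, b) = φ (a, b + 1) := by
  refine pot_ver hφ h fun y hy => ?_
  obtain ⟨h1, h2⟩ := hA y hy
  obtain ⟨h3, h4⟩ := sd_isC c y
  rw [isC_iff] at h3 h4
  rw [Ne, Prod.ext_iff] at h1 h2
  simp only at h1 h2
  simp only [ne_eq, Prod.ext_iff]
  by_contra hcon
  omega

theorem const_seg {f : ℤ → ℤ} {a b : ℤ} (hab : a ≤ b) (h : ∀ t, a ≤ t → t < b → f t = f (t + 1)) :
    f a = f b := by
  obtain ⟨k, rfl⟩ : ∃ k : ℕ, b = a + k := ⟨(b - a).toNat, by omega⟩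
  clear hab
  induction k with
  | zero => simp
  | succ k ih =>
    rw [ih fun t h1 h2 => h t h1 (by push_cast; omega), h (a + k) (by omega) (by push_cast; omega)]
    congr 1
    push_cast
    ring

theorem mem_Hs_iff {r0 : Fin 4} {w p : ℤ × ℤ} : w ∈ Hs r0 p ↔
    (r0 = 0 ∧ w.2 ≤ p.2) ∨ (r0 = 1 ∧ p.1 ≤ w.1) ∨ (r0 = 2 ∧ p.2 ≤ w.2) ∨ (r0 = 3 ∧ w.1 ≤ p.1) := by
  unfold Hs
  fin_cases r0 <;> simp

theorem mem_Qs_iff {r0 : Fin 4} {w p : ℤ × ℤ} : w ∈ Qs r0 p ↔
    (r0 = 0 ∧ w.2 < p.2) ∨ (r0 = 1 ∧ p.1 ≤ w.1) ∨ (r0 = 2 ∧ p.2 ≤ w.2) ∨ (r0 = 3 ∧ w.1 < p.1) := by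
  unfold Qs
  fin_cases r0 <;> simp

theorem Hs_of_Qs {v z : ℤ × ℤ} (h : v ∈ Qs r0 p) (hz : IsC v z) : z ∈ Hs r0 p := by
  rw [mem_Qs_iff] at h
  rw [mem_Hs_iff]
  rw [isC_iff] at hz
  omega

/-- The potential is constant on the half ball if the side of colour `c` does not visit it. -/
theorem half_const (hφ : ExtPot K A σ φ) (hloc : ∀ w, nm (w - p) ≤ M0 → w ∈ Qs r0 p → w ∉ K)
    (hm : m + 1 ≤ M0) (hA : ∀ y ∈ A, m < nm (sd c y - p)) (hz : z ∈ Hs r0 p)
    (hz' : nm (z - p) ≤ m) : φ z = φ p := by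
  have key : ∀ a b : ℤ, nm ((a, b) - p) ≤ m → ∀ y ∈ A, sd c y ≠ (a, b) := by
    intro a b h y hy h'
    have := hA y hy
    rw [h'] at this
    omega
  obtain ⟨z1, z2⟩ := z
  obtain ⟨p1, p2⟩ := p
  rw [nm_le] at hz'
  simp only [Prod.fst_sub, Prod.snd_sub] at hz'
  have hor : ∀ a b : ℤ, (a, b) ∈ Hs r0 (p1, p2) → (a + 1, b) ∈ Hs r0 (p1, p2) →
      nm ((a, b) - (p1, p2)) ≤ m → nm ((a + 1, b) - (p1, p2)) ≤ m → φ (a, b) = φ (a + 1, b) := by
    intro a b h1 h2 h3 h4
    refine loc_hor (c := c) hφ ?_ fun y hy => ⟨key _ _ h3 y hy, key _ _ h4 y hy⟩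
    rw [nm_le] at h3 h4
    simp only [Prod.fst_sub, Prod.snd_sub] at h3 h4
    rw [mem_Hs_iff] at h1 h2
    simp only at h1 h2
    by_cases hr : r0 = 0
    · left
      refine hloc _ ?_ ?_
      · rw [nm_le]; simp only [Prod.fst_sub, Prod.snd_sub]; omega
      · rw [mem_Qs_iff]; simp only; omega
    · right
      refine hloc _ ?_ ?_
      · rw [nm_le]; simp only [Prod.fst_sub, Prod.snd_sub]; omega
      · rw [mem_Qs_iff]; simp only; omega
  have ver : ∀ a b : ℤ, (a, b) ∈ Hs r0 (p1, p2) → (a, b + 1) ∈ Hs r0 (p1, p2) →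
      nm ((a, b) - (p1, p2)) ≤ m → nm ((a, b + 1) - (p1, p2)) ≤ m → φ (a, b) = φ (a, b + 1) := by
    intro a b h1 h2 h3 h4
    refine loc_ver (c := c) hφ ?_ fun y hy => ⟨key _ _ h3 y hy, key _ _ h4 y hy⟩
    rw [nm_le] at h3 h4
    simp only [Prod.fst_sub, Prod.snd_sub] at h3 h4
    rw [mem_Hs_iff] at h1 h2
    simp only at h1 h2
    by_cases hr : r0 = 3
    · left
      refine hloc _ ?_ ?_
      · rw [nm_le]; simp only [Prod.fst_sub, Prod.snd_sub]; omega
      · rw [mem_Qs_iff]; simp only; omega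
    · right
      refine hloc _ ?_ ?_
      · rw [nm_le]; simp only [Prod.fst_sub, Prod.snd_sub]; omega
      · rw [mem_Qs_iff]; simp only; omega
  rw [mem_Hs_iff] at hz
  simp only at hz
  have hH : ∀ a b : ℤ, min z1 p1 ≤ a → a ≤ max z1 p1 → min z2 p2 ≤ b → b ≤ max z2 p2 →
      (a, b) ∈ Hs r0 (p1, p2) ∧ nm ((a, b) - (p1, p2)) ≤ m := by
    intro a b h1 h2 h3 h4
    rw [mem_Hs_iff, nm_le]
    simp only [Prod.fst_sub, Prod.snd_sub]
    omega
  -- horizontal part, then vertical part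
  have s1 : φ (z1, p2) = φ (p1, p2) := by
    rcases le_total z1 p1 with h | h
    · exact const_seg (f := fun a => φ (a, p2)) h fun t h1 h2 =>
        hor t p2 (hH _ _ (by omega) (by omega) (by omega) (by omega)).1
          (hH _ _ (by omega) (by omega) (by omega) (by omega)).1
          (hH _ _ (by omega) (by omega) (by omega) (by omega)).2
          (hH _ _ (by omega) (by omega) (by omega) (by omega)).2
    · exact (const_seg (f := fun a => φ (a, p2)) h fun t h1 h2 =>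
        hor t p2 (hH _ _ (by omega) (by omega) (by omega) (by omega)).1
          (hH _ _ (by omega) (by omega) (by omega) (by omega)).1
          (hH _ _ (by omega) (by omega) (by omega) (by omega)).2
          (hH _ _ (by omega) (by omega) (by omega) (by omega)).2).symm
  have s2 : φ (z1, z2) = φ (z1, p2) := by
    rcases le_total z2 p2 with h | h
    · exact const_seg (f := fun b => φ (z1, b)) h fun t h1 h2 =>
        ver z1 t (hH _ _ (by omega) (by omega) (by omega) (by omega)).1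
          (hH _ _ (by omega) (by omega) (by omega) (by omega)).1
          (hH _ _ (by omega) (by omega) (by omega) (by omega)).2
          (hH _ _ (by omega) (by omega) (by omega) (by omega)).2
    · exact (const_seg (f := fun b => φ (z1, b)) h fun t h1 h2 =>
        ver z1 t (hH _ _ (by omega) (by omega) (by omega) (by omega)).1
          (hH _ _ (by omega) (by omega) (by omega) (by omega)).1
          (hH _ _ (by omega) (by omega) (by omega) (by omega)).2
          (hH _ _ (by omega) (by omega) (by omega) (by omega)).2).symm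
  rw [s2, s1]

/-- Potentials are constant along the paths off `K`. -/
theorem pot_path (hP : H135.Z.Pt ω {u | u ∉ K} (A : Set Ed) φ) (hpar : (v.1 + v.2) % 2 = pr e')
    (hpath : PConn (cs e' ω ∩ {u | u ∉ K}) Set.univ v t) : φ v = φ t := by
  have h0 := hpath
  obtain ⟨-, h⟩ := hpath
  have key : φ v = φ t ∧ (t.1 + t.2) % 2 = pr e' := by
    clear h0
    induction h with
    | refl => exact ⟨rfl, hpar⟩
    | @tail u w _ h ih =>
      obtain ⟨h1, h2⟩ := ih
      obtain ⟨⟨g1, g2, g3⟩, -⟩ := h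
      have h3 : PStep {w | ω w = e' ∧ w ∈ {u : ℤ × ℤ | u ∉ K}} u w := ⟨g1, g2, g3⟩
      refine ⟨h1.trans (hP.step h2 h3), ?_⟩
      omega
  exact key.1

/-- **(LF1) A strand over the special outer site stays near it.** -/
theorem lf1 (hloc : ∀ w, nm (w - p) ≤ M0 → (w ∉ D ∪ I ↔ w ∈ Qs r0 p)) (h2 : m ≤ m')
    (h4 : m' + 1 ≤ M0) (hin : ∀ w ∈ D ∪ I, nm (w - p) + 2 ≤ M) (hM : M ≤ M')
    (hconf : ω ∈ NX e'' p M M') (hpar : (v.1 + v.2) % 2 = pr e')
    (hpath : PConn (cs e' ω ∩ {u | u ∉ D ∪ I}) Set.univ v t) (ht : M' + 2 ≤ nm (t - p))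
    (hcase : v = p ∨ (v ∈ Hs r0 p ∧ nm (v - p) ≤ m ∧ ω ∈ NH e' r0 p m m'))
    (y1 : tlv y ∈ I) (y2 : hdv y ∉ I) (y3 : Returns (nx ω) (bS I) y)
    (y4 : ∀ k < ret (nx ω) (bS I) y, hdv ((nx ω)^[k] y) ∉ D)
    (hφ : ExtPot (D ∪ I) (exc I ω y) σ φ) (h0 : φ p ≠ 0) :
    ∀ k < ret (nx ω) (bS I) y, nm (hdv ((nx ω)^[k] y) - p) ≤ m' := by
  have hK : ∀ k < ret (nx ω) (bS I) y, hdv ((nx ω)^[k] y) ∉ D ∪ I := by
    intro k hk
    rw [mem_union, not_or]
    exact ⟨y4 k hk, out_stays y2 hk⟩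
  have hbig : ∀ x ∈ exc I ω y, nm (hdv x - p) ≤ M' ∧ nm (tlv x - p) ≤ M' := fun x hx =>
    strand_big hK y3 (by have := hin _ (mem_union_right _ y1); omega) hM hconf hx
  have ht0 : φ t = 0 := pot_far0 hφ (fun w hw => by have := hin w hw; omega) hbig ht
  have hP : H135.Z.Pt ω {u | u ∉ D ∪ I} (exc I ω y : Set Ed) φ := by
    refine ⟨fun x hx => ?_, fun x hx => ?_⟩
    · have h5 : hdv x ∉ I := fun h => hx (mem_union_right _ h)
      exact (exc_nx y2 y1 y3 h5).symm
    · have := hφ.jump x hx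
      rw [this]
      congr 1
      by_cases hxe : x ∈ exc I ω y
      · rw [if_pos hxe, if_pos (mem_coe.2 hxe)]
      · rw [if_neg hxe, if_neg (fun h => hxe (mem_coe.1 h))]
  have hv0 : φ v = 0 := (pot_path hP hpar hpath).trans ht0
  rcases hcase with rfl | ⟨hv1, hv2, hNH⟩
  · exact absurd hv0 h0
  intro k hk
  by_contra hcon
  push Not at hcon
  have hxk : (nx ω)^[k] y ∈ exc I ω y := mem_exc.2 ⟨k, hk.le, rfl⟩
  by_cases hS : ∃ x ∈ exc I ω y, nm (sd (!e') x - p) ≤ m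
  · obtain ⟨x, hx, hxm⟩ := hS
    have h5 := (side_conn hK y3 (!e') hx).symm.trans (side_conn hK y3 (!e') hxk)
    have h6 := (nm_isC (p := p) (sd_isC (!e') ((nx ω)^[k] y)).1).1
    obtain ⟨z, z', g1, g2, g3, g4, -⟩ := crossing h2 h5 hxm (by omega)
    refine hNH z z' ?_ g1 g2 ?_
    · rw [← g3.parity, sd_par, pr_not']
    · rw [cs_compl]
      refine PConn.mono subset_rfl ?_ g4
      rintro w ⟨⟨u, hu, huw⟩, hw⟩
      have h7 := (nm_isC (p := p) huw).1
      have h8 := hw.2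
      exact ⟨Hs_of_Qs ((hloc u (by omega)).1 hu) huw, hw⟩
  · push Not at hS
    apply h0
    rw [← half_const hφ (fun w h5 h6 => (hloc w h5).2 h6) (by omega) hS hv1 hv2]
    exact hv0

end Vale.Agent.P167.H871.Q
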