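import Vale.Agent.P167.H871.Q.LF1F
import Vale.Agent.P167.H704.S.Asm

/-!
# P167, general `q`, START: the literal input `FrmZ` of `P2S`
-/

namespace Vale.Agent.P167.H871.Q

/-- **(FrmZ)** -/
theorem frmZ {θ β : ℝ} (hθ : 0 < θ) (hθ' : θ ≤ Real.pi / 3)
    (hβ : β = (θ - Real.pi) / 2 ∨ β = (Real.pi - 3 * θ) / 2) : H704.S.FrmZ θ β := by
  intro l _ p n S₀ Q bc g δ R ρ ω hp hD hQ hg hδ hδg hn hb hbg hR hρ hρ2 hω hfz hT hsp
  refine frame_TO_ne3 hθ hθ' hβ hp hD hQ hg hδ hδg hn hb hbg hR hρ hρ2 hω hfz hT ?_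
  intro x hx hk
  obtain ⟨e', e'', v, t, m, m', M, M', -, h2, h3, h4, h5, h6, h7, h8, h9, h10⟩ := hsp x hx hk
  refine ⟨e', e'', v, t, m, m', M, M', h2, by omega, h4, h5, h6, h7, h8, h9, ?_⟩
  rcases h10 with h | ⟨h, h', h''⟩
  · exact Or.inl h
  · exact Or.inr ⟨h, h'.le, h''⟩

end Vale.Agent.P167.H871.Q
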