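import Vale.Agent.P167.H871.Q.WinC

/-!
# P167, general `q`: the feet of the strands in the window of a hole
-/

namespace Vale.Agent.P167.H871.Q

open Finset
open Vale.Agent.P167.Top

/-- The squares of a medial edge, the head on the right. -/
theorem exists_side' (g : Ed) : ∃ (s : ℤ × ℤ) (d : ℤ), P4 g = M4 s d ∧ tlv g = sqL s d ∧
    hdv g = sqL s (d - 1) := by
  obtain ⟨v, d, h1, h2, h3⟩ := exists_side g
  refine ⟨v + vec d, d + 2, ?_, ?_, ?_⟩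
  · rw [h1, M4_rev]
  · rw [h3]
    have h := sqL_next' (v + vec d) (d + 1)
    have e1 : sqL (v + vec d) (d + 2) = sqL v (d - 1) := by
      rcases (by omega : d % 4 = 0 ∨ d % 4 = 1 ∨ d % 4 = 2 ∨ d % 4 = 3) with h | h | h | h <;>
        rcases head_cases d with ⟨a, b, c⟩ | ⟨a, b, c⟩ | ⟨a, b, c⟩ | ⟨a, b, c⟩ <;>
        first
        | (exfalso; omega)
        | (unfold sqL vec
           rw [b, c]
           ext <;> simp only [Prod.fst_add, Prod.snd_add] <;> split_ifs <;> omega)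
    rw [e1]
  · rw [h2, show d + 2 - 1 = d + 1 by ring, sqL_next']

theorem Ls_surj (z : ℤ × ℤ) (d : ℤ) (v : ℤ × ℤ) : ∃ s, Ls z d s = v := by
  refine ⟨((v.1 - z.1) * dx d + (v.2 - z.2) * dy d, (v.2 - z.2) * dx d - (v.1 - z.1) * dy d), ?_⟩
  unfold Ls
  rcases head_cases d with ⟨a, b, c⟩ | ⟨a, b, c⟩ | ⟨a, b, c⟩ | ⟨a, b, c⟩ <;>
    rw [b, c] <;> ext <;> simp

theorem Ls_Ls (z : ℤ × ℤ) (d κ : ℤ) (s : ℤ × ℤ) : Ls z d (Ls 0 κ s) = Ls z (κ + d) s := by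
  rcases head_cases d with ⟨a, b, c⟩ | ⟨a, b, c⟩ | ⟨a, b, c⟩ | ⟨a, b, c⟩ <;>
    rcases head_cases κ with ⟨a', b', c'⟩ | ⟨a', b', c'⟩ | ⟨a', b', c'⟩ | ⟨a', b', c'⟩ <;>
    rcases head_cases (κ + d) with ⟨a'', b'', c''⟩ | ⟨a'', b'', c''⟩ | ⟨a'', b'', c''⟩ |
      ⟨a'', b'', c''⟩ <;>
    first
    | (exfalso; omega)
    | (unfold Ls; rw [b, c, b', c', b'', c'']; ext <;> simp <;> ring)

/-- The coordinates in the two frames. -/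
theorem Lq_rel (z : ℤ × ℤ) (d : ℤ) (v : ℤ × ℤ) {κ : ℤ} (hκ : κ = 0 ∨ κ = 1 ∨ κ = -1) :
    Lq z d v = if κ = 0 then Lq z (κ + d) v else if κ = 1 then
      (-(Lq z (κ + d) v).2 - 1, (Lq z (κ + d) v).1) else
      ((Lq z (κ + d) v).2, -(Lq z (κ + d) v).1 - 1) := by
  rcases hκ with rfl | rfl | rfl
  · simp
  · rcases head_cases d with ⟨a, b, c⟩ | ⟨a, b, c⟩ | ⟨a, b, c⟩ | ⟨a, b, c⟩ <;>
      rcases head_cases (1 + d) with ⟨a'', b'', c''⟩ | ⟨a'', b'', c''⟩ | ⟨a'', b'', c''⟩ |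
        ⟨a'', b'', c''⟩ <;>
      first
      | (exfalso; omega)
      | (unfold Lq; rw [b, c, b'', c'']; ext <;> simp <;> ring)
  · rcases head_cases d with ⟨a, b, c⟩ | ⟨a, b, c⟩ | ⟨a, b, c⟩ | ⟨a, b, c⟩ <;>
      rcases head_cases (-1 + d) with ⟨a'', b'', c''⟩ | ⟨a'', b'', c''⟩ | ⟨a'', b'', c''⟩ |
        ⟨a'', b'', c''⟩ <;>
      first
      | (exfalso; omega)
      | (unfold Lq; rw [b, c, b'', c'']; ext <;> simp <;> ring)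

/-- The window. -/
def Wn (z : ℤ × ℤ) (d κ : ℤ) (A B R : ℕ) : Set (ℤ × ℤ) := {v | Lq z d v ∈ RW κ A B R}

/-- The row before the hole (its part in the window). -/
def rA (z : ℤ × ℤ) (d : ℤ) (A R : ℕ) : Set (ℤ × ℤ) :=
  {v | (Lq z d v).2 = -1 ∧ -(R : ℤ) ≤ (Lq z d v).1 ∧ (Lq z d v).1 < -R + A}

/-- The row after the hole (its part in the window). -/
def rB (z : ℤ × ℤ) (d κ : ℤ) (B R : ℕ) : Set (ℤ × ℤ) :=
  {v | (Lq z (κ + d) v).2 = -1 ∧ (R : ℤ) - B ≤ (Lq z (κ + d) v).1 ∧ (Lq z (κ + d) v).1 < R}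

variable {z : ℤ × ℤ} {d κ : ℤ} {A B R : ℕ}

theorem box_of (hκ : κ = 0 ∨ κ = 1 ∨ κ = -1) {v : ℤ × ℤ} (h : v ∈ Wn z d κ A B R) :
    (-(R : ℤ) ≤ (Lq z d v).1 ∧ (Lq z d v).1 < R ∧ -(R : ℤ) ≤ (Lq z d v).2 ∧ (Lq z d v).2 < R) ∧
      ¬ ((Lq z d v).2 = -1 ∧ (Lq z d v).1 < -R + A) ∧
    (-(R : ℤ) ≤ (Lq z (κ + d) v).1 ∧ (Lq z (κ + d) v).1 < R ∧ -(R : ℤ) ≤ (Lq z (κ + d) v).2 ∧
      (Lq z (κ + d) v).2 < R) ∧
      ¬ ((Lq z (κ + d) v).2 = -1 ∧ (R : ℤ) - B ≤ (Lq z (κ + d) v).1) := by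
  have h1 := Lq_rel z d v hκ
  unfold Wn RW at h
  rw [Set.mem_ofPred_eq] at h
  rcases hκ with rfl | rfl | rfl
  · rw [if_pos rfl] at h h1
    obtain ⟨h2, h3, h4, h5, h6, h7⟩ := h
    rw [← h1]
    refine ⟨⟨h2, h3, h4, h5⟩, fun h => h6 ⟨h.2, h.1⟩, ⟨h2, h3, h4, h5⟩, fun h => h7 ⟨h.2, h.1⟩⟩
  · rw [if_neg (by norm_num), if_pos rfl] at h h1
    obtain ⟨h2, h3, h4, h5, h6, h7⟩ := h
    have h8 := congrArg Prod.fst h1
    have h9 := congrArg Prod.snd h1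
    simp only at h8 h9
    omega
  · rw [if_neg (by norm_num), if_neg (by norm_num)] at h h1
    obtain ⟨h2, h3, h4, h5, h6, h7⟩ := h
    have h8 := congrArg Prod.fst h1
    have h9 := congrArg Prod.snd h1
    simp only at h8 h9
    omega

/-- The face of a row: `0`: side of the domain, `1`: end, `2`: far side; index of the step. -/
structure FtA (A : ℕ) (P : ℕ → ℤ × ℤ) (U : ℕ → ℤ) (z : ℤ × ℤ) (d : ℤ) (g : Ed) (i : ℕ) (f : ℤ) :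
    Prop where
  at_ : P4 g = M4 (Ls z d (P i)) (U i + d)
  rg : i < 2 * A + 1
  face : (i < A ∧ f = 0) ∨ (i = A ∧ f = 1) ∨ (A < i ∧ f = 2)
  dir : U i = -f

structure FtB (A B R : ℕ) (κ : ℤ) (P : ℕ → ℤ × ℤ) (U : ℕ → ℤ) (z : ℤ × ℤ) (d : ℤ) (g : Ed)
    (i : ℕ) (f : ℤ) : Prop where
  at_ : P4 g = M4 (Ls z d (P i)) (U i + d)
  lo : tB κ A R ≤ i
  hi : i < tB κ A R + 2 * B + 1
  face : (i < tB κ A R + B ∧ f = 2) ∨ (i = tB κ A R + B ∧ f = 1) ∨ (tB κ A R + B < i ∧ f = 0)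
  dir : U i = κ + f

/-- The foot on the row before the hole. -/
theorem foot_A (hκ : κ = 0 ∨ κ = 1 ∨ κ = -1) {P : ℕ → ℤ × ℤ} {U : ℕ → ℤ}
    (hW : WinI κ A B R P U) {g : Ed} {s : ℤ × ℤ} {t : ℤ} (hg : P4 g = M4 s t)
    (h1 : sqL s t ∈ Wn z d κ A B R) (h2 : sqL s (t - 1) ∈ rA z d A R) :
    ∃ i f, FtA A P U z d g i f := by
  obtain ⟨s', rfl⟩ := Ls_surj z d s
  obtain ⟨t', rfl⟩ : ∃ t', t = t' + d := ⟨t - d, by ring⟩
  have hb := box_of hκ h1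
  obtain ⟨⟨b1, b2, b3, b4⟩, b5, -, -⟩ := hb
  unfold rA at h2
  rw [Set.mem_ofPred_eq, show t' + d - 1 = (t' - 1) + d by ring] at h2
  rw [Lq_sqL] at h2 b1 b2 b3 b4 b5
  obtain ⟨x, y⟩ := s'
  rcases (by omega : t' % 4 = 0 ∨ t' % 4 = 1 ∨ t' % 4 = 2 ∨ t' % 4 = 3) with h | h | h | h
  · rw [sqL_congr (d' := 0) (by omega)] at b1 b2 b3 b4 b5
    rw [sqL_congr (d' := -1) (by omega)] at h2
    simp only [sqL] at h2 b1 b2 b3 b4 b5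
    norm_num at h2 b1 b2 b3 b4 b5
    obtain ⟨k, hk⟩ : ∃ k : ℕ, (k : ℤ) = x + R := ⟨(x + R).toNat, by omega⟩
    obtain ⟨p1, p2⟩ := hW.aD k (by omega)
    refine ⟨k, 0, ?_, by omega, Or.inl ⟨by omega, rfl⟩, by rw [p2]; rfl⟩
    rw [hg, p1, p2, show (-(R : ℤ) + k, (0 : ℤ)) = (x, y) by ext <;> simp only <;> omega]
    exact M4_congr (by omega)
  · exfalso
    rw [sqL_congr (d' := 1) (by omega)] at b1 b2 b3 b4 b5
    rw [sqL_congr (d' := 0) (by omega)] at h2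
    simp only [sqL] at h2 b1 b2 b3 b4 b5
    norm_num at h2 b1 b2 b3 b4 b5
    omega
  · rw [sqL_congr (d' := 2) (by omega)] at b1 b2 b3 b4 b5
    rw [sqL_congr (d' := 1) (by omega)] at h2
    simp only [sqL] at h2 b1 b2 b3 b4 b5
    norm_num at h2 b1 b2 b3 b4 b5
    obtain ⟨k, hk⟩ : ∃ k : ℕ, (k : ℤ) = -R + A - x := ⟨(-R + A - x).toNat, by omega⟩
    obtain ⟨p1, p2⟩ := hW.aF k (by omega)
    refine ⟨A + 1 + k, 2, ?_, by omega, Or.inr (Or.inr ⟨by omega, rfl⟩), by rw [p2]⟩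
    rw [hg, p1, p2, show (-(R : ℤ) + A - k, (-1 : ℤ)) = (x, y) by ext <;> simp only <;> omega]
    exact M4_congr (by omega)
  · rw [sqL_congr (d' := 3) (by omega)] at b1 b2 b3 b4 b5
    rw [sqL_congr (d' := 2) (by omega)] at h2
    simp only [sqL] at h2 b1 b2 b3 b4 b5
    norm_num at h2 b1 b2 b3 b4 b5
    obtain ⟨p1, p2⟩ := hW.aE
    refine ⟨A, 1, ?_, by omega, Or.inr (Or.inl ⟨rfl, rfl⟩), by rw [p2]⟩
    rw [hg, p1, p2, show (-(R : ℤ) + A, (0 : ℤ)) = (x, y) by ext <;> simp only <;> omega]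
    exact M4_congr (by omega)

/-- The foot on the row after the hole. -/
theorem foot_B (hκ : κ = 0 ∨ κ = 1 ∨ κ = -1) {P : ℕ → ℤ × ℤ} {U : ℕ → ℤ}
    (hW : WinI κ A B R P U) {g : Ed} {s : ℤ × ℤ} {t : ℤ} (hg : P4 g = M4 s t)
    (h1 : sqL s t ∈ Wn z d κ A B R) (h2 : sqL s (t - 1) ∈ rB z d κ B R) :
    ∃ i f, FtB A B R κ P U z d g i f := by
  obtain ⟨s', rfl⟩ := Ls_surj z (κ + d) s
  obtain ⟨t', rfl⟩ : ∃ t', t = t' + (κ + d) := ⟨t - (κ + d), by ring⟩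
  have hb := box_of hκ h1
  obtain ⟨-, -, ⟨b1, b2, b3, b4⟩, b5⟩ := hb
  unfold rB at h2
  rw [Set.mem_ofPred_eq, show t' + (κ + d) - 1 = (t' - 1) + (κ + d) by ring] at h2
  rw [Lq_sqL] at h2 b1 b2 b3 b4 b5
  obtain ⟨x, y⟩ := s'
  rcases (by omega : t' % 4 = 0 ∨ t' % 4 = 1 ∨ t' % 4 = 2 ∨ t' % 4 = 3) with h | h | h | h
  · rw [sqL_congr (d' := 0) (by omega)] at b1 b2 b3 b4 b5
    rw [sqL_congr (d' := -1) (by omega)] at h2
    simp only [sqL] at h2 b1 b2 b3 b4 b5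
    norm_num at h2 b1 b2 b3 b4 b5
    obtain ⟨k, hk⟩ : ∃ k : ℕ, (k : ℤ) = x - (R - B) := ⟨(x - (R - B)).toNat, by omega⟩
    obtain ⟨p1, p2⟩ := hW.bD k (by omega)
    refine ⟨tB κ A R + B + 1 + k, 0, ?_, by omega, by omega, Or.inr (Or.inr ⟨by omega, rfl⟩),
      by rw [p2]; ring⟩
    rw [hg, p1, p2, Ls_Ls, show ((R : ℤ) - B + k, (0 : ℤ)) = (x, y) by ext <;> simp only <;> omega]
    exact M4_congr (by omega)
  · rw [sqL_congr (d' := 1) (by omega)] at b1 b2 b3 b4 b5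
    rw [sqL_congr (d' := 0) (by omega)] at h2
    simp only [sqL] at h2 b1 b2 b3 b4 b5
    norm_num at h2 b1 b2 b3 b4 b5
    obtain ⟨p1, p2⟩ := hW.bE
    refine ⟨tB κ A R + B, 1, ?_, by omega, by omega, Or.inr (Or.inl ⟨rfl, rfl⟩), by rw [p2]⟩
    rw [hg, p1, p2, Ls_Ls, show ((R : ℤ) - B, (-1 : ℤ)) = (x, y) by ext <;> simp only <;> omega]
    exact M4_congr (by omega)
  · rw [sqL_congr (d' := 2) (by omega)] at b1 b2 b3 b4 b5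
    rw [sqL_congr (d' := 1) (by omega)] at h2
    simp only [sqL] at h2 b1 b2 b3 b4 b5
    norm_num at h2 b1 b2 b3 b4 b5
    obtain ⟨k, hk⟩ : ∃ k : ℕ, (k : ℤ) = R - x := ⟨(R - x).toNat, by omega⟩
    obtain ⟨p1, p2⟩ := hW.bF k (by omega)
    refine ⟨tB κ A R + k, 2, ?_, by omega, by omega, Or.inl ⟨by omega, rfl⟩, by rw [p2]⟩
    rw [hg, p1, p2, Ls_Ls, show ((R : ℤ) - k, (-1 : ℤ)) = (x, y) by ext <;> simp only <;> omega]
    exact M4_congr (by omega)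
  · exfalso
    rw [sqL_congr (d' := 3) (by omega)] at b1 b2 b3 b4 b5
    rw [sqL_congr (d' := 2) (by omega)] at h2
    simp only [sqL] at h2 b1 b2 b3 b4 b5
    norm_num at h2 b1 b2 b3 b4 b5
    omega

end Vale.Agent.P167.H871.Q
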