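import Vale.Agent.P167.H871.Q.AltB
import Vale.Agent.P167.H871.Q.WinD

/-!
# P167, general `q`: the polygon of a row of squares
-/

namespace Vale.Agent.P167.H871.Q

open Finset
open Vale.Agent.P167.Top
open Vale.Agent.P167.E6 (IsPolygon Encloses dir)
open Vale.Agent.P167.BR (be)
open Vale.Agent.P167.XDL (bS mem_bS)

section gen

variable {D : Finset (ℤ × ℤ)} {n : ℕ} {P : ℕ → ℤ × ℤ} {u : ℕ → ℤ}

/-- The polygon of a closed lattice path. -/
def qp (n : ℕ) (P : ℕ → ℤ × ℤ) (i : ZMod n) : ℤ × ℤ := P i.val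

theorem qp_nat (hn : 0 < n) (hb : Bd (D : Set (ℤ × ℤ)) n P u 1) (k : ℕ) :
    qp n P (k : ZMod n) = P k := by
  have : NeZero n := ⟨hn.ne'⟩
  unfold qp
  rw [ZMod.val_natCast]
  obtain ⟨h1, h2⟩ := hb.perN (k % n) (k / n)
  rw [← h2]
  congr 1
  exact Nat.mod_add_div k n

theorem qp_bd (hn : 0 < n) (hb : Bd (D : Set (ℤ × ℤ)) n P u 1) :
    Bd (D : Set (ℤ × ℤ)) n (fun k => qp n P (k : ZMod n)) u 1 := by
  rw [show (fun k : ℕ => qp n P (k : ZMod n)) = P from funext fun k => qp_nat hn hb k]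
  exact hb

theorem qp_polygon (hn : 2 < n) (hb : Bd (D : Set (ℤ × ℤ)) n P u 1) : IsPolygon (qp n P) := by
  have : NeZero n := ⟨by omega⟩
  refine ⟨hn, fun i j h => ?_, fun i => ?_⟩
  · have h1 := ZMod.val_lt i
    have h2 := ZMod.val_lt j
    unfold qp at h
    apply ZMod.val_injective
    rcases lt_trichotomy i.val j.val with h3 | h3 | h3
    · exact absurd h (hb.inj _ _ h3 (by omega))
    · exact h3
    · exact absurd h.symm (hb.inj _ _ h3 (by omega))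
  · obtain ⟨r, hr⟩ := exists_fin (u i.val)
    refine ⟨r, ?_⟩
    have h1 : qp n P (i + 1) = P (i.val + 1) := by
      rw [← qp_nat (by omega) hb, Nat.cast_succ, ZMod.natCast_zmod_val]
    rw [h1, hb.step, ← vec_fin, vec_congr hr]
    rfl

theorem qp_encloses (hn : 2 < n) (hb : Bd (D : Set (ℤ × ℤ)) n P u 1)
    (hcov : ∀ (v : ℤ × ℤ) (t : ℤ), sqL v t ∈ D → sqL v (t - 1) ∉ D →
      ∃ k < n, P k = v ∧ (u k) % 4 = t % 4) : Encloses (qp n P) D := by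
  have : NeZero n := ⟨by omega⟩
  intro v r
  rw [face_eq, face_pred]
  constructor
  · rintro ⟨i, h1, h2⟩
    have h3 : qp n P (i + 1) = P (i.val + 1) := by
      rw [← qp_nat (by omega) hb, Nat.cast_succ, ZMod.natCast_zmod_val]
    have h4 : P i.val = v := h1
    rw [h3, hb.step, h4] at h2
    have h5 := add_left_cancel h2
    rw [← vec_fin] at h5
    have h6 : (u i.val) % 4 = ((r.val : ℕ) : ℤ) % 4 := by
      unfold vec at h5
      simp only [Prod.mk.injEq] at h5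
      rcases head_cases (u i.val) with ⟨a, b, c⟩ | ⟨a, b, c⟩ | ⟨a, b, c⟩ | ⟨a, b, c⟩ <;>
        rcases head_cases ((r.val : ℕ) : ℤ) with ⟨a', b', c'⟩ | ⟨a', b', c'⟩ | ⟨a', b', c'⟩ |
          ⟨a', b', c'⟩ <;> rw [b, c, b', c'] at h5 <;> omega
    have h7 := hb.left i.val
    have h8 := hb.right i.val
    rw [h4] at h7 h8
    rw [sqL_congr h6] at h7
    rw [sqL_congr (d' := ((r.val : ℕ) : ℤ) - 1) (by omega)] at h8
    exact ⟨h7, h8⟩
  · rintro ⟨h1, h2⟩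
    obtain ⟨k, hk, h3, h4⟩ := hcov v _ h1 h2
    refine ⟨(k : ZMod n), ?_, ?_⟩
    · rw [qp_nat (by omega) hb, h3]
    · rw [← Nat.cast_succ, qp_nat (by omega) hb, hb.step, h3, ← vec_fin, vec_congr h4]

end gen

/-! ### the polygon of a row in its frame -/

/-- The sites. -/
def P0 (L k : ℕ) : ℤ × ℤ :=
  if k ≤ L then (k, 0) else if k ≤ 2 * L + 1 then (2 * L + 1 - k, 1) else (0, 0)

/-- The directions. -/
def U0 (L k : ℕ) : ℤ :=
  if k < L then 0 else if k = L then 1 else if k < 2 * L + 1 then 2 else if k = 2 * L + 1 then 3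
    else 4

/-- The squares of the row. -/
def D0 (L : ℕ) : Set (ℤ × ℤ) := {v | 0 ≤ v.1 ∧ v.1 < L ∧ v.2 = 0}

/-- The sites, all indices. -/
def P1 (L k : ℕ) : ℤ × ℤ := P0 L (k % (2 * L + 2))

/-- The directions, all indices. -/
def U1 (L k : ℕ) : ℤ := U0 L (k % (2 * L + 2)) + 4 * 1 * ((k / (2 * L + 2) : ℕ) : ℤ)

theorem P1_eq {L k : ℕ} (hk : k < 2 * L + 2) : P1 L k = P0 L k := by
  unfold P1; rw [Nat.mod_eq_of_lt hk]

theorem U1_eq {L k : ℕ} (hk : k < 2 * L + 2) : U1 L k = U0 L k := by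
  unfold U1; rw [Nat.mod_eq_of_lt hk, Nat.div_eq_of_lt hk]; simp

theorem bd0 {L : ℕ} (hL : 1 ≤ L) : Bd (D0 L) (2 * L + 2) (P1 L) (U1 L) 1 := by
  have e0 : vec 0 = (1, 0) := rfl
  have e1 : vec 1 = (0, 1) := rfl
  have e2 : vec 2 = (-1, 0) := rfl
  have e3 : vec 3 = (0, -1) := rfl
  have hcase : ∀ k < 2 * L + 2, (k < L ∧ P0 L k = ((k : ℤ), 0) ∧ U0 L k = 0) ∨
      (k = L ∧ P0 L k = ((k : ℤ), 0) ∧ U0 L k = 1) ∨
      (L < k ∧ k < 2 * L + 1 ∧ P0 L k = (2 * (L : ℤ) + 1 - k, 1) ∧ U0 L k = 2) ∨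
      (k = 2 * L + 1 ∧ P0 L k = (0, 1) ∧ U0 L k = 3) := by
    intro k hk
    unfold P0 U0
    rcases (by omega : k < L ∨ k = L ∨ (L < k ∧ k < 2 * L + 1) ∨ k = 2 * L + 1) with h | h | h | h
    · left
      exact ⟨h, if_pos h.le, if_pos h⟩
    · right; left
      refine ⟨h, if_pos h.le, ?_⟩
      rw [if_neg (by omega), if_pos h]
    · right; right; left
      refine ⟨h.1, h.2, ?_, ?_⟩
      · rw [if_neg (by omega), if_pos (by omega)]
      · rw [if_neg (by omega), if_neg (by omega), if_pos h.2]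
    · right; right; right
      refine ⟨h, ?_, ?_⟩
      · rw [if_neg (by omega), if_pos (by omega), h]
        simp
      · rw [if_neg (by omega), if_neg (by omega), if_neg (by omega), if_pos h]
  have hlast : P0 L (2 * L + 2) = (0, 0) ∧ U0 L (2 * L + 2) = 4 := by
    unfold P0 U0
    constructor
    · rw [if_neg (by omega), if_neg (by omega)]
    · rw [if_neg (by omega), if_neg (by omega), if_neg (by omega), if_neg (by omega)]
  have hzero : P0 L 0 = (0, 0) ∧ U0 L 0 = 0 := by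
    unfold P0 U0
    exact ⟨by simp, if_pos hL⟩
  refine bd_fin (by omega) ?_ ?_ ?_ ?_ ?_ ?_ ?_
  · rw [hlast.1, hzero.1]
  · rw [hlast.2, hzero.2]; norm_num
  · intro k hk
    rcases hcase k hk with ⟨h, hp, hu⟩ | ⟨h, hp, hu⟩ | ⟨h, h', hp, hu⟩ | ⟨h, hp, hu⟩
    · rw [hp, hu, e0]
      rcases hcase (k + 1) (by omega) with ⟨g, hp', -⟩ | ⟨g, hp', -⟩ | ⟨g, g', hp', -⟩ |
        ⟨g, hp', -⟩ <;> rw [hp'] <;> ext <;> simp <;> omega
    · rw [hp, hu, e1]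
      rcases hcase (k + 1) (by omega) with ⟨g, hp', -⟩ | ⟨g, hp', -⟩ | ⟨g, g', hp', -⟩ |
        ⟨g, hp', -⟩ <;> rw [hp'] <;> ext <;> simp <;> omega
    · rw [hp, hu, e2]
      rcases hcase (k + 1) (by omega) with ⟨g, hp', -⟩ | ⟨g, hp', -⟩ | ⟨g, g', hp', -⟩ |
        ⟨g, hp', -⟩ <;> rw [hp'] <;> ext <;> simp <;> omega
    · rw [hp, hu, e3, h, hlast.1]
      ext <;> simp
  · intro k hk
    rcases hcase k hk with ⟨h, hp, hu⟩ | ⟨h, hp, hu⟩ | ⟨h, h', hp, hu⟩ | ⟨h, hp, hu⟩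
    · rw [hu]
      rcases hcase (k + 1) (by omega) with ⟨g, -, hu'⟩ | ⟨g, -, hu'⟩ | ⟨g, g', -, hu'⟩ |
        ⟨g, -, hu'⟩ <;> rw [hu'] <;> first | (exfalso; omega) | norm_num
    · rw [hu]
      rcases hcase (k + 1) (by omega) with ⟨g, -, hu'⟩ | ⟨g, -, hu'⟩ | ⟨g, g', -, hu'⟩ |
        ⟨g, -, hu'⟩ <;> rw [hu'] <;> first | (exfalso; omega) | norm_num
    · rw [hu]
      rcases hcase (k + 1) (by omega) with ⟨g, -, hu'⟩ | ⟨g, -, hu'⟩ | ⟨g, g', -, hu'⟩ |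
        ⟨g, -, hu'⟩ <;> rw [hu'] <;> first | (exfalso; omega) | norm_num
    · rw [hu, h, hlast.2]
      norm_num
  · intro k l h1 h2 h3
    rcases hcase k (by omega) with ⟨h, hp, -⟩ | ⟨h, hp, -⟩ | ⟨h, h', hp, -⟩ | ⟨h, hp, -⟩ <;>
      rcases hcase l h2 with ⟨g, hp', -⟩ | ⟨g, hp', -⟩ | ⟨g, g', hp', -⟩ | ⟨g, hp', -⟩ <;>
      rw [hp, hp'] at h3 <;> simp only [Prod.mk.injEq] at h3 <;> omega
  · intro k hk
    unfold D0
    rw [Set.mem_ofPred_eq]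
    rcases hcase k hk with ⟨h, hp, hu⟩ | ⟨h, hp, hu⟩ | ⟨h, h', hp, hu⟩ | ⟨h, hp, hu⟩ <;>
      rw [hp, hu] <;> simp [sqL] <;> omega
  · intro k hk
    unfold D0
    rw [Set.mem_ofPred_eq]
    rcases hcase k hk with ⟨h, hp, hu⟩ | ⟨h, hp, hu⟩ | ⟨h, h', hp, hu⟩ | ⟨h, hp, hu⟩ <;>
      rw [hp, hu] <;> simp [sqL] <;> omega

/-- Every side of the row is a side of the polygon. -/
theorem cov0 {L : ℕ} (hL : 1 ≤ L) {v : ℤ × ℤ} {t : ℤ} (h1 : sqL v t ∈ D0 L)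
    (h2 : sqL v (t - 1) ∉ D0 L) : ∃ k < 2 * L + 2, P0 L k = v ∧ (U0 L k) % 4 = t % 4 := by
  obtain ⟨x, y⟩ := v
  unfold D0 at h1 h2
  rw [Set.mem_ofPred_eq] at h1 h2
  unfold P0 U0
  rcases (by omega : t % 4 = 0 ∨ t % 4 = 1 ∨ t % 4 = 2 ∨ t % 4 = 3) with h | h | h | h
  · have e1 : sqL (x, y) t = (x, y) := by unfold sqL; simp [h]
    rw [e1] at h1
    simp only at h1
    obtain ⟨k, hk⟩ : ∃ k : ℕ, (k : ℤ) = x := ⟨x.toNat, by omega⟩
    refine ⟨k, by omega, ?_, ?_⟩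
    · rw [if_pos (by omega)]
      ext <;> simp <;> omega
    · rw [if_pos (by omega)]
      omega
  · have e1 : sqL (x, y) t = (x - 1, y) := by unfold sqL; simp [h] <;> omega
    have e2 : sqL (x, y) (t - 1) = (x, y) := by
      rw [sqL_congr (d' := 0) (by omega)]; simp [sqL]
    rw [e1] at h1
    rw [e2] at h2
    simp only at h1 h2
    refine ⟨L, by omega, ?_, ?_⟩
    · rw [if_pos le_rfl]
      ext <;> simp <;> omega
    · rw [if_neg (by omega), if_pos rfl]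
      omega
  · have e1 : sqL (x, y) t = (x - 1, y - 1) := by unfold sqL; simp [h] <;> omega
    rw [e1] at h1
    simp only at h1
    obtain ⟨k, hk⟩ : ∃ k : ℕ, (k : ℤ) = 2 * L + 1 - x := ⟨(2 * L + 1 - x).toNat, by omega⟩
    refine ⟨k, by omega, ?_, ?_⟩
    · rw [if_neg (by omega), if_pos (by omega)]
      ext <;> simp <;> omega
    · rw [if_neg (by omega), if_neg (by omega), if_pos (by omega)]
      omega
  · have e1 : sqL (x, y) t = (x, y - 1) := by unfold sqL; simp [h] <;> omega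
    have e2 : sqL (x, y) (t - 1) = (x - 1, y - 1) := by
      rw [sqL_congr (d' := 2) (by omega)]; simp [sqL, sub_eq_add_neg]
    rw [e1] at h1
    rw [e2] at h2
    simp only at h1 h2
    refine ⟨2 * L + 1, by omega, ?_, ?_⟩
    · rw [if_neg (by omega), if_pos (by omega)]
      ext <;> simp <;> omega
    · rw [if_neg (by omega), if_neg (by omega), if_neg (by omega), if_pos rfl]
      omega

/-- The polygon of the row with the corner `z` and the direction `d`. -/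
def rq (z : ℤ × ℤ) (d : ℤ) (L : ℕ) : ZMod (2 * L + 2) → ℤ × ℤ :=
  qp (2 * L + 2) fun k => Ls z d (P1 L k)

variable {z : ℤ × ℤ} {d : ℤ} {L : ℕ} {I : Finset (ℤ × ℤ)}

theorem rq_bd' (hL : 1 ≤ L) (hI : ∀ v, v ∈ I ↔ Lq z d v ∈ D0 L) :
    Bd (I : Set (ℤ × ℤ)) (2 * L + 2) (fun k => Ls z d (P1 L k)) (fun k => U1 L k + d) 1 := by
  have h := Bd.frame (bd0 hL) z d
  have h1 : {v | Lq z d v ∈ D0 L} = (I : Set (ℤ × ℤ)) := by
    ext v
    rw [Set.mem_ofPred_eq, mem_coe, hI]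
  rw [h1] at h
  exact h

theorem rq_bd (hL : 1 ≤ L) (hI : ∀ v, v ∈ I ↔ Lq z d v ∈ D0 L) :
    Bd (I : Set (ℤ × ℤ)) (2 * L + 2) (fun k => rq z d L (k : ZMod (2 * L + 2)))
      (fun k => U1 L k + d) 1 :=
  qp_bd (by omega) (rq_bd' hL hI)

theorem rq_nat (hL : 1 ≤ L) (hI : ∀ v, v ∈ I ↔ Lq z d v ∈ D0 L) (k : ℕ) :
    rq z d L (k : ZMod (2 * L + 2)) = Ls z d (P1 L k) :=
  qp_nat (by omega) (rq_bd' hL hI) k

theorem rq_polygon (hL : 1 ≤ L) (hI : ∀ v, v ∈ I ↔ Lq z d v ∈ D0 L) : IsPolygon (rq z d L) :=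
  qp_polygon (by omega) (rq_bd' hL hI)

theorem rq_encloses (hL : 1 ≤ L) (hI : ∀ v, v ∈ I ↔ Lq z d v ∈ D0 L) :
    Encloses (rq z d L) I := by
  refine qp_encloses (by omega) (rq_bd' hL hI) fun v t h1 h2 => ?_
  obtain ⟨s, rfl⟩ := Ls_surj z d v
  rw [hI, show t = (t - d) + d by ring, Lq_sqL] at h1
  rw [hI, show t - 1 = (t - d - 1) + d by ring, Lq_sqL] at h2
  obtain ⟨k, hk, h3, h4⟩ := cov0 hL h1 h2
  refine ⟨k, hk, ?_, ?_⟩
  · rw [P1_eq hk, h3]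
  · rw [U1_eq hk]
    omega

end Vale.Agent.P167.H871.Q
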