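import Vale.Agent.P167.H871.Q.Rect
import Vale.Agent.P167.H945.Q.TDefs

/-!
# P167, general `q`: rays off a box, the polygon of a `Row`
-/

namespace Vale.Agent.P167.H871.Q

open Finset
open Vale.Agent.P167.FK
open Vale.Agent.P167.Top
open Vale.Agent.P167.E6 (IsPolygon Encloses dir)
open Vale.Agent.P167.BR (be ce ce_sides ce_squares)
open Vale.Agent.P167.XDL (bS mem_bS)
open Vale.Agent.P167.H825.Q (Row)
open Vale.Agent.P167.H945.Q (face faces)

/-! ### rays -/

section rays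

variable {I : Finset (ℤ × ℤ)} {B : Set (ℤ × ℤ)} {g : ℤ × ℤ → ℤ}

theorem step_h (hg : ∀ x, hdv x ∉ B → tlv x ∉ B → (hdv x ∉ I ∨ tlv x ∉ I) → g (ls x) = g (rs x))
    {x y : ℤ} (h1 : (x, y) ∉ B) (h2 : (x, y - 1) ∉ B) (h3 : (x, y) ∉ I ∨ (x, y - 1) ∉ I) :
    g (x, y) = g (x + 1, y) := by
  have e1 : E6.face (x, y) 0 = (x, y) := by simp [E6.face]
  have e2 : E6.face (x, y) (0 - 1) = (x, y - 1) := by
    rw [show (0 : Fin 4) - 1 = 3 from rfl]
    simp [E6.face, sub_eq_add_neg]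
  have e3 : (x, y) + dir 0 = (x + 1, y) := by simp [dir]
  have h4 := hg (ce (x, y) 0)
  have h5 := ce_sides (x, y) 0
  have h6 := ce_squares (x, y) 0
  rw [e1, e2] at h6
  rw [e3] at h5
  rcases h6 with ⟨h6, h7⟩ | ⟨h6, h7⟩ <;> rw [h6, h7] at h4 <;>
    rcases h5 with ⟨h8, h9⟩ | ⟨h8, h9⟩ <;> rw [h8, h9] at h4
  · exact h4 h1 h2 h3
  · exact (h4 h1 h2 h3).symm
  · exact h4 h2 h1 h3.symm
  · exact (h4 h2 h1 h3.symm).symm

theorem step_v (hg : ∀ x, hdv x ∉ B → tlv x ∉ B → (hdv x ∉ I ∨ tlv x ∉ I) → g (ls x) = g (rs x))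
    {x y : ℤ} (h1 : (x, y) ∉ B) (h2 : (x - 1, y) ∉ B) (h3 : (x, y) ∉ I ∨ (x - 1, y) ∉ I) :
    g (x, y) = g (x, y + 1) := by
  have e1 : E6.face (x, y) 1 = (x - 1, y) := by simp [E6.face, sub_eq_add_neg]
  have e2 : E6.face (x, y) (1 - 1) = (x, y) := by
    rw [show (1 : Fin 4) - 1 = 0 from rfl]
    simp [E6.face]
  have e3 : (x, y) + dir 1 = (x, y + 1) := by simp [dir]
  have h4 := hg (ce (x, y) 1)
  have h5 := ce_sides (x, y) 1
  have h6 := ce_squares (x, y) 1
  rw [e1, e2] at h6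
  rw [e3] at h5
  rcases h6 with ⟨h6, h7⟩ | ⟨h6, h7⟩ <;> rw [h6, h7] at h4 <;>
    rcases h5 with ⟨h8, h9⟩ | ⟨h8, h9⟩ <;> rw [h8, h9] at h4
  · exact h4 h2 h1 h3.symm
  · exact (h4 h2 h1 h3.symm).symm
  · exact h4 h1 h2 h3
  · exact (h4 h1 h2 h3).symm

/-- Rays off a rectangle which meets the line of the row. -/
theorem rays_ico {a1 b1 a2 b2 : ℤ}
    (h : (∃ y0, (∀ v ∈ I, v.2 = y0) ∧ a2 ≤ y0 ∧ y0 < b2) ∨
      (∃ x0, (∀ v ∈ I, v.1 = x0) ∧ a1 ≤ x0 ∧ x0 < b1)) :
    Rays I ((Ico a1 b1 ×ˢ Ico a2 b2 : Finset (ℤ × ℤ)) : Set (ℤ × ℤ)) := by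
  intro g hg ⟨M, hM⟩ v hv t ht
  have hB : ∀ x y : ℤ, (x < a1 ∨ b1 ≤ x ∨ y < a2 ∨ b2 ≤ y) →
      (x, y) ∉ ((Ico a1 b1 ×ˢ Ico a2 b2 : Finset (ℤ × ℤ)) : Set (ℤ × ℤ)) := by
    intro x y h1 h2
    rw [mem_coe, mem_product, mem_Ico, mem_Ico] at h2
    simp only at h2
    omega
  have hI1 : ∀ x y : ℤ, (x < a1 ∨ b1 ≤ x) → ((x, y) ∉ I ∨ (x, y - 1) ∉ I) := by
    intro x y h1
    rcases h with ⟨y0, h2, -⟩ | ⟨x0, h2, h3, h4⟩
    · by_contra hh
      push Not at hh
      have e1 := h2 _ hh.1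
      have e2 := h2 _ hh.2
      simp only at e1 e2
      omega
    · left
      intro hh
      have e1 := h2 _ hh
      simp only at e1
      omega
  have hI2 : ∀ x y : ℤ, (y < a2 ∨ b2 ≤ y) → ((x, y) ∉ I ∨ (x - 1, y) ∉ I) := by
    intro x y h1
    rcases h with ⟨y0, h2, h3, h4⟩ | ⟨x0, h2, -⟩
    · left
      intro hh
      have e1 := h2 _ hh
      simp only at e1
      omega
    · by_contra hh
      push Not at hh
      have e1 := h2 _ hh.1
      have e2 := h2 _ hh.2
      simp only at e1 e2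
      omega
  have hv' : v.1 < a1 ∨ b1 ≤ v.1 ∨ v.2 < a2 ∨ b2 ≤ v.2 := by
    by_contra hh
    push Not at hh
    apply hv
    rw [mem_coe, mem_product, mem_Ico, mem_Ico]
    omega
  obtain ⟨t1, t2⟩ := t
  unfold IsC at ht
  simp only at ht
  have hMa := le_abs_self M
  have ha := abs_nonneg M
  have hb := neg_abs_le t1
  have hb' := le_abs_self t1
  have hc := neg_abs_le t2
  have hc' := le_abs_self t2
  have hd := abs_nonneg t1
  have he := abs_nonneg t2
  rcases hv' with h1 | h1 | h1 | h1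
  · have key : ∀ m : ℕ, g (t1, t2) = g (t1 - m, t2) := by
      intro m
      induction m with
      | zero => simp
      | succ m ih =>
        rw [ih]
        have h2 := step_h hg (x := t1 - (m + 1 : ℕ)) (y := t2) (hB _ _ (by push_cast; omega))
          (hB _ _ (by push_cast; omega)) (hI1 _ _ (by push_cast; omega))
        rw [show t1 - ((m + 1 : ℕ) : ℤ) + 1 = t1 - m by push_cast; ring] at h2
        exact h2.symm
    rw [key (|M| + |t1| + 1).toNat]
    refine hM _ (Or.inl ?_)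
    simp only
    rw [Int.toNat_of_nonneg (by omega), lt_abs]
    right
    omega
  · have key : ∀ m : ℕ, g (t1, t2) = g (t1 + m, t2) := by
      intro m
      induction m with
      | zero => simp
      | succ m ih =>
        rw [ih]
        have h2 := step_h hg (x := t1 + m) (y := t2) (hB _ _ (by omega))
          (hB _ _ (by omega)) (hI1 _ _ (by omega))
        rw [h2]
        congr 2
        push_cast
        ring
    rw [key (|M| + |t1| + 1).toNat]
    refine hM _ (Or.inl ?_)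
    simp only
    rw [Int.toNat_of_nonneg (by omega), lt_abs]
    left
    omega
  · have key : ∀ m : ℕ, g (t1, t2) = g (t1, t2 - m) := by
      intro m
      induction m with
      | zero => simp
      | succ m ih =>
        rw [ih]
        have h2 := step_v hg (x := t1) (y := t2 - (m + 1 : ℕ)) (hB _ _ (by push_cast; omega))
          (hB _ _ (by push_cast; omega)) (hI2 _ _ (by push_cast; omega))
        rw [show t2 - ((m + 1 : ℕ) : ℤ) + 1 = t2 - m by push_cast; ring] at h2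
        exact h2.symm
    rw [key (|M| + |t2| + 1).toNat]
    refine hM _ (Or.inr ?_)
    simp only
    rw [Int.toNat_of_nonneg (by omega), lt_abs]
    right
    omega
  · have key : ∀ m : ℕ, g (t1, t2) = g (t1, t2 + m) := by
      intro m
      induction m with
      | zero => simp
      | succ m ih =>
        rw [ih]
        have h2 := step_v hg (x := t1) (y := t2 + m) (hB _ _ (by omega))
          (hB _ _ (by omega)) (hI2 _ _ (by omega))
        rw [h2]
        congr 2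
        push_cast
        ring
    rw [key (|M| + |t2| + 1).toNat]
    refine hM _ (Or.inr ?_)
    simp only
    rw [Int.toNat_of_nonneg (by omega), lt_abs]
    left
    omega

/-- Rays off a box which meets the line of the row. -/
theorem rays_box {c : ℤ × ℤ} {R : ℤ}
    (h : (∃ y0, (∀ v ∈ I, v.2 = y0) ∧ c.2 - R ≤ y0 ∧ y0 < c.2 + R) ∨
      (∃ x0, (∀ v ∈ I, v.1 = x0) ∧ c.1 - R ≤ x0 ∧ x0 < c.1 + R)) :
    Rays I (Bq c R : Set (ℤ × ℤ)) := rays_ico h

end rays

/-! ### the polygon of a row, base corner and direction -/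

/-- Direction of the face `b` of a row in counterclockwise order. -/
def fd (r : Row) (b : Bool) : ℤ := if r.o then (if b then 2 else 0) else (if b then 1 else 3)

/-- First corner of the face `b` in counterclockwise order. -/
def fz0 (r : Row) (b : Bool) : ℤ × ℤ :=
  if r.o then (if b then (r.x.1 + r.L, r.x.2 + 1) else r.x)
  else (if b then (r.x.1 + 1, r.x.2) else (r.x.1, r.x.2 + r.L))

/-- The polygon of the row which starts with the face `b`. -/
def rqr (r : Row) (b : Bool) : ZMod (2 * r.L + 2) → ℤ × ℤ := rq (fz0 r b) (fd r b) r.L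

/-- The number of the square at the side `k` of the face `b`. -/
def fk (r : Row) (b : Bool) (k : ℕ) : ℕ := if r.o = b then r.L - 1 - k else k

variable {r : Row} {b : Bool} {v : ℤ × ℤ} {k : ℕ}

theorem mem_rI : v ∈ r.I ↔ if r.o then (v.2 = r.x.2 ∧ r.x.1 ≤ v.1 ∧ v.1 < r.x.1 + r.L)
    else (v.1 = r.x.1 ∧ r.x.2 ≤ v.2 ∧ v.2 < r.x.2 + r.L) := by
  unfold Row.I Row.sq
  rw [mem_image]
  by_cases h : r.o = true
  · simp only [h, if_true]
    constructor
    · rintro ⟨k, hk, rfl⟩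
      rw [mem_range] at hk
      refine ⟨rfl, ?_, ?_⟩
      · show _ ≤ _ + (k : ℤ)
        omega
      · show _ + (k : ℤ) < _
        omega
    · rintro ⟨h1, h2, h3⟩
      refine ⟨(v.1 - r.x.1).toNat, by rw [mem_range]; omega, ?_⟩
      ext <;> simp only <;> omega
  · simp only [h, if_false, Bool.false_eq_true]
    constructor
    · rintro ⟨k, hk, rfl⟩
      rw [mem_range] at hk
      refine ⟨rfl, ?_, ?_⟩
      · show _ ≤ _ + (k : ℤ)
        omega
      · show _ + (k : ℤ) < _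
        omega
    · rintro ⟨h1, h2, h3⟩
      refine ⟨(v.2 - r.x.2).toNat, by rw [mem_range]; omega, ?_⟩
      ext <;> simp only <;> omega

theorem mem_rI_iff (v : ℤ × ℤ) : v ∈ r.I ↔ Lq (fz0 r b) (fd r b) v ∈ D0 r.L := by
  rw [mem_rI]
  unfold Lq D0 fz0 fd
  rw [Set.mem_ofPred_eq]
  cases hb : b <;> by_cases h : r.o = true <;>
    simp [h, dx, dy] <;> omega

theorem rqr_polygon (hL : 1 ≤ r.L) : IsPolygon (rqr r b) := rq_polygon hL (mem_rI_iff (b := b))

theorem rqr_encloses (hL : 1 ≤ r.L) : Encloses (rqr r b) r.I := rq_encloses hL (mem_rI_iff (b := b))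

theorem rqr_bd (hL : 1 ≤ r.L) : Bd (r.I : Set (ℤ × ℤ)) (2 * r.L + 2)
    (fun k => rqr r b (k : ZMod (2 * r.L + 2))) (fun k => U1 r.L k + fd r b) 1 :=
  rq_bd hL (mem_rI_iff (b := b))

theorem rqr_nat (hL : 1 ≤ r.L) (k : ℕ) :
    rqr r b (k : ZMod (2 * r.L + 2)) = Ls (fz0 r b) (fd r b) (P1 r.L k) :=
  rq_nat hL (mem_rI_iff (b := b)) k

theorem P4_rqr (hL : 1 ≤ r.L) (k : ℕ) : P4 (be (rqr r b) (k : ZMod (2 * r.L + 2))) =
    M4 (Ls (fz0 r b) (fd r b) (P1 r.L k)) (U1 r.L k + fd r b) := by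
  rw [XDL.P4_be (rqr_polygon hL) (rqr_bd hL), rqr_nat hL]

/-- The sides `k < L` of the polygon. -/
theorem be_face (hL : 1 ≤ r.L) (hk : k < r.L) :
    be (rqr r b) (k : ZMod (2 * r.L + 2)) = face r b (fk r b k) := by
  apply P4_inj
  rw [P4_rqr hL, P1_eq (by omega), U1_eq (by omega), M4_eq]
  have e1 : P0 r.L k = ((k : ℤ), 0) := by unfold P0; rw [if_pos hk.le]
  have e2 : U0 r.L k = 0 := by unfold U0; rw [if_pos hk]
  rw [e1, e2]
  unfold face fk Ls fz0 fd Row.sq
  cases hb : b <;> by_cases h : r.o = true <;>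
    simp [h, dx, dy, P4, me] <;> (try constructor) <;> omega

/-- The sides `L + 1 + k`, `k < L`, of the polygon. -/
theorem be_face' (hL : 1 ≤ r.L) (hk : k < r.L) :
    be (rqr r b) ((r.L + 1 + k : ℕ) : ZMod (2 * r.L + 2)) = face r (!b) (fk r (!b) k) := by
  apply P4_inj
  rw [P4_rqr hL, P1_eq (by omega), U1_eq (by omega), M4_eq]
  have e1 : P0 r.L (r.L + 1 + k) = ((r.L : ℤ) - k, 1) := by
    unfold P0
    rw [if_neg (by omega), if_pos (by omega)]
    ext <;> simp <;> ring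
  have e2 : U0 r.L (r.L + 1 + k) = 2 := by
    unfold U0; rw [if_neg (by omega), if_neg (by omega), if_pos (by omega)]
  rw [e1, e2]
  unfold face fk Ls fz0 fd Row.sq
  cases hb : b <;> by_cases h : r.o = true <;>
    simp [h, dx, dy, P4, me] <;> (try constructor) <;> omega

end Vale.Agent.P167.H871.Q
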