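import Vale.Agent.P167.H871.Q.Val

/-!
# P167, general `q`: the strands of a row are natural or over a special point
-/

namespace Vale.Agent.P167.H871.Q

open Finset
open Vale.Agent.P167.FK
open Vale.Agent.P167.Top
open Vale.Agent.P167.A (plane plane_sg)
open Vale.Agent.P167.E6 (IsPolygon Encloses dir)
open Vale.Agent.P167.BR (be)
open Vale.Agent.P167.XDL (bS mem_bS)
open Vale.Agent.P167.H199 (strand ret Returns mem_strand ret_min ret_le cang ah at' hb)
open Vale.Agent.P167.QX (exc mem_exc exc_last exc_disj ExtPot out_stays returns_good rS natS ClT lst wS)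
open Vale.Agent.P167.H680.T (thk)
open Vale.Agent.P167.H825.Q (Row)
open Vale.Agent.P167.H945.Q (face faces lrs SP tipL tipR jn natw relw tj)

variable {r : Row} {b : Bool} {v : ℤ × ℤ} {k : ℕ} {ω ω' : Cfg} {B : Finset (ℤ × ℤ)} {e x : Ed}
  {I : Finset (ℤ × ℤ)} {A A' : Finset Ed} {lo hi : ℕ} {θ z : ℝ} {Φ τ : ℤ × ℤ → ℝ}

/-- Strands of the cuts of `I` (outer ones). -/
structure Str (I : Finset (ℤ × ℤ)) (ω : Cfg) (e : Ed) : Prop where
  out : hdv e ∉ I
  tl : tlv e ∈ I
  rt : Returns (nx ω) (bS I) e

/-- The end edge behind the last corner of the face `b`. -/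
noncomputable def ee (r : Row) (b : Bool) : Ed := be (rqr r b) (r.L : ZMod (2 * r.L + 2))

/-- The classes of the strands which stay in a box which does not contain the end `w0 r b`. -/
inductive Cls (r : Row) (b : Bool) (B : Finset (ℤ × ℤ)) (ω : Cfg) (e : Ed) : Prop
  | same (b' : Bool) (k l : ℕ) (hk : k < r.L) (hl : l < r.L) (h1 : e = face r b' k)
      (h2 : lst r.I ω e = face r b' l) (ht : tr r.I ω e = if (k < l ↔ r.o = b') then -2 else 2)
      (hne : k ≠ l)
      (hB : ∀ m, min k l < m → m ≤ max k l → r.sq m ∈ B ∧ r.sq (m - 1) ∈ B)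
  | over (k l : ℕ) (hk : k < r.L) (hl : l < r.L) (h1 : e = face r b k)
      (h2 : lst r.I ω e = face r (!b) l) (ht : tr r.I ω e = 4) (hw : w1 r b ∈ B)
      (hB : ∀ m, 0 < m → m < r.L → ((if r.o = b then m ≤ k else k < m) ∨
        (if r.o = b then m ≤ l else l < m)) → r.sq m ∈ B ∧ r.sq (m - 1) ∈ B)
  | over' (k l : ℕ) (hk : k < r.L) (hl : l < r.L) (h1 : e = face r (!b) k)
      (h2 : lst r.I ω e = face r b l) (ht : tr r.I ω e = -4) (hw : w1 r b ∈ B)
      (hB : ∀ m, 0 < m → m < r.L → ((if r.o = b then m ≤ k else k < m) ∨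
        (if r.o = b then m ≤ l else l < m)) → r.sq m ∈ B ∧ r.sq (m - 1) ∈ B)
  | fin (h : e = ee r b ∨ lst r.I ω e = ee r b) (hB : w1 r b ∈ B)

theorem fk_lt (hk : k < r.L) : fk r b k < r.L := by unfold fk; split_ifs <;> omega

theorem fk_fk (hk : k < r.L) : fk r b (fk r b k) = k := by unfold fk; split_ifs <;> omega

/-- The squares at a site inside of a face. -/
theorem isC_face (hL : 1 ≤ r.L) {m : ℕ} (h1 : 0 < m) (h2 : m < r.L) :
    IsC (r.sq (if r.o = b then r.L - m else m)) (rqr r b (m : ZMod (2 * r.L + 2))) ∧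
    IsC (r.sq ((if r.o = b then r.L - m else m) - 1)) (rqr r b (m : ZMod (2 * r.L + 2))) := by
  rw [rqr_nat hL, P1_eq (by omega)]
  have e1 : P0 r.L m = ((m : ℤ), 0) := by unfold P0; rw [if_pos h2.le]
  rw [e1]
  unfold IsC Ls fz0 fd Row.sq
  cases hb : b <;> by_cases h : r.o = true <;> simp [h, dx, dy] <;> omega

/-- The squares at a site inside of the opposite face. -/
theorem isC_face' (hL : 1 ≤ r.L) {m : ℕ} (h1 : 0 < m) (h2 : m < r.L) :
    IsC (r.sq (if r.o = !b then r.L - m else m))
      (rqr r b ((r.L + 1 + m : ℕ) : ZMod (2 * r.L + 2))) ∧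
    IsC (r.sq ((if r.o = !b then r.L - m else m) - 1))
      (rqr r b ((r.L + 1 + m : ℕ) : ZMod (2 * r.L + 2))) := by
  rw [rqr_nat hL, P1_eq (by omega)]
  have e1 : P0 r.L (r.L + 1 + m) = ((r.L : ℤ) - m, 1) := by
    unfold P0
    rw [if_neg (by omega), if_pos (by omega)]
    ext <;> simp <;> ring
  rw [e1]
  unfold IsC Ls fz0 fd Row.sq
  cases hb : b <;> by_cases h : r.o = true <;> simp [h, dx, dy] <;> omega

/-- **Classification.** -/
theorem cls (hL : 1 ≤ r.L) (hR : Rays r.I (B : Set (ℤ × ℤ))) (h0 : w0 r b ∉ B)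
    (hs : Str r.I ω e) (hst : Stays r.I (B : Set (ℤ × ℤ)) ω e) : Cls r b B ω e := by
  obtain ⟨i, j, F, hi, hj, ht, hB⟩ := row_cls (b := b) hL hR h0 hs.out hs.tl hs.rt hst
  have hij := F.ne (rqr_polygon (r := r) (b := b) hL) (rqr_encloses hL)
  have hw1 : min i j < r.L → r.L ≤ max i j → w1 r b ∈ B := fun g1 g2 =>
    hB r.L (by omega) g1 g2 _ (isC_w1 hL)
  have hwi : i = r.L → w1 r b ∈ B := by
    intro h
    have h8 := hst 0 hs.rt.spec.1
    rw [Function.iterate_zero, id] at h8
    have h9 := F.e1
    rw [h] at h9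
    rw [outer_mid hL (b := b) (w := hdv e) ⟨Or.inl (by rw [← h9]), hs.out⟩] at h8
    exact h8
  have hwj : j = r.L → w1 r b ∈ B := by
    intro h
    have h8 := tl_last hs.rt hst
    have h9 := (exc_last hs.out hs.rt).2
    rw [F.e2, h] at h8 h9
    rw [outer_mid hL ⟨Or.inr rfl, h9⟩] at h8
    exact h8
  have hend : ∀ k l : ℕ, k < r.L → l < r.L → min i j = fk r b k →
      max i j = r.L + 1 + fk r (!b) l →
      ∀ m, 0 < m → m < r.L → ((if r.o = b then m ≤ k else k < m) ∨
        (if r.o = b then m ≤ l else l < m)) → r.sq m ∈ B ∧ r.sq (m - 1) ∈ B := by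
    intro k l hk hl g1 g2 m g3 g4 g5
    by_cases ho : r.o = b
    · have ho' : r.o ≠ !b := by rw [ho]; cases b <;> decide
      rw [if_pos ho, if_pos ho] at g5
      rw [fk, if_pos ho] at g1
      rw [fk, if_neg ho'] at g2
      rcases g5 with g5 | g5
      · have e1 := isC_face (r := r) (b := b) hL (m := r.L - m) (by omega) (by omega)
        rw [if_pos ho, Nat.sub_sub_self g4.le] at e1
        exact ⟨hB _ (by omega) (by omega) (by omega) _ e1.1,
          hB _ (by omega) (by omega) (by omega) _ e1.2⟩
      · have e1 := isC_face' (r := r) (b := b) hL (m := m) (by omega) (by omega)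
        rw [if_neg ho'] at e1
        exact ⟨hB _ (by omega) (by omega) (by omega) _ e1.1,
          hB _ (by omega) (by omega) (by omega) _ e1.2⟩
    · have ho' : r.o = !b := by cases h : r.o <;> cases h' : b <;> simp_all
      rw [if_neg ho, if_neg ho] at g5
      rw [fk, if_neg ho] at g1
      rw [fk, if_pos ho'] at g2
      rcases g5 with g5 | g5
      · have e1 := isC_face (r := r) (b := b) hL (m := m) (by omega) (by omega)
        rw [if_neg ho] at e1
        exact ⟨hB _ (by omega) (by omega) (by omega) _ e1.1,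
          hB _ (by omega) (by omega) (by omega) _ e1.2⟩
      · have e1 := isC_face' (r := r) (b := b) hL (m := r.L - m) (by omega) (by omega)
        rw [if_pos ho', Nat.sub_sub_self g4.le] at e1
        exact ⟨hB _ (by omega) (by omega) (by omega) _ e1.1,
          hB _ (by omega) (by omega) (by omega) _ e1.2⟩
  rcases lt_trichotomy i r.L with h1 | h1 | h1
  · rcases lt_trichotomy j r.L with h2 | h2 | h2
    · -- both feet on the face `b`
      rw [U1_lt h1, U1_lt h2] at ht
      refine Cls.same b (fk r b i) (fk r b j) (fk_lt h1) (fk_lt h2)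
        (F.e1.trans (be_face hL h1)) (F.e2.trans (be_face hL h2)) ?_ ?_ ?_
      · rw [ht]
        unfold fk
        by_cases ho : r.o = b
        · rw [if_pos ho, if_pos ho]
          by_cases hlt : i < j
          · rw [if_pos hlt, if_neg (fun h => by have := h.2 ho; omega)]; norm_num
          · rw [if_neg hlt, if_pos ⟨fun _ => ho, fun _ => by omega⟩]; norm_num
        · rw [if_neg ho, if_neg ho]
          by_cases hlt : i < j
          · rw [if_pos hlt, if_neg (fun h => ho (h.1 hlt))]; norm_num
          · rw [if_neg hlt, if_pos ⟨fun h => absurd h hlt, fun h => absurd h ho⟩]; norm_num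
      · unfold fk; split_ifs <;> omega
      · intro m g1 g2
        have g3 : 0 < m := by omega
        have g4 : m < r.L := by
          have := fk_lt (b := b) h1
          have := fk_lt (b := b) h2
          omega
        by_cases ho : r.o = b
        · have e1 := isC_face (r := r) (b := b) hL (m := r.L - m) (by omega) (by omega)
          rw [if_pos ho, Nat.sub_sub_self g4.le] at e1
          unfold fk at g1 g2
          rw [if_pos ho, if_pos ho] at g1 g2
          exact ⟨hB _ (by omega) (by omega) (by omega) _ e1.1,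
            hB _ (by omega) (by omega) (by omega) _ e1.2⟩
        · have e1 := isC_face (r := r) (b := b) hL (m := m) (by omega) (by omega)
          rw [if_neg ho] at e1
          unfold fk at g1 g2
          rw [if_neg ho, if_neg ho] at g1 g2
          exact ⟨hB _ (by omega) (by omega) (by omega) _ e1.1,
            hB _ (by omega) (by omega) (by omega) _ e1.2⟩
    · exact Cls.fin (Or.inr (by rw [lst, F.e2, h2]; rfl)) (hwj h2)
    · obtain ⟨l, rfl⟩ : ∃ l, j = r.L + 1 + l := ⟨j - (r.L + 1), by omega⟩
      rw [U1_lt h1, U1_gt (by omega) hj, if_pos (by omega)] at ht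
      exact Cls.over (fk r b i) (fk r (!b) l) (fk_lt h1) (fk_lt (by omega))
        (F.e1.trans (be_face hL h1)) (F.e2.trans (be_face' hL (by omega))) (by rw [ht]; norm_num)
        (hw1 (by omega) (by omega)) (hend _ _ (fk_lt h1) (fk_lt (by omega))
          (by rw [fk_fk h1]; omega) (by rw [fk_fk (by omega)]; omega))
  · refine Cls.fin (Or.inl ?_) (hwi h1)
    rw [F.e1, h1]; rfl
  · obtain ⟨k, rfl⟩ : ∃ k, i = r.L + 1 + k := ⟨i - (r.L + 1), by omega⟩
    rcases lt_trichotomy j r.L with h2 | h2 | h2
    · rw [U1_lt h2, U1_gt (by omega) hi, if_neg (by omega)] at ht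
      exact Cls.over' (fk r (!b) k) (fk r b j) (fk_lt (by omega)) (fk_lt h2)
        (F.e1.trans (be_face' hL (by omega))) (F.e2.trans (be_face hL h2)) (by rw [ht]; norm_num)
        (hw1 (by omega) (by omega)) (fun m g1 g2 g3 => hend _ _ (fk_lt h2) (fk_lt (by omega))
          (by rw [fk_fk h2]; omega) (by rw [fk_fk (by omega)]; omega) m g1 g2 g3.symm)
    · exact Cls.fin (Or.inr (by rw [lst, F.e2, h2]; rfl)) (hwj h2)
    · obtain ⟨l, rfl⟩ : ∃ l, j = r.L + 1 + l := ⟨j - (r.L + 1), by omega⟩
      have hk : k < r.L := by omega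
      have hl : l < r.L := by omega
      rw [U1_gt (by omega) hi, U1_gt (by omega) hj] at ht
      refine Cls.same (!b) (fk r (!b) k) (fk r (!b) l) (fk_lt hk) (fk_lt hl)
        (F.e1.trans (be_face' hL hk)) (F.e2.trans (be_face' hL hl)) ?_ ?_ ?_
      · rw [ht]
        unfold fk
        by_cases ho : r.o = !b
        · rw [if_pos ho, if_pos ho]
          by_cases hlt : k < l
          · rw [if_pos (by omega), if_neg (fun h => by have := h.2 ho; omega)]; norm_num
          · rw [if_neg (by omega), if_pos ⟨fun _ => ho, fun _ => by omega⟩]; norm_num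
        · rw [if_neg ho, if_neg ho]
          by_cases hlt : k < l
          · rw [if_pos (by omega), if_neg (fun h => ho (h.1 hlt))]; norm_num
          · rw [if_neg (by omega), if_pos ⟨fun h => absurd h hlt, fun h => absurd h ho⟩]; norm_num
      · unfold fk; split_ifs <;> omega
      · intro m g1 g2
        have g3 : 0 < m := by omega
        have g4 : m < r.L := by
          have := fk_lt (b := !b) hk
          have := fk_lt (b := !b) hl
          omega
        by_cases ho : r.o = !b
        · have e1 := isC_face' (r := r) (b := b) hL (m := r.L - m) (by omega) (by omega)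
          rw [if_pos ho, Nat.sub_sub_self g4.le] at e1
          unfold fk at g1 g2
          rw [if_pos ho, if_pos ho] at g1 g2
          exact ⟨hB _ (by omega) (by omega) (by omega) _ e1.1,
            hB _ (by omega) (by omega) (by omega) _ e1.2⟩
        · have e1 := isC_face' (r := r) (b := b) hL (m := m) (by omega) (by omega)
          rw [if_neg ho] at e1
          unfold fk at g1 g2
          rw [if_neg ho, if_neg ho] at g1 g2
          exact ⟨hB _ (by omega) (by omega) (by omega) _ e1.1,
            hB _ (by omega) (by omega) (by omega) _ e1.2⟩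

end Vale.Agent.P167.H871.Q
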