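import Vale.Agent.P167.H871.Q.ValB

/-!
# P167, general `q`: the relative weights of the strands of a row

`B` is a box (`Rays`). A strand which stays in `B` has relative weight `1` unless it goes over a special
point in `B` or has a foot on an end side.
-/

namespace Vale.Agent.P167.H871.Q

open Finset
open Vale.Agent.P167.FK
open Vale.Agent.P167.Top
open Vale.Agent.P167.A (plane plane_sg)
open Vale.Agent.P167.E6 (IsPolygon Encloses dir)
open Vale.Agent.P167.BR (be)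
open Vale.Agent.P167.XDL (bS mem_bS)
open Vale.Agent.P167.H199 (strand ret Returns mem_strand ret_min ret_le)
open Vale.Agent.P167.QX (exc mem_exc exc_last exc_disj ExtPot out_stays returns_good rS natS ClT lst wS)
open Vale.Agent.P167.H825.Q (Row)
open Vale.Agent.P167.H945.Q (face faces lrs SP tipL tipR jn natw relw tj Plain)

variable {r : Row} {b b' b'' : Bool} {v : ℤ × ℤ} {k l : ℕ} {ω ω' : Cfg} {B : Finset (ℤ × ℤ)}
  {e x : Ed} {I : Finset (ℤ × ℤ)} {A A' : Finset Ed} {lo hi : ℕ} {θ z : ℝ}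

/-- The colours of a row are `± 1` and `ω` has them. -/
structure Frz (r : Row) (ω : Cfg) : Prop where
  s : r.s = 1 ∨ r.s = -1
  η : r.η = 1 ∨ r.η = -1
  fr : ∀ v ∈ r.I, ω v = r.fr v

theorem Frz.of_ok {κ : ℝ} {n : ℕ} (h : r.Ok θ κ n) (hf : ∀ v ∈ r.I, ω v = r.fr v) : Frz r ω :=
  ⟨h.s, by
    rcases h.kind with ⟨-, h⟩ | ⟨⟨-, h⟩ | ⟨-, h⟩, -⟩
    · exact Or.inl h
    · exact Or.inr h
    · exact Or.inl h, hf⟩

theorem Frz.col (h : Frz r ω) (v : ℤ × ℤ) : r.τ v = 1 ∨ r.τ v = -1 := by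
  unfold Row.τ
  rcases h.s with h1 | h1 <;> rcases h.η with h2 | h2 <;> rw [h1, h2] <;> split_ifs <;> norm_num

theorem Frz.hf (h : Frz r ω) : ∀ v ∈ r.I, (r.τ v = 1 ∧ ω v = false) ∨ (r.τ v = -1 ∧ ω v = true) := by
  intro v hv
  have h1 := h.fr v hv
  rcases h.col v with h2 | h2
  · left
    refine ⟨h2, ?_⟩
    rw [h1, Row.fr, h2]
    norm_num
  · right
    refine ⟨h2, ?_⟩
    rw [h1, Row.fr, h2]
    simp

theorem mem_lrs' : e ∈ lrs I A A' B ω ↔ e ∈ A ∧ Str I ω e ∧ lst I ω e ∈ A' ∧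
    Stays I (B : Set (ℤ × ℤ)) ω e := by
  rw [mem_lrs, ← stays_iff, mem_bS]
  constructor
  · rintro ⟨h1, h2, h3, h4, h5, h6⟩
    exact ⟨h1, ⟨h3, (h2.resolve_left fun h => h3 h.1).2, h4⟩, h5, h6⟩
  · rintro ⟨h1, ⟨h2, h3, h4⟩, h5, h6⟩
    exact ⟨h1, Or.inr ⟨h2, h3⟩, h2, h4, h5, h6⟩

theorem Str.mem (h : Str I ω e) : e ∈ bS I := mem_bS.2 (Or.inr ⟨h.out, h.tl⟩)

/-- The relative weight in terms of the feet. -/
theorem rS_face (hθ : 0 < Real.sin θ) (hL : 1 ≤ r.L) (hR : Rays r.I (B : Set (ℤ × ℤ)))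
    (h0 : w0 r b ∉ B) (hf : Frz r ω) (hs : Str r.I ω e) (hst : Stays r.I (B : Set (ℤ × ℤ)) ω e)
    (h1 : e = face r b' k) (h2 : lst r.I ω e = face r b'' l) :
    rS θ r.I (r.wall θ z).a ω e = relw θ (tr r.I ω e)
      (r.Φ (r.sq k) - r.Φ (r.sq l)) (r.τ (r.sq k)) (r.τ (r.sq l)) := by
  have h3 := rS_eq (z := z) (Φ := r.Φ) (τ := r.τ) hθ hL hR h0 hf.hf hs.out hs.tl hs.rt hst
  have h4 := exc_last hs.out hs.rt
  have e1 : tlv e = r.sq k := face_sq (b := b') (Or.inr (by rw [← h1])) hs.tl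
  have e2 : hdv (lst r.I ω e) = r.sq l := face_sq (b := b'') (Or.inl (by rw [← h2])) h4.1
  rw [e1, e2] at h3
  exact h3

theorem relw_symm (t d s s' : ℝ) : relw θ t d s s' = relw θ t d s' s := by
  unfold relw natw
  rw [add_comm s s']
  congr 1
  by_cases h : s = s' ∧ 0 < s * t
  · obtain ⟨rfl, h'⟩ := h
    rfl
  · rw [if_neg h, if_neg]
    rintro ⟨rfl, h'⟩
    exact h ⟨rfl, h'⟩

/-- The squares `k` and `l` are on the same side of the junction. -/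
theorem side_eq (h : Plain r ∨ (k < r.k0 ↔ l < r.k0)) : r.Φ (r.sq k) = r.Φ (r.sq l) ∧
    r.τ (r.sq k) = r.τ (r.sq l) := by
  rw [Row.Φ_sq, Row.Φ_sq, Row.τ_sq, Row.τ_sq]
  rcases h with ⟨h1, h2⟩ | h
  · rw [h1, h2, ite_self, ite_self, ite_self, ite_self]
    exact ⟨rfl, rfl⟩
  by_cases h1 : r.k0 ≤ k
  · have h2 : r.k0 ≤ l := by omega
    rw [if_pos h1, if_pos h2, if_pos h1, if_pos h2]
    exact ⟨rfl, rfl⟩
  · have h2 : ¬ r.k0 ≤ l := by omega
    rw [if_neg h1, if_neg h2, if_neg h1, if_neg h2]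
    exact ⟨rfl, rfl⟩

theorem mem_faces (h : lo ≤ k) (h' : k < hi) : face r b k ∈ faces r b lo hi :=
  mem_image_of_mem _ (mem_Ico.2 ⟨h, h'⟩)

theorem two_or {P : Prop} [Decidable P] : ((if P then (-2 : ℤ) else 2 : ℤ) : ℝ) = 2 ∨
    ((if P then (-2 : ℤ) else 2 : ℤ) : ℝ) = -2 := by
  split_ifs
  · right; norm_num
  · left; norm_num

/-- A strand between two squares of a face on the same side of the junction is natural. -/
theorem val_same (hθ : 0 < Real.sin θ) (hθ2 : Real.sin θ ≤ Real.sin (2 * θ)) (hL : 1 ≤ r.L)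
    (hR : Rays r.I (B : Set (ℤ × ℤ))) (h0 : w0 r b ∉ B) (hf : Frz r ω) (hs : Str r.I ω e)
    (hst : Stays r.I (B : Set (ℤ × ℤ)) ω e) (h1 : e = face r b' k)
    (h2 : lst r.I ω e = face r b' l) (ht : tr r.I ω e = if (k < l ↔ r.o = b') then -2 else 2)
    (h : Plain r ∨ (k < r.k0 ↔ l < r.k0)) : rS θ r.I (r.wall θ z).a ω e = 1 := by
  rw [rS_face hθ hL hR h0 hf hs hst h1 h2]
  obtain ⟨e1, e2⟩ := side_eq (r := r) h
  rw [e1, sub_self, e2, ht]
  exact relw_nat hθ (hθ.trans_le hθ2) (hf.col _) two_or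

/-- **Strands over a junction.** -/
theorem val_jn (hθ : 0 < Real.sin θ) (hL : 1 ≤ r.L) (hR : Rays r.I (B : Set (ℤ × ℤ)))
    (h0 : w0 r b ∉ B) (hf : Frz r ω) (hs : Str r.I ω e) (hst : Stays r.I (B : Set (ℤ × ℤ)) ω e)
    (h1 : e = face r b' k) (h2 : lst r.I ω e = face r b' l)
    (ht : tr r.I ω e = if (k < l ↔ r.o = b') then -2 else 2) :
    (k < r.k0 → r.k0 ≤ l → rS θ r.I (r.wall θ z).a ω e = (jn θ r b').w) ∧
      (r.k0 ≤ k → l < r.k0 → rS θ r.I (r.wall θ z).a ω e = (jn θ r b').w') := by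
  have h3 := rS_face (z := z) hθ hL hR h0 hf hs hst h1 h2
  constructor
  · intro g1 g2
    rw [h3, Row.Φ_sq, Row.Φ_sq, Row.τ_sq, Row.τ_sq, if_neg (by omega), if_pos g2, if_neg (by omega),
      if_pos g2, ht]
    show _ = relw θ (tj r b') (-r.j) r.s (r.s * r.η)
    rw [mul_one]
    congr 1
    · unfold tj
      by_cases ho : r.o = b'
      · rw [if_pos ho, if_pos (iff_of_true (by omega) ho)]; norm_num
      · rw [if_neg ho, if_neg (fun h => ho (h.1 (by omega)))]; norm_num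
    · ring
  · intro g1 g2
    rw [h3, Row.Φ_sq, Row.Φ_sq, Row.τ_sq, Row.τ_sq, if_pos g1, if_neg (by omega), if_pos g1,
      if_neg (by omega), ht, relw_symm]
    show _ = relw θ (-tj r b') r.j r.s (r.s * r.η)
    rw [mul_one]
    congr 1
    · unfold tj
      by_cases ho : r.o = b'
      · rw [if_pos ho, if_neg (fun h => by have := h.2 ho; omega)]; norm_num
      · rw [if_neg ho, if_pos (iff_of_false (by omega) ho)]; norm_num
    · ring

/-- The square at the end behind the last corner of the face `b`. -/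
def te (r : Row) (b : Bool) : ℕ := if r.o = b then 0 else r.L - 1

/-- **Strands over an end.** The box does not see the junction. -/
theorem val_tip (hθ : 0 < Real.sin θ) (hL : 1 ≤ r.L) (hR : Rays r.I (B : Set (ℤ × ℤ)))
    (h0 : w0 r b ∉ B) (hf : Frz r ω) (hs : Str r.I ω e) (hst : Stays r.I (B : Set (ℤ × ℤ)) ω e)
    (hfar : Plain r ∨ (0 < r.k0 → r.k0 < r.L → ¬ (r.sq r.k0 ∈ B ∧ r.sq (r.k0 - 1) ∈ B)))
    (hk : k < r.L)
    (hl : l < r.L) (h1 : e = face r b' k) (h2 : lst r.I ω e = face r b'' l)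
    (hB : ∀ m, 0 < m → m < r.L → ((if r.o = b then m ≤ k else k < m) ∨
        (if r.o = b then m ≤ l else l < m)) → r.sq m ∈ B ∧ r.sq (m - 1) ∈ B) :
    rS θ r.I (r.wall θ z).a ω e =
      relw θ (tr r.I ω e) 0 (r.τ (r.sq (te r b))) (r.τ (r.sq (te r b))) := by
  rw [rS_face (z := z) hθ hL hR h0 hf hs hst h1 h2]
  have key : (Plain r ∨ (k < r.k0 ↔ te r b < r.k0)) ∧ (Plain r ∨ (l < r.k0 ↔ te r b < r.k0)) := by
    rcases hfar with hp | hfar
    · exact ⟨Or.inl hp, Or.inl hp⟩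
    suffices h : (k < r.k0 ↔ te r b < r.k0) ∧ (l < r.k0 ↔ te r b < r.k0) from
      ⟨Or.inr h.1, Or.inr h.2⟩
    unfold te
    by_cases hk0 : 0 < r.k0 ∧ r.k0 < r.L
    · have h3 := hB r.k0 hk0.1 hk0.2
      have h4 := hfar hk0.1 hk0.2
      by_cases ho : r.o = b
      · rw [if_pos ho, if_pos ho] at h3
        rw [if_pos ho]
        have g1 : ¬ r.k0 ≤ k := fun h => h4 (h3 (Or.inl h))
        have g2 : ¬ r.k0 ≤ l := fun h => h4 (h3 (Or.inr h))
        omega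
      · rw [if_neg ho, if_neg ho] at h3
        rw [if_neg ho]
        have g1 : ¬ k < r.k0 := fun h => h4 (h3 (Or.inl h))
        have g2 : ¬ l < r.k0 := fun h => h4 (h3 (Or.inr h))
        omega
    · split_ifs <;> omega
  obtain ⟨e1, e2⟩ := side_eq (r := r) key.1
  obtain ⟨e3, e4⟩ := side_eq (r := r) key.2
  rw [e1, e2, e3, e4, sub_self]

/-! ### the values near an end and near a junction -/

/-- **The strands which stay in a box around an end** (`b = !r.o`: right end, `b = r.o`: left end). -/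
theorem tip_cases (hθ : 0 < Real.sin θ) (hθ2 : Real.sin θ ≤ Real.sin (2 * θ)) (hL : 1 ≤ r.L)
    (hR : Rays r.I (B : Set (ℤ × ℤ))) (h0 : w0 r b ∉ B)
    (hfar : Plain r ∨ (0 < r.k0 → r.k0 < r.L → ¬ (r.sq r.k0 ∈ B ∧ r.sq (r.k0 - 1) ∈ B)))
    (hf : Frz r ω) (hs : Str r.I ω e) (hst : Stays r.I (B : Set (ℤ × ℤ)) ω e) :
    (e ∈ lrs r.I (faces r b 0 r.L) (faces r (!b) 0 r.L) B ω ∧
      rS θ r.I (r.wall θ z).a ω e = relw θ 4 0 (r.τ (r.sq (te r b))) (r.τ (r.sq (te r b))) ∧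
      w1 r b ∈ B) ∨
    (e ∈ lrs r.I (faces r (!b) 0 r.L) (faces r b 0 r.L) B ω ∧
      rS θ r.I (r.wall θ z).a ω e = relw θ (-4) 0 (r.τ (r.sq (te r b))) (r.τ (r.sq (te r b))) ∧
      w1 r b ∈ B) ∨
    (rS θ r.I (r.wall θ z).a ω e = 1 ∧ ∃ b', e ∈ faces r b' 0 r.L ∧
      lst r.I ω e ∈ faces r b' 0 r.L) ∨
    ((e = ee r b ∨ lst r.I ω e = ee r b) ∧ w1 r b ∈ B) := by
  rcases cls hL hR h0 hs hst with ⟨b', k, l, hk, hl, h1, h2, ht, hne, hB⟩ |
    ⟨k, l, hk, hl, h1, h2, ht, hw, hB⟩ | ⟨k, l, hk, hl, h1, h2, ht, hw, hB⟩ | ⟨h, hB⟩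
  · right; right; left
    refine ⟨val_same hθ hθ2 hL hR h0 hf hs hst h1 h2 ht ?_, b', ?_, ?_⟩
    · rcases hfar with hp | hfar
      · exact Or.inl hp
      right
      by_contra hk0
      have h3 := hB r.k0 (by omega) (by omega)
      exact hfar (by omega) (by omega) h3
    · rw [h1]; exact mem_faces (Nat.zero_le _) hk
    · rw [h2]; exact mem_faces (Nat.zero_le _) hl
  · left
    refine ⟨mem_lrs'.2 ⟨by rw [h1]; exact mem_faces (Nat.zero_le _) hk, hs, by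
      rw [h2]; exact mem_faces (Nat.zero_le _) hl, hst⟩, ?_, hw⟩
    rw [val_tip (z := z) hθ hL hR h0 hf hs hst hfar hk hl h1 h2 hB, ht]
    norm_num
  · right; left
    refine ⟨mem_lrs'.2 ⟨by rw [h1]; exact mem_faces (Nat.zero_le _) hk, hs, by
      rw [h2]; exact mem_faces (Nat.zero_le _) hl, hst⟩, ?_, hw⟩
    rw [val_tip (z := z) hθ hL hR h0 hf hs hst hfar hk hl h1 h2 hB, ht]
    norm_num
  · right; right; right
    exact ⟨h, hB⟩

/-- **The strands which stay in a box which contains no end.** -/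
theorem jn_cases (hθ : 0 < Real.sin θ) (hθ2 : Real.sin θ ≤ Real.sin (2 * θ)) (hL : 1 ≤ r.L)
    (hR : Rays r.I (B : Set (ℤ × ℤ))) (h0 : w0 r b ∉ B) (h1 : w1 r b ∉ B)
    (hf : Frz r ω) (hs : Str r.I ω e) (hst : Stays r.I (B : Set (ℤ × ℤ)) ω e) :
    ∃ b', e ∈ faces r b' 0 r.L ∧ lst r.I ω e ∈ faces r b' 0 r.L ∧
    ((e ∈ lrs r.I (faces r b' 0 r.k0) (faces r b' r.k0 r.L) B ω ∧
      rS θ r.I (r.wall θ z).a ω e = (jn θ r b').w ∧ r.sq r.k0 ∈ B ∧ r.sq (r.k0 - 1) ∈ B) ∨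
    (e ∈ lrs r.I (faces r b' r.k0 r.L) (faces r b' 0 r.k0) B ω ∧
      rS θ r.I (r.wall θ z).a ω e = (jn θ r b').w' ∧ r.sq r.k0 ∈ B ∧ r.sq (r.k0 - 1) ∈ B) ∨
    (rS θ r.I (r.wall θ z).a ω e = 1 ∧
      e ∉ lrs r.I (faces r b' 0 r.k0) (faces r b' r.k0 r.L) B ω ∧
      e ∉ lrs r.I (faces r b' r.k0 r.L) (faces r b' 0 r.k0) B ω)) := by
  rcases cls hL hR h0 hs hst with ⟨b', k, l, hk, hl, g1, g2, ht, hne, hB⟩ |
    ⟨k, l, hk, hl, g1, g2, ht, hw, hB⟩ | ⟨k, l, hk, hl, g1, g2, ht, hw, hB⟩ | ⟨h, hB⟩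
  · refine ⟨b', by rw [g1]; exact mem_faces (Nat.zero_le _) hk, by
      rw [g2]; exact mem_faces (Nat.zero_le _) hl, ?_⟩
    obtain ⟨v1, v2⟩ := val_jn (z := z) hθ hL hR h0 hf hs hst g1 g2 ht
    by_cases c1 : k < r.k0 ∧ r.k0 ≤ l
    · left
      obtain ⟨c2, c3⟩ := hB r.k0 (by omega) (by omega)
      exact ⟨mem_lrs'.2 ⟨by rw [g1]; exact mem_faces (Nat.zero_le _) c1.1, hs, by
        rw [g2]; exact mem_faces c1.2 hl, hst⟩, v1 c1.1 c1.2, c2, c3⟩
    by_cases c2 : r.k0 ≤ k ∧ l < r.k0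
    · right; left
      obtain ⟨c3, c4⟩ := hB r.k0 (by omega) (by omega)
      exact ⟨mem_lrs'.2 ⟨by rw [g1]; exact mem_faces c2.1 hk, hs, by
        rw [g2]; exact mem_faces (Nat.zero_le _) c2.2, hst⟩, v2 c2.1 c2.2, c3, c4⟩
    right; right
    have idx : ∀ {m lo hi : ℕ}, m < r.L → hi ≤ r.L → face r b' m ∈ faces r b' lo hi →
        lo ≤ m ∧ m < hi := by
      intro m lo hi hm hh h
      have h3 := be_face (r := r) (b := b') hL (fk_lt (b := b') hm)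
      rw [fk_fk hm] at h3
      rw [← h3] at h
      have h4 := idx_face hL (by have := fk_lt (b := b') hm; omega) h hh
      rw [fk_fk hm] at h4
      exact h4.2
    refine ⟨val_same hθ hθ2 hL hR h0 hf hs hst g1 g2 ht (Or.inr (by omega)), fun h => ?_,
      fun h => ?_⟩
    · obtain ⟨h3, -, h4, -⟩ := mem_lrs'.1 h
      rw [g1] at h3
      rw [g2] at h4
      have h5 := idx hl le_rfl h4
      by_cases hk0 : r.k0 ≤ r.L
      · have h6 := idx hk hk0 h3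
        omega
      · omega
    · obtain ⟨h3, -, h4, -⟩ := mem_lrs'.1 h
      rw [g1] at h3
      rw [g2] at h4
      have h5 := idx hk le_rfl h3
      by_cases hk0 : r.k0 ≤ r.L
      · have h6 := idx hl hk0 h4
        omega
      · omega
  · exact absurd hw h1
  · exact absurd hw h1
  · exact absurd hB h1

/-! ### small strands -/

theorem near_line (hs : Str r.I ω e) : if r.o then |(hdv e).2 - r.x.2| ≤ 1 else
    |(hdv e).1 - r.x.1| ≤ 1 := by
  have h1 := near_hd e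
  have h2 := hs.tl
  rw [mem_rI] at h2
  unfold nm at h1
  simp only [Prod.fst_sub, Prod.snd_sub] at h1
  by_cases ho : r.o = true
  · rw [if_pos ho] at h2 ⊢
    rw [← h2.1]
    exact (le_max_right _ _).trans h1
  · rw [if_neg ho] at h2 ⊢
    rw [← h2.1]
    exact (le_max_left _ _).trans h1

theorem rays_small {δ : ℤ} (hδ : 2 ≤ δ) (hs : Str r.I ω e) :
    Rays r.I (Bq (hdv e) δ : Set (ℤ × ℤ)) := by
  have h := near_line hs
  refine rays_row ?_
  by_cases ho : r.o = true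
  · rw [if_pos ho] at h ⊢
    rw [abs_le] at h
    constructor <;> omega
  · rw [if_neg ho] at h ⊢
    rw [abs_le] at h
    constructor <;> omega

theorem nm_Bq {c u v : ℤ × ℤ} {δ : ℤ} (hu : u ∈ Bq c δ) (hv : v ∈ Bq c δ) : nm (v - u) ≤ 2 * δ := by
  rw [Bq, mem_product, mem_Ico, mem_Ico] at hu hv
  unfold nm
  simp only [Prod.fst_sub, Prod.snd_sub]
  rw [max_le_iff, abs_le, abs_le]
  omega

/-- **A small strand which does not stay in one of the boxes around the special points is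
natural.** -/
theorem small_nat (hθ : 0 < Real.sin θ) (hθ2 : Real.sin θ ≤ Real.sin (2 * θ)) (hL : 1 ≤ r.L)
    {δ : ℤ} (hδ : 2 ≤ δ) {TL TR TJ : Finset (ℤ × ℤ)}
    (hTL : ∀ v, nm (v - sqm r (-1)) ≤ 2 * δ → v ∈ TL)
    (hTR : ∀ v, nm (v - sqm r r.L) ≤ 2 * δ → v ∈ TR)
    (hTJ : ¬ Plain r → ∀ v, nm (v - r.sq r.k0) ≤ 2 * δ → v ∈ TJ)
    (hf : Frz r ω) (hs : Str r.I ω e) (hst : Stays r.I (Bq (hdv e) δ : Set (ℤ × ℤ)) ω e)
    (h1 : ¬ Stays r.I (TL : Set (ℤ × ℤ)) ω e) (h2 : ¬ Stays r.I (TR : Set (ℤ × ℤ)) ω e)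
    (h3 : ¬ Plain r → ¬ Stays r.I (TJ : Set (ℤ × ℤ)) ω e) : rS θ r.I (r.wall θ z).a ω e = 1 := by
  have hR := rays_small hδ hs
  have hmv : ∀ {u : ℤ × ℤ} {T : Finset (ℤ × ℤ)}, (∀ v, nm (v - u) ≤ 2 * δ → v ∈ T) →
      u ∈ Bq (hdv e) δ → Stays r.I (T : Set (ℤ × ℤ)) ω e := fun hT hu k hk =>
    hT _ (nm_Bq hu (hst k hk))
  have hnL : sqm r (-1) ∉ Bq (hdv e) δ := fun h => h1 (hmv hTL h)
  have hnR : sqm r r.L ∉ Bq (hdv e) δ := fun h => h2 (hmv hTR h)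
  have hw : ∀ b, w0 r b ∉ Bq (hdv e) δ ∧ w1 r b ∉ Bq (hdv e) δ := by
    intro b
    unfold w0 w1
    by_cases ho : r.o = b
    · rw [if_pos ho, if_pos ho]; exact ⟨hnR, hnL⟩
    · rw [if_neg ho, if_neg ho]; exact ⟨hnL, hnR⟩
  rcases cls hL hR (hw true).1 hs hst with ⟨b', k, l, hk, hl, g1, g2, ht, hne, hB⟩ |
    ⟨k, l, hk, hl, g1, g2, ht, hw', hB⟩ | ⟨k, l, hk, hl, g1, g2, ht, hw', hB⟩ | ⟨h, hB⟩
  · refine val_same hθ hθ2 hL hR (hw true).1 hf hs hst g1 g2 ht ?_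
    by_cases hp : Plain r
    · exact Or.inl hp
    · right
      by_contra hk0
      have h4 := hB r.k0 (by omega) (by omega)
      exact h3 hp (hmv (hTJ hp) h4.1)
  · exact absurd hw' (hw true).2
  · exact absurd hw' (hw true).2
  · exact absurd hB (hw true).2

end Vale.Agent.P167.H871.Q
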