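import Vale.Agent.P167.H871.Q.ValC

/-!
# P167, general `q`: products of the relative weights of the strands of a row
-/

namespace Vale.Agent.P167.H871.Q

open Finset
open Vale.Agent.P167.FK
open Vale.Agent.P167.Top
open Vale.Agent.P167.A (plane plane_sg)
open Vale.Agent.P167.E6 (IsPolygon Encloses dir)
open Vale.Agent.P167.BR (be)
open Vale.Agent.P167.XDL (bS mem_bS)
open Vale.Agent.P167.H199 (strand ret Returns mem_strand ret_min ret_le)
open Vale.Agent.P167.QX (exc mem_exc exc_last exc_disj ExtPot out_stays returns_good rS natS ClT lst wS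
  rS_nonneg)
open Vale.Agent.P167.H825.Q (Row)
open Vale.Agent.P167.H945.Q (face faces lrs SP tipL tipR jn natw relw tj Plain)

variable {r : Row} {b b' b'' : Bool} {v : ℤ × ℤ} {k l : ℕ} {ω ω' : Cfg} {B : Finset (ℤ × ℤ)}
  {e e' x : Ed} {I : Finset (ℤ × ℤ)} {A A' : Finset Ed} {lo hi lo' hi' : ℕ} {θ z : ℝ}

theorem face_inj (h : face r b k = face r b' l) : b = b' ∧ k = l := by
  unfold face Row.sq at h
  by_cases ho : r.o = true
  · rw [if_pos ho, if_pos ho] at h
    cases b <;> cases b' <;> simp [ho] at h ⊢ <;> omega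
  · rw [if_neg ho, if_neg ho] at h
    cases b <;> cases b' <;> simp [ho] at h ⊢ <;> omega

theorem faces_disj (h : b ≠ b' ∨ hi ≤ lo' ∨ hi' ≤ lo) (h1 : e ∈ faces r b lo hi) :
    e ∉ faces r b' lo' hi' := by
  intro h2
  unfold faces at h1 h2
  obtain ⟨k, hk, rfl⟩ := mem_image.1 h1
  obtain ⟨l, hl, h3⟩ := mem_image.1 h2
  rw [mem_Ico] at hk hl
  obtain ⟨h4, h5⟩ := face_inj h3
  rcases h with h | h | h
  · exact h h4.symm
  · omega
  · omega

/-- At most one strand has a foot on a given end side. -/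
theorem end_unique (hs : Str I ω e) (hs' : Str I ω e') {y : Ed} (h : e = y ∨ lst I ω e = y)
    (h' : e' = y ∨ lst I ω e' = y) : e = e' := by
  have key : ∀ {e e' : Ed}, Str I ω e → Str I ω e' → e = y → lst I ω e' = y → False := by
    intro e e' hs hs' h h'
    have h1 := (exc_last hs'.out hs'.rt).1
    have h2 := hs.out
    rw [h, ← h'] at h2
    exact h2 h1
  rcases h with h | h <;> rcases h' with h' | h'
  · exact h.trans h'.symm
  · exact (key hs hs' h h').elim
  · exact (key hs' hs h' h).elim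
  · by_contra hne
    have h3 := exc_disj hs.out hs.tl hs.rt hs'.out hs'.tl hs'.rt hne
      (mem_exc.2 ⟨_, le_rfl, rfl⟩ : lst I ω e ∈ exc I ω e)
    rw [h, ← h'] at h3
    exact h3 (mem_exc.2 ⟨_, le_rfl, rfl⟩)

/-- A product with two exceptional sets. -/
theorem prod_two {s P D : Finset Ed} {f : Ed → ℝ} {w w' : ℝ} (hP : P ⊆ s) (hD : D ⊆ s)
    (hPD : Disjoint P D) (fP : ∀ e ∈ P, f e = w) (fD : ∀ e ∈ D, f e = w') :
    ∏ e ∈ s, f e = w ^ P.card * w' ^ D.card * ∏ e ∈ s \ (P ∪ D), f e := by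
  rw [← prod_sdiff (union_subset hP hD), prod_union hPD, prod_congr rfl fP, prod_congr rfl fD,
    prod_const, prod_const]
  ring

/-- A product with at most one exceptional factor. -/
theorem prod_one {s : Finset Ed} {f : Ed → ℝ} {p : Ed → Prop} {C : ℝ} (hC : 1 ≤ C)
    (h1 : ∀ e ∈ s, ¬ p e → f e = 1) (h2 : ∀ e ∈ s, f e ≤ C)
    (hu : ∀ e ∈ s, ∀ e' ∈ s, p e → p e' → e = e') : ∏ e ∈ s, f e ≤ C := by
  classical
  by_cases h : ∃ e ∈ s, p e
  · obtain ⟨e, he, hp⟩ := h
    rw [← mul_prod_erase s f he, prod_eq_one, mul_one]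
    · exact h2 e he
    · intro e' he'
      obtain ⟨h3, h4⟩ := mem_erase.1 he'
      exact h1 e' h4 fun h5 => h3 (hu e' h4 e he h5 hp)
  · push Not at h
    rw [prod_eq_one fun e he => h1 e he (h e he)]
    exact hC

theorem one_le_inv (hθ : 0 < Real.sin θ) : 1 ≤ 1 / Real.sin θ := by
  rw [le_div_iff₀ hθ, one_mul]
  exact Real.sin_le_one θ

/-- The relative weights are at most `1 / sin θ`. -/
theorem rS_le (hθ : 0 < Real.sin θ) (hc : 1 ≤ 2 * Real.cos θ) (a : Ed → Bool → ℝ) :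
    rS θ I a ω e ≤ 1 / Real.sin θ := by
  classical
  unfold rS wS
  have h1 : 1 ≤ natS θ I ω e := by
    unfold natS
    split_ifs
    · exact hc
    · exact le_rfl
  rw [abs_div, abs_of_pos hθ, div_div]
  apply div_le_div₀ zero_le_one (Real.abs_cos_le_one _) hθ
  nlinarith

/-- **The product near an end.** `s`: strands which stay in `B`, all strands over the end. -/
theorem tip_prod (hθ : 0 < Real.sin θ) (hc : 1 ≤ 2 * Real.cos θ) (hL : 1 ≤ r.L)
    (hR : Rays r.I (B : Set (ℤ × ℤ))) (h0 : w0 r b ∉ B)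
    (hfar : Plain r ∨ (0 < r.k0 → r.k0 < r.L → ¬ (r.sq r.k0 ∈ B ∧ r.sq (r.k0 - 1) ∈ B)))
    (hf : Frz r ω) {s : Finset Ed}
    (hs : ∀ e ∈ s, Str r.I ω e ∧ Stays r.I (B : Set (ℤ × ℤ)) ω e)
    (hP : lrs r.I (faces r b 0 r.L) (faces r (!b) 0 r.L) B ω ⊆ s)
    (hD : lrs r.I (faces r (!b) 0 r.L) (faces r b 0 r.L) B ω ⊆ s) :
    ∏ e ∈ s, rS θ r.I (r.wall θ z).a ω e ≤ 1 / Real.sin θ *
      (relw θ 4 0 (r.τ (r.sq (te r b))) (r.τ (r.sq (te r b))) ^
        (lrs r.I (faces r b 0 r.L) (faces r (!b) 0 r.L) B ω).card *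
      relw θ (-4) 0 (r.τ (r.sq (te r b))) (r.τ (r.sq (te r b))) ^
        (lrs r.I (faces r (!b) 0 r.L) (faces r b 0 r.L) B ω).card) := by
  classical
  have hθ2 : Real.sin θ ≤ Real.sin (2 * θ) := by rw [Real.sin_two_mul]; nlinarith
  have hcases : ∀ e ∈ s, _ := fun e he =>
    tip_cases (z := z) hθ hθ2 hL hR h0 hfar hf (hs e he).1 (hs e he).2
  have hb : b ≠ !b := by cases b <;> decide
  have dj : ∀ e, e ∈ faces r b 0 r.L → e ∉ faces r (!b) 0 r.L := fun e =>
    faces_disj (Or.inl hb)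
  have dj' : ∀ e, e ∈ faces r (!b) 0 r.L → e ∉ faces r b 0 r.L := fun e =>
    faces_disj (Or.inl hb.symm)
  have dd : ∀ (e : Ed) (b' : Bool), e ∈ faces r b' 0 r.L → lst r.I ω e ∈ faces r b' 0 r.L →
      e ∉ lrs r.I (faces r b 0 r.L) (faces r (!b) 0 r.L) B ω ∧
      e ∉ lrs r.I (faces r (!b) 0 r.L) (faces r b 0 r.L) B ω := by
    intro e b' h1 h2
    constructor
    · intro h
      obtain ⟨g1, -, g2, -⟩ := mem_lrs'.1 h
      by_cases hbb : b' = b
      · subst hbb; exact faces_disj (Or.inl hb) h2 g2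
      · exact faces_disj (Or.inl hbb) h1 g1
    · intro h
      obtain ⟨g1, -, g2, -⟩ := mem_lrs'.1 h
      by_cases hbb : b' = b
      · subst hbb; exact faces_disj (Or.inl hb) h1 g1
      · exact faces_disj (Or.inl hbb) h2 g2
  have hend : ∀ {e : Ed}, e = ee r b ∨ lst r.I ω e = ee r b →
      e ∉ lrs r.I (faces r b 0 r.L) (faces r (!b) 0 r.L) B ω ∧
      e ∉ lrs r.I (faces r (!b) 0 r.L) (faces r b 0 r.L) B ω := by
    have hee : ∀ b', ee r b ∉ faces r b' 0 r.L := by
      intro b' h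
      have hq := rqr_polygon (r := r) (b := b) hL
      by_cases hbb : b' = b
      · subst hbb
        have h4 := idx_face hL (by omega) h le_rfl
        omega
      · obtain rfl : b' = !b := by cases b <;> cases b' <;> simp_all
        have h4 := idx_face' hL (by omega) h
        omega
    intro e h
    constructor <;> intro h' <;> obtain ⟨g1, -, g2, -⟩ := mem_lrs'.1 h' <;>
      rcases h with h | h
    · rw [h] at g1; exact hee _ g1
    · rw [h] at g2; exact hee _ g2
    · rw [h] at g1; exact hee _ g1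
    · rw [h] at g2; exact hee _ g2
  have vP : ∀ e ∈ lrs r.I (faces r b 0 r.L) (faces r (!b) 0 r.L) B ω,
      rS θ r.I (r.wall θ z).a ω e =
        relw θ 4 0 (r.τ (r.sq (te r b))) (r.τ (r.sq (te r b))) := by
    intro e he
    rcases hcases e (hP he) with h | h | ⟨-, b', h1, h2⟩ | h
    · exact h.2.1
    · exact absurd (mem_lrs'.1 h.1).1 (dj e (mem_lrs'.1 he).1)
    · exact absurd he (dd e b' h1 h2).1
    · exact absurd he (hend h.1).1
  have vD : ∀ e ∈ lrs r.I (faces r (!b) 0 r.L) (faces r b 0 r.L) B ω,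
      rS θ r.I (r.wall θ z).a ω e =
        relw θ (-4) 0 (r.τ (r.sq (te r b))) (r.τ (r.sq (te r b))) := by
    intro e he
    rcases hcases e (hD he) with h | h | ⟨-, b', h1, h2⟩ | h
    · exact absurd (mem_lrs'.1 h.1).1 (dj' e (mem_lrs'.1 he).1)
    · exact h.2.1
    · exact absurd he (dd e b' h1 h2).2
    · exact absurd he (hend h.1).2
  rw [prod_two hP hD (disjoint_left.2 fun e he he' =>
    dj e (mem_lrs'.1 he).1 (mem_lrs'.1 he').1) vP vD, mul_comm]
  refine mul_le_mul_of_nonneg_right ?_ (mul_nonneg (pow_nonneg (relw_nonneg hθ hθ2 _ _ _ _) _)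
    (pow_nonneg (relw_nonneg hθ hθ2 _ _ _ _) _))
  refine prod_one (p := fun e => e = ee r b ∨ lst r.I ω e = ee r b) (one_le_inv hθ) ?_
    (fun e _ => rS_le hθ hc _) ?_
  · intro e he hp
    obtain ⟨h1, h2⟩ := mem_sdiff.1 he
    rw [mem_union, not_or] at h2
    rcases hcases e h1 with h | h | h | h
    · exact absurd h.1 h2.1
    · exact absurd h.1 h2.2
    · exact h.1
    · exact absurd h.1 hp
  · intro e he e' he' hp hp'
    exact end_unique (hs e (mem_sdiff.1 he).1).1 (hs e' (mem_sdiff.1 he').1).1 hp hp'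

/-- **The product near a junction.** -/
theorem jn_prod (hθ : 0 < Real.sin θ) (hc : 1 ≤ 2 * Real.cos θ) (hL : 1 ≤ r.L)
    (hR : Rays r.I (B : Set (ℤ × ℤ))) (h0 : w0 r b ∉ B) (h1 : w1 r b ∉ B)
    (hf : Frz r ω) {s : Finset Ed}
    (hs : ∀ e ∈ s, Str r.I ω e ∧ Stays r.I (B : Set (ℤ × ℤ)) ω e)
    (hP : ∀ b', lrs r.I (faces r b' 0 r.k0) (faces r b' r.k0 r.L) B ω ⊆ s)
    (hD : ∀ b', lrs r.I (faces r b' r.k0 r.L) (faces r b' 0 r.k0) B ω ⊆ s) (hk : r.k0 ≤ r.L) :
    ∏ e ∈ s, rS θ r.I (r.wall θ z).a ω e =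
      ((jn θ r true).w ^ (lrs r.I (faces r true 0 r.k0) (faces r true r.k0 r.L) B ω).card *
        (jn θ r true).w' ^ (lrs r.I (faces r true r.k0 r.L) (faces r true 0 r.k0) B ω).card) *
      ((jn θ r false).w ^ (lrs r.I (faces r false 0 r.k0) (faces r false r.k0 r.L) B ω).card *
        (jn θ r false).w' ^ (lrs r.I (faces r false r.k0 r.L) (faces r false 0 r.k0) B ω).card) := by
  classical
  have hθ2 : Real.sin θ ≤ Real.sin (2 * θ) := by rw [Real.sin_two_mul]; nlinarith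
  have hcases : ∀ e ∈ s, _ := fun e he =>
    jn_cases (z := z) hθ hθ2 hL hR h0 h1 hf (hs e he).1 (hs e he).2
  have sub : ∀ b', ∀ e, e ∈ faces r b' 0 r.k0 → e ∈ faces r b' 0 r.L := by
    intro b' e he
    unfold faces at he ⊢
    exact image_subset_image (Ico_subset_Ico_right hk) he
  have sub' : ∀ b', ∀ e, e ∈ faces r b' r.k0 r.L → e ∈ faces r b' 0 r.L := by
    intro b' e he
    unfold faces at he ⊢
    exact image_subset_image (Ico_subset_Ico_left (Nat.zero_le _)) he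
  have vP : ∀ b', ∀ e ∈ lrs r.I (faces r b' 0 r.k0) (faces r b' r.k0 r.L) B ω,
      rS θ r.I (r.wall θ z).a ω e = (jn θ r b').w := by
    intro b' e he
    obtain ⟨g1, -, g2, -⟩ := mem_lrs'.1 he
    obtain ⟨b'', h2, h3, h4⟩ := hcases e (hP b' he)
    have hbb : b'' = b' := by
      by_contra hne
      exact faces_disj (Or.inl hne) h2 (sub _ _ g1)
    subst hbb
    rcases h4 with h4 | h4 | h4
    · exact h4.2.1
    · exact absurd (mem_lrs'.1 h4.1).1 (faces_disj (Or.inr (Or.inl le_rfl)) g1)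
    · exact absurd he h4.2.1
  have vD : ∀ b', ∀ e ∈ lrs r.I (faces r b' r.k0 r.L) (faces r b' 0 r.k0) B ω,
      rS θ r.I (r.wall θ z).a ω e = (jn θ r b').w' := by
    intro b' e he
    obtain ⟨g1, -, g2, -⟩ := mem_lrs'.1 he
    obtain ⟨b'', h2, h3, h4⟩ := hcases e (hD b' he)
    have hbb : b'' = b' := by
      by_contra hne
      exact faces_disj (Or.inl hne) h2 (sub' _ _ g1)
    subst hbb
    rcases h4 with h4 | h4 | h4
    · exact absurd (mem_lrs'.1 h4.1).1 (faces_disj (Or.inr (Or.inr le_rfl)) g1)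
    · exact h4.2.1
    · exact absurd he h4.2.2
  have dPD : ∀ b', Disjoint (lrs r.I (faces r b' 0 r.k0) (faces r b' r.k0 r.L) B ω)
      (lrs r.I (faces r b' r.k0 r.L) (faces r b' 0 r.k0) B ω) := fun b' =>
    disjoint_left.2 fun e he he' => faces_disj (Or.inr (Or.inl le_rfl)) (mem_lrs'.1 he).1
      (mem_lrs'.1 he').1
  have tf : ∀ e, e ∈ faces r false 0 r.L → e ∉ lrs r.I (faces r true 0 r.k0)
      (faces r true r.k0 r.L) B ω ∪ lrs r.I (faces r true r.k0 r.L) (faces r true 0 r.k0) B ω := by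
    intro e he h
    rcases mem_union.1 h with h | h
    · exact faces_disj (Or.inl (by decide)) he (sub _ _ (mem_lrs'.1 h).1)
    · exact faces_disj (Or.inl (by decide)) he (sub' _ _ (mem_lrs'.1 h).1)
  rw [prod_two (hP true) (hD true) (dPD true) (vP true) (vD true),
    prod_two (s := s \ _) (P := lrs r.I (faces r false 0 r.k0) (faces r false r.k0 r.L) B ω)
      (D := lrs r.I (faces r false r.k0 r.L) (faces r false 0 r.k0) B ω) ?_ ?_ (dPD false) (vP false)
      (vD false), prod_eq_one, mul_one]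
  · intro e he
    obtain ⟨h2, h3⟩ := mem_sdiff.1 he
    obtain ⟨h4, h5⟩ := mem_sdiff.1 h2
    rw [mem_union, not_or] at h3 h5
    obtain ⟨b', -, -, h6⟩ := hcases e h4
    rcases h6 with h6 | h6 | h6
    · cases b'
      · exact absurd h6.1 h3.1
      · exact absurd h6.1 h5.1
    · cases b'
      · exact absurd h6.1 h3.2
      · exact absurd h6.1 h5.2
    · exact h6.1
  · intro e he
    exact mem_sdiff.2 ⟨hP false he, tf e (sub _ _ (mem_lrs'.1 he).1)⟩
  · intro e he
    exact mem_sdiff.2 ⟨hD false he, tf e (sub' _ _ (mem_lrs'.1 he).1)⟩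

end Vale.Agent.P167.H871.Q
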