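import Vale.Agent.P167.H871.Q.ValE

/-!
# P167, general `q`: the product of the relative weights of the small strands of a row, two radii

`G2 θ r d1 R1 d2 R2 ω`: small strands (radius `d1`; radius `d2` away from the ends) and strands which
stay in the boxes of radius `R1` around the ends or of radius `R2` around the junction.
-/

namespace Vale.Agent.P167.H871.Q

open Finset
open Vale.Agent.P167.FK
open Vale.Agent.P167.Top
open Vale.Agent.P167.A (plane plane_sg)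
open Vale.Agent.P167.E6 (IsPolygon Encloses dir)
open Vale.Agent.P167.BR (be)
open Vale.Agent.P167.XDL (bS mem_bS)
open Vale.Agent.P167.H199 (strand ret Returns mem_strand ret_min ret_le)
open Vale.Agent.P167.QX (exc mem_exc exc_last exc_disj ExtPot out_stays returns_good rS natS ClT lst wS
  rS_nonneg)
open Vale.Agent.P167.H825.Q (Row)
open Vale.Agent.P167.H945.Q (face faces lrs SP tipL tipR jn natw relw tj Plain TT)

variable {r : Row} {b b' b'' : Bool} {v : ℤ × ℤ} {k l : ℕ} {ω ω' : Cfg} {B : Finset (ℤ × ℤ)}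
  {e e' x : Ed} {I : Finset (ℤ × ℤ)} {A A' : Finset Ed} {lo hi lo' hi' : ℕ} {θ z κ : ℝ} {n : ℕ}
  {d1 R1 d2 R2 : ℤ}

open Classical in
/-- The small strands of the row (radius `d1`, or radius `d2` away from the ends) and the strands
which stay in the boxes around the ends (radius `R1`) or the junction (radius `R2`). -/
noncomputable def G2 (θ : ℝ) (r : Row) (d1 R1 d2 R2 : ℤ) (ω : Cfg) : Finset Ed :=
  (bS r.I).filter fun e => hdv e ∉ r.I ∧ (QX.InB (Bq (tlv e) d1) r.I ω e ∨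
    (QX.InB (Bq (tlv e) d2) r.I ω e ∧ r.sq 0 ∉ Bq (tlv e) (2 * d2) ∧
      r.sq (r.L - 1) ∉ Bq (tlv e) (2 * d2)) ∨
    QX.InB ((tipL θ r).bx R1) r.I ω e ∨ QX.InB ((tipR θ r).bx R1) r.I ω e ∨
    (¬ Plain r ∧ QX.InB ((jn θ r true).bx R2) r.I ω e))

theorem mem_Bq_nm {c v : ℤ × ℤ} {ρ : ℤ} (h : P167.nm (v - c) < ρ) : v ∈ Bq c ρ := by
  unfold P167.nm at h
  simp only [Prod.fst_sub, Prod.snd_sub] at h
  rw [max_lt_iff, abs_lt, abs_lt] at h
  unfold FK.Bq
  rw [mem_product, mem_Ico, mem_Ico]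
  omega

theorem nm_of_Bq {c v : ℤ × ℤ} {ρ : ℤ} (h : v ∈ Bq c ρ) : P167.nm (v - c) ≤ ρ := by
  unfold FK.Bq at h
  rw [mem_product, mem_Ico, mem_Ico] at h
  unfold P167.nm
  simp only [Prod.fst_sub, Prod.snd_sub]
  rw [max_le_iff, abs_le, abs_le]
  omega

/-- A small strand away from the ends and the junction is natural. -/
theorem small_nat2 (hθ : 0 < Real.sin θ) (hθ2 : Real.sin θ ≤ Real.sin (2 * θ)) (hL : 1 ≤ r.L)
    {D : ℤ} (hR : Rays r.I (B : Set (ℤ × ℤ))) (hB : ∀ u ∈ B, ∀ v ∈ B, nm (v - u) ≤ D)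
    {TJ : Finset (ℤ × ℤ)} (hnL : sqm r (-1) ∉ B) (hnR : sqm r r.L ∉ B)
    (hTJ : ¬ Plain r → ∀ v, nm (v - r.sq r.k0) ≤ D → v ∈ TJ)
    (hf : Frz r ω) (hs : Str r.I ω e) (hst : Stays r.I (B : Set (ℤ × ℤ)) ω e)
    (h3 : ¬ Plain r → ¬ Stays r.I (TJ : Set (ℤ × ℤ)) ω e) : rS θ r.I (r.wall θ z).a ω e = 1 := by
  have hmv : ∀ {u : ℤ × ℤ} {T : Finset (ℤ × ℤ)}, (∀ v, nm (v - u) ≤ D → v ∈ T) →
      u ∈ B → Stays r.I (T : Set (ℤ × ℤ)) ω e := fun hT hu k hk =>
    hT _ (hB _ hu _ (hst k hk))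
  have hw : w0 r true ∉ B ∧ w1 r true ∉ B := by
    unfold w0 w1
    by_cases ho : r.o = true
    · rw [if_pos ho, if_pos ho]; exact ⟨hnR, hnL⟩
    · rw [if_neg ho, if_neg ho]; exact ⟨hnL, hnR⟩
  rcases cls hL hR hw.1 hs hst with ⟨b', k, l, hk, hl, g1, g2, ht, hne, hB⟩ |
    ⟨k, l, hk, hl, g1, g2, ht, hw', hB⟩ | ⟨k, l, hk, hl, g1, g2, ht, hw', hB⟩ | ⟨h, hB⟩
  · refine val_same hθ hθ2 hL hR hw.1 hf hs hst g1 g2 ht ?_
    by_cases hp : Plain r
    · exact Or.inl hp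
    · right
      by_contra hk0
      have h4 := hB r.k0 (by omega) (by omega)
      exact h3 hp (hmv (hTJ hp) h4.1)
  · exact absurd hw' hw.2
  · exact absurd hw' hw.2
  · exact absurd hB hw.2

open Classical in
/-- **The product of the relative weights of one row, two radii.** -/
theorem G2_prod (hθ : 0 < Real.sin θ) (hc : 1 ≤ 2 * Real.cos θ) (hok : r.Ok θ κ n)
    (hfr : ∀ v ∈ r.I, ω v = r.fr v) (hd : 1 ≤ d1) (hdR : 2 * d1 + 2 ≤ R1) (hd2 : 2 ≤ d2)
    (hdR2 : 2 * d2 + 2 ≤ R2) (hR : 16 * (R1 : ℝ) ≤ κ * n) (hR2 : 16 * (R2 : ℝ) ≤ κ * n)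
    (h12 : d1 ≤ d2) (z : ℝ) :
    ∏ e ∈ G2 θ r d1 R1 d2 R2 ω, rS θ r.I (r.wall θ z).a ω e ≤
      (1 / Real.sin θ) ^ 2 * ((tipL θ r).T r.I R1 ω * (tipR θ r).T r.I R1 ω *
        (if Plain r then 1 else (jn θ r true).T r.I R2 ω * (jn θ r false).T r.I R2 ω)) := by
  classical
  have hθ2 : Real.sin θ ≤ Real.sin (2 * θ) := by rw [Real.sin_two_mul]; nlinarith
  have hf := Frz.of_ok hok hfr
  have hLR : 16 * R1 ≤ (r.L : ℤ) := by
    have := hR.trans hok.len
    exact_mod_cast this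
  have hLR2 : 16 * R2 ≤ (r.L : ℤ) := by
    have := hR2.trans hok.len
    exact_mod_cast this
  have hL : 1 ≤ r.L := by omega
  have hJ : ¬ Plain r → (16 * R1 ≤ (r.k0 : ℤ) ∧ (r.k0 : ℤ) + 16 * R1 ≤ r.L) ∧
      16 * R2 ≤ (r.k0 : ℤ) ∧ (r.k0 : ℤ) + 16 * R2 ≤ r.L := by
    intro hp
    rcases hok.kind with h | ⟨-, h1, h2⟩
    · exact absurd h hp
    · refine ⟨⟨?_, ?_⟩, ?_, ?_⟩
      · exact_mod_cast hR.trans h1
      · have : (r.k0 : ℝ) + 16 * R1 ≤ r.L := by linarith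
        exact_mod_cast this
      · exact_mod_cast hR2.trans h1
      · have : (r.k0 : ℝ) + 16 * R2 ≤ r.L := by linarith
        exact_mod_cast this
  set TL := (tipL θ r).bx R1 with hTL
  set TR := (tipR θ r).bx R1 with hTR
  set TJ := (jn θ r true).bx R2 with hTJ
  have aL : Alm (r.sq 0) R1 TL := alm_L
  have aR : Alm (r.sq (r.L - 1)) R1 TR := alm_R
  have aJ : Alm (r.sq r.k0) R2 TJ := alm_J
  have hR1 : 1 < R1 := by omega
  have hR2' : 1 < R2 := by omega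
  have rL : Rays r.I (TL : Set (ℤ × ℤ)) := aL.rays hR1 (sq_line _)
  have rR : Rays r.I (TR : Set (ℤ × ℤ)) := aR.rays hR1 (sq_line _)
  have rJ : Rays r.I (TJ : Set (ℤ × ℤ)) := aJ.rays hR2' (sq_line _)
  have dLR : ∀ v ∈ TL, v ∉ TR := fun v hv => aL.disj aR (by
    rw [sq_sqm, sq_sqm, nm_sqm, lt_abs]; right; omega) hv
  have dLJ : ¬ Plain r → ∀ v ∈ TL, v ∉ TJ := fun hp v hv hv' => by
    have h1 := aL.nm hv
    have h2 := aJ.nm hv'
    have h3 := hJ hp
    rw [nm_swap] at h1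
    have h4 := nm_tri h1 h2
    rw [sq_sqm, sq_sqm, nm_sqm, abs_le] at h4
    omega
  have dRJ : ¬ Plain r → ∀ v ∈ TR, v ∉ TJ := fun hp v hv hv' => by
    have h1 := aR.nm hv
    have h2 := aJ.nm hv'
    have h3 := hJ hp
    rw [nm_swap] at h1
    have h4 := nm_tri h1 h2
    rw [sq_sqm, sq_sqm, nm_sqm, abs_le] at h4
    omega
  -- the strands
  set s := G2 θ r d1 R1 d2 R2 ω with hs
  have hstr : ∀ e ∈ s, Str r.I ω e := by
    intro e he
    obtain ⟨h1, h2, h3⟩ := mem_filter.1 he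
    refine ⟨h2, (mem_bS.1 h1).resolve_left (fun h => h2 h.1) |>.2, ?_⟩
    rcases h3 with h3 | h3 | h3 | h3 | h3
    · exact h3.1
    · exact h3.1.1
    · exact h3.1
    · exact h3.1
    · exact h3.2.1
  have hinL : ∀ {e : Ed} {b b' : Bool}, Str r.I ω e →
      Stays r.I (TL : Set (ℤ × ℤ)) ω e → e ∈ faces r b 0 r.L → lst r.I ω e ∈ faces r b' 0 r.L →
      e ∈ s := fun h1 h2 h3 h4 => mem_filter.2 ⟨h1.mem, h1.out, Or.inr (Or.inr (Or.inl
        (inB_of h1 h2 aL hR1 (sq_line _) h3 h4)))⟩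
  have hinR : ∀ {e : Ed} {b b' : Bool}, Str r.I ω e →
      Stays r.I (TR : Set (ℤ × ℤ)) ω e → e ∈ faces r b 0 r.L → lst r.I ω e ∈ faces r b' 0 r.L →
      e ∈ s := fun h1 h2 h3 h4 => mem_filter.2 ⟨h1.mem, h1.out, Or.inr (Or.inr (Or.inr (Or.inl
        (inB_of h1 h2 aR hR1 (sq_line _) h3 h4))))⟩
  have hinJ : ∀ {e : Ed} {b b' : Bool}, ¬ Plain r → Str r.I ω e →
      Stays r.I (TJ : Set (ℤ × ℤ)) ω e → e ∈ faces r b 0 r.L → lst r.I ω e ∈ faces r b' 0 r.L →
      e ∈ s := fun hp h1 h2 h3 h4 => mem_filter.2 ⟨h1.mem, h1.out, Or.inr (Or.inr (Or.inr (Or.inr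
        ⟨hp, inB_of h1 h2 aJ hR2' (sq_line _) h3 h4⟩)))⟩
  have hno : ∀ {e : Ed} {T T' : Finset (ℤ × ℤ)}, Str r.I ω e → (∀ v ∈ T, v ∉ T') →
      Stays r.I (T : Set (ℤ × ℤ)) ω e → ¬ Stays r.I (T' : Set (ℤ × ℤ)) ω e := fun h1 h2 h3 h4 =>
    h2 _ (h3 0 h1.rt.spec.1) (h4 0 h1.rt.spec.1)
  -- the left end
  have w0L : w0 r r.o ∉ TL := by
    unfold w0
    rw [if_pos rfl]
    refine sqm_not aL ?_
    rw [lt_abs]; left; push_cast; omega
  have w0R : w0 r (!r.o) ∉ TR := by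
    unfold w0
    rw [if_neg (by cases r.o <;> decide)]
    refine sqm_not aR ?_
    rw [lt_abs]; right; omega
  have farL : Plain r ∨ (0 < r.k0 → r.k0 < r.L → ¬ (r.sq r.k0 ∈ TL ∧ r.sq (r.k0 - 1) ∈ TL)) := by
    by_cases hp : Plain r
    · exact Or.inl hp
    · refine Or.inr fun _ _ h => ?_
      have := hJ hp
      exact sqm_not aL (t := r.k0) (by rw [lt_abs]; left; push_cast; omega) h.1
  have farR : Plain r ∨ (0 < r.k0 → r.k0 < r.L → ¬ (r.sq r.k0 ∈ TR ∧ r.sq (r.k0 - 1) ∈ TR)) := by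
    by_cases hp : Plain r
    · exact Or.inl hp
    · refine Or.inr fun _ _ h => ?_
      have := hJ hp
      exact sqm_not aR (t := r.k0) (by rw [lt_abs]; right; omega) h.1
  have hsplit : ∏ e ∈ s, rS θ r.I (r.wall θ z).a ω e =
      (∏ e ∈ s.filter (fun e => Stays r.I (TL : Set (ℤ × ℤ)) ω e),
        rS θ r.I (r.wall θ z).a ω e) *
      ((∏ e ∈ (s.filter (fun e => ¬ Stays r.I (TL : Set (ℤ × ℤ)) ω e)).filter
          (fun e => Stays r.I (TR : Set (ℤ × ℤ)) ω e), rS θ r.I (r.wall θ z).a ω e) *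
        ∏ e ∈ (s.filter (fun e => ¬ Stays r.I (TL : Set (ℤ × ℤ)) ω e)).filter
          (fun e => ¬ Stays r.I (TR : Set (ℤ × ℤ)) ω e), rS θ r.I (r.wall θ z).a ω e) := by
    rw [prod_filter_mul_prod_filter_not, prod_filter_mul_prod_filter_not]
  have hcos : 0 < Real.cos θ := by linarith
  have bL : ∏ e ∈ s.filter (fun e => Stays r.I (TL : Set (ℤ × ℤ)) ω e),
      rS θ r.I (r.wall θ z).a ω e ≤ 1 / Real.sin θ * (tipL θ r).T r.I R1 ω := by
    have h := tip_prod (z := z) (b := r.o) hθ hc hL rL w0L farL hf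
      (s := s.filter (fun e => Stays r.I (TL : Set (ℤ × ℤ)) ω e))
      (fun e he => ⟨hstr e (mem_filter.1 he).1, (mem_filter.1 he).2⟩)
      (fun e he => by
        obtain ⟨g1, g2, g3, g4⟩ := mem_lrs'.1 he
        exact mem_filter.2 ⟨hinL g2 g4 g1 g3, g4⟩)
      (fun e he => by
        obtain ⟨g1, g2, g3, g4⟩ := mem_lrs'.1 he
        exact mem_filter.2 ⟨hinL g2 g4 g1 g3, g4⟩)
    have e1 : te r r.o = 0 := by unfold te; rw [if_pos rfl]
    rw [e1] at h
    exact h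
  have bR : ∏ e ∈ (s.filter (fun e => ¬ Stays r.I (TL : Set (ℤ × ℤ)) ω e)).filter
      (fun e => Stays r.I (TR : Set (ℤ × ℤ)) ω e),
      rS θ r.I (r.wall θ z).a ω e ≤ 1 / Real.sin θ * (tipR θ r).T r.I R1 ω := by
    have hb : (!(!r.o)) = r.o := Bool.not_not _
    have h := tip_prod (z := z) (b := !r.o) hθ hc hL rR w0R farR hf
      (s := (s.filter (fun e => ¬ Stays r.I (TL : Set (ℤ × ℤ)) ω e)).filter
        (fun e => Stays r.I (TR : Set (ℤ × ℤ)) ω e))
      (fun e he => ⟨hstr e (mem_filter.1 (mem_filter.1 he).1).1, (mem_filter.1 he).2⟩)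
      (fun e he => by
        obtain ⟨g1, g2, g3, g4⟩ := mem_lrs'.1 he
        exact mem_filter.2 ⟨mem_filter.2 ⟨hinR g2 g4 g1 g3,
          hno g2 (fun v hv hv' => dLR v hv' hv) g4⟩, g4⟩)
      (fun e he => by
        obtain ⟨g1, g2, g3, g4⟩ := mem_lrs'.1 he
        exact mem_filter.2 ⟨mem_filter.2 ⟨hinR g2 g4 g1 g3,
          hno g2 (fun v hv hv' => dLR v hv' hv) g4⟩, g4⟩)
    have e1 : te r (!r.o) = r.L - 1 := by
      unfold te; rw [if_neg (by cases r.o <;> decide)]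
    rw [e1, hb] at h
    exact h
  have nnL := prod_nonneg (s := s.filter (fun e => Stays r.I (TL : Set (ℤ × ℤ)) ω e))
    fun e _ => rS_nonneg hcos r.I (r.wall θ z).a ω e
  have nnR := prod_nonneg (s := (s.filter (fun e => ¬ Stays r.I (TL : Set (ℤ × ℤ)) ω e)).filter
      (fun e => Stays r.I (TR : Set (ℤ × ℤ)) ω e))
    fun e _ => rS_nonneg hcos r.I (r.wall θ z).a ω e
  -- the rest
  set t := (s.filter (fun e => ¬ Stays r.I (TL : Set (ℤ × ℤ)) ω e)).filter
    (fun e => ¬ Stays r.I (TR : Set (ℤ × ℤ)) ω e) with ht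
  have hnat : ∀ e ∈ t, (¬ Plain r → ¬ Stays r.I (TJ : Set (ℤ × ℤ)) ω e) →
      rS θ r.I (r.wall θ z).a ω e = 1 := by
    intro e he hnJ
    obtain ⟨h1, h2⟩ := mem_filter.1 he
    obtain ⟨h3, h4⟩ := mem_filter.1 h1
    have h5 := hstr e h3
    obtain ⟨-, -, h6⟩ := mem_filter.1 h3
    have hline : if r.o then (tlv e).2 = r.x.2 else (tlv e).1 = r.x.1 := by
      have := h5.tl
      rw [mem_rI] at this
      by_cases ho : r.o = true
      · rw [if_pos ho] at this ⊢; exact this.1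
      · rw [if_neg ho] at this ⊢; exact this.1
    have hrays : ∀ {d : ℤ}, 1 ≤ d → Rays r.I (Bq (tlv e) d : Set (ℤ × ℤ)) := by
      intro d hd
      apply rays_row
      by_cases ho : r.o = true
      · rw [if_pos ho] at hline ⊢; omega
      · rw [if_neg ho] at hline ⊢; omega
    rcases h6 with h6 | h6 | h6 | h6 | h6
    · refine small_nat' (D := 2 * d1) hθ hθ2 hL (B := Bq (tlv e) d1) (hrays hd)
        (fun u hu v hv => nm_Bq hu hv) (TL := TL) (TR := TR) (TJ := TJ) ?_ ?_ ?_ hf h5 (inB_stays h6)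
        h4 h2 hnJ
      · intro v hv
        refine aL.mem ?_
        have := nm_tri hv (t := 1) (w := r.sq 0) (by rw [sq_sqm, nm_sqm]; norm_num)
        omega
      · intro v hv
        refine aR.mem ?_
        have := nm_tri hv (t := 1) (w := r.sq (r.L - 1)) (by
          rw [sq_sqm, nm_sqm, abs_le]; omega)
        omega
      · intro _ v hv
        exact aJ.mem (by omega)
    · obtain ⟨h6, h7, h8⟩ := h6
      refine small_nat2 (D := 2 * d2) hθ hθ2 hL (B := Bq (tlv e) d2) (hrays (by omega))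
        (fun u hu v hv => nm_Bq hu hv) (TJ := TJ) (fun h => h7 ?_) (fun h => h8 ?_) ?_ hf h5
        (inB_stays h6) hnJ
      · have k1 := nm_of_Bq h
        have k2 : P167.nm (r.sq 0 - sqm r (-1)) ≤ 1 := by rw [sq_sqm, nm_sqm]; norm_num
        have k3 := nm_tri k2 k1
        exact mem_Bq_nm (by omega)
      · have k1 := nm_of_Bq h
        have k2 : P167.nm (r.sq (r.L - 1) - sqm r r.L) ≤ 1 := by
          rw [sq_sqm, nm_sqm, abs_le]; omega
        have k3 := nm_tri k2 k1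
        exact mem_Bq_nm (by omega)
      · intro _ v hv
        exact aJ.mem (by omega)
    · exact absurd (inB_stays h6) h4
    · exact absurd (inB_stays h6) h2
    · exact absurd (inB_stays h6.2) (hnJ h6.1)
  have hC := one_le_inv hθ
  have hTL0 : 0 ≤ (tipL θ r).T r.I R1 ω := mul_nonneg (pow_nonneg (relw_nonneg hθ hθ2 _ _ _ _) _)
    (pow_nonneg (relw_nonneg hθ hθ2 _ _ _ _) _)
  have hTR0 : 0 ≤ (tipR θ r).T r.I R1 ω := mul_nonneg (pow_nonneg (relw_nonneg hθ hθ2 _ _ _ _) _)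
    (pow_nonneg (relw_nonneg hθ hθ2 _ _ _ _) _)
  have bt : ∏ e ∈ t, rS θ r.I (r.wall θ z).a ω e =
      if Plain r then 1 else (jn θ r true).T r.I R2 ω * (jn θ r false).T r.I R2 ω := by
    by_cases hp : Plain r
    · rw [if_pos hp]
      exact prod_eq_one fun e he => hnat e he fun h => absurd hp h
    · rw [if_neg hp, ← prod_filter_mul_prod_filter_not t
        (fun e => Stays r.I (TJ : Set (ℤ × ℤ)) ω e)]
      rw [prod_eq_one (s := t.filter fun e => ¬ Stays r.I (TJ : Set (ℤ × ℤ)) ω e)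
        (fun e he => hnat e (mem_filter.1 he).1 fun _ => (mem_filter.1 he).2), mul_one]
      have hk := hJ hp
      have m1 : ∀ b', ∀ e, e ∈ faces r b' 0 r.k0 → e ∈ faces r b' 0 r.L := by
        intro b' e he
        unfold faces at he ⊢
        exact image_subset_image (Ico_subset_Ico_right (by omega)) he
      have m2 : ∀ b', ∀ e, e ∈ faces r b' r.k0 r.L → e ∈ faces r b' 0 r.L := by
        intro b' e he
        unfold faces at he ⊢
        exact image_subset_image (Ico_subset_Ico_left (Nat.zero_le _)) he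
      have hmem : ∀ {e : Ed} {b' : Bool}, Str r.I ω e → Stays r.I (TJ : Set (ℤ × ℤ)) ω e →
          e ∈ faces r b' 0 r.L → lst r.I ω e ∈ faces r b' 0 r.L →
          e ∈ t.filter fun e => Stays r.I (TJ : Set (ℤ × ℤ)) ω e := by
        intro e b' g1 g2 g3 g4
        refine mem_filter.2 ⟨mem_filter.2 ⟨mem_filter.2 ⟨?_, ?_⟩, ?_⟩, g2⟩
        · exact hinJ hp g1 g2 g3 g4
        · exact hno g1 (fun v hv hv' => dLJ hp v hv' hv) g2
        · exact hno g1 (fun v hv hv' => dRJ hp v hv' hv) g2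
      refine (jn_prod (z := z) (b := true) hθ hc hL rJ ?_ ?_ hf
        (fun e he => ⟨hstr e (mem_filter.1 (mem_filter.1 (mem_filter.1 he).1).1).1,
          (mem_filter.1 he).2⟩) ?_ ?_ (by omega)).trans ?_
      · unfold w0
        by_cases ho : r.o = true
        · rw [if_pos ho]; exact sqm_not aJ (by rw [lt_abs]; left; omega)
        · rw [if_neg ho]; exact sqm_not aJ (by rw [lt_abs]; right; omega)
      · unfold w1
        by_cases ho : r.o = true
        · rw [if_pos ho]; exact sqm_not aJ (by rw [lt_abs]; right; omega)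
        · rw [if_neg ho]; exact sqm_not aJ (by rw [lt_abs]; left; omega)
      · intro b' e he
        obtain ⟨g1, g2, g3, g4⟩ := mem_lrs'.1 he
        exact hmem g2 g4 (m1 _ _ g1) (m2 _ _ g3)
      · intro b' e he
        obtain ⟨g1, g2, g3, g4⟩ := mem_lrs'.1 he
        exact hmem g2 g4 (m2 _ _ g1) (m1 _ _ g3)
      · rfl
  have bt0 : 0 ≤ ∏ e ∈ t, rS θ r.I (r.wall θ z).a ω e :=
    prod_nonneg fun e _ => rS_nonneg hcos r.I (r.wall θ z).a ω e
  rw [hsplit]
  rw [← bt]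
  have h1 := mul_le_mul bL bR nnR (mul_nonneg (by linarith) hTL0)
  have h2 := mul_le_mul_of_nonneg_right h1 bt0
  calc _ = (∏ e ∈ s.filter (fun e => Stays r.I (TL : Set (ℤ × ℤ)) ω e),
        rS θ r.I (r.wall θ z).a ω e) *
      (∏ e ∈ (s.filter (fun e => ¬ Stays r.I (TL : Set (ℤ × ℤ)) ω e)).filter
          (fun e => Stays r.I (TR : Set (ℤ × ℤ)) ω e), rS θ r.I (r.wall θ z).a ω e) *
        ∏ e ∈ t, rS θ r.I (r.wall θ z).a ω e := by ring
    _ ≤ _ := h2
    _ = _ := by ring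

end Vale.Agent.P167.H871.Q
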