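import Vale.Agent.P167.H871.Q.WinA

/-!
# P167, general `q`: the window of a hole at a reflex corner
-/

namespace Vale.Agent.P167.H871.Q

open Finset
open Vale.Agent.P167.Top

/-- The boundary curve: position `(x, y)` and direction `u` at the step `k`. -/
def V2 (A B R k : ℕ) (x y u : ℤ) : Prop :=
  (0 ≤ k ∧ k < A ∧ x = -R + k ∧ y = 0 ∧ u = 0) ∨
  (A ≤ k ∧ k < A + 1 ∧ x = -R + A ∧ y = 0 ∧ u = -1) ∨
  (A + 1 ≤ k ∧ k < 2 * A + 1 ∧ x = -R + 2 * A + 1 - k ∧ y = -1 ∧ u = -2) ∨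
  (2 * A + 1 ≤ k ∧ k < 2 * A + R ∧ x = -R ∧ y = 2 * A - k ∧ u = -1) ∨
  (2 * A + R ≤ k ∧ k < 2 * A + 2 * R - 1 ∧ x = k - 2 * A - 2 * R ∧ y = -R ∧ u = 0) ∨
  (2 * A + 2 * R - 1 ≤ k ∧ k < 2 * A + 2 * R - 1 + B ∧ x = -1 ∧ y = k - 2 * A - 3 * R + 1 ∧ u = 1) ∨
  (2 * A + 2 * R - 1 + B ≤ k ∧ k < 2 * A + 2 * R + B ∧ x = -1 ∧ y = -R + B ∧ u = 0) ∨
  (2 * A + 2 * R + B ≤ k ∧ k < 2 * A + 2 * R + 2 * B ∧ x = 0 ∧ y = 2 * A + R + 2 * B - k ∧ u = -1) ∨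
  (2 * A + 2 * R + 2 * B ≤ k ∧ k < 2 * A + 3 * R + 2 * B ∧ x = k - 2 * A - 2 * R - 2 * B ∧ y = -R ∧ u = 0) ∨
  (2 * A + 3 * R + 2 * B ≤ k ∧ k < 2 * A + 5 * R + 2 * B ∧ x = R ∧ y = k - 2 * A - 4 * R - 2 * B ∧ u = 1) ∨
  (2 * A + 5 * R + 2 * B ≤ k ∧ k < 2 * A + 7 * R + 2 * B ∧ x = 2 * A + 6 * R + 2 * B - k ∧ y = R ∧ u = 2) ∨
  (2 * A + 7 * R + 2 * B ≤ k ∧ k < 2 * A + 8 * R + 2 * B ∧ x = -R ∧ y = 2 * A + 8 * R + 2 * B - k ∧ u = 3)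

/-- The region. -/
def R2 (A B R : ℕ) : Set (ℤ × ℤ) := {v | -(R : ℤ) ≤ v.1 ∧ v.1 < R ∧ -(R : ℤ) ≤ v.2 ∧ v.2 < R ∧
  ¬ (v.1 < -R + A ∧ v.2 = -1) ∧ ¬ (v.1 = -1 ∧ v.2 < -R + B)}

variable {A B R : ℕ}

theorem ex2 (hAR : A < R) {k : ℕ} (hk : k < 2 * A + 8 * R + 2 * B) :
    ∃ t : ℤ × ℤ × ℤ, V2 A B R k t.1 t.2.1 t.2.2 := by
  rcases (by omega : (0 ≤ k ∧ k < A) ∨ (A ≤ k ∧ k < A + 1) ∨ (A + 1 ≤ k ∧ k < 2 * A + 1) ∨ (2 * A + 1 ≤ k ∧ k < 2 * A + R) ∨ (2 * A + R ≤ k ∧ k < 2 * A + 2 * R - 1) ∨ (2 * A + 2 * R - 1 ≤ k ∧ k < 2 * A + 2 * R - 1 + B) ∨ (2 * A + 2 * R - 1 + B ≤ k ∧ k < 2 * A + 2 * R + B) ∨ (2 * A + 2 * R + B ≤ k ∧ k < 2 * A + 2 * R + 2 * B) ∨ (2 * A + 2 * R + 2 * B ≤ k ∧ k < 2 * A + 3 * R + 2 * B) ∨ (2 * A + 3 * R + 2 * B ≤ k ∧ k < 2 * A + 5 * R + 2 * B) ∨ (2 * A + 5 * R + 2 * B ≤ k ∧ k < 2 * A +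 7 * R + 2 * B) ∨ (2 * A + 7 * R + 2 * B ≤ k ∧ k < 2 * A + 8 * R + 2 * B)) with
    h | h | h | h | h | h | h | h | h | h | h | h
  · exact ⟨(-R + k, 0, 0), Or.inl ⟨h.1, h.2, rfl, rfl, rfl⟩⟩
  · exact ⟨(-R + A, 0, -1), Or.inr (Or.inl ⟨h.1, h.2, rfl, rfl, rfl⟩)⟩
  · exact ⟨(-R + 2 * A + 1 - k, -1, -2), Or.inr (Or.inr (Or.inl ⟨h.1, h.2, rfl, rfl, rfl⟩))⟩
  · exact ⟨(-R, 2 * A - k, -1), Or.inr (Or.inr (Or.inr (Or.inl ⟨h.1, h.2, rfl, rfl, rfl⟩)))⟩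
  · exact ⟨(k - 2 * A - 2 * R, -R, 0), Or.inr (Or.inr (Or.inr (Or.inr (Or.inl ⟨h.1, h.2, rfl, rfl, rfl⟩))))⟩
  · exact ⟨(-1, k - 2 * A - 3 * R + 1, 1), Or.inr (Or.inr (Or.inr (Or.inr (Or.inr (Or.inl ⟨h.1, h.2, rfl, rfl, rfl⟩)))))⟩
  · exact ⟨(-1, -R + B, 0), Or.inr (Or.inr (Or.inr (Or.inr (Or.inr (Or.inr (Or.inl ⟨h.1, h.2, rfl, rfl, rfl⟩))))))⟩
  · exact ⟨(0, 2 * A + R + 2 * B - k, -1), Or.inr (Or.inr (Or.inr (Or.inr (Or.inr (Or.inr (Or.inr (Or.inl ⟨h.1, h.2, rfl, rfl, rfl⟩)))))))⟩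
  · exact ⟨(k - 2 * A - 2 * R - 2 * B, -R, 0), Or.inr (Or.inr (Or.inr (Or.inr (Or.inr (Or.inr (Or.inr (Or.inr (Or.inl ⟨h.1, h.2, rfl, rfl, rfl⟩))))))))⟩
  · exact ⟨(R, k - 2 * A - 4 * R - 2 * B, 1), Or.inr (Or.inr (Or.inr (Or.inr (Or.inr (Or.inr (Or.inr (Or.inr (Or.inr (Or.inl ⟨h.1, h.2, rfl, rfl, rfl⟩)))))))))⟩
  · exact ⟨(2 * A + 6 * R + 2 * B - k, R, 2), Or.inr (Or.inr (Or.inr (Or.inr (Or.inr (Or.inr (Or.inr (Or.inr (Or.inr (Or.inr (Or.inl ⟨h.1, h.2, rfl, rfl, rfl⟩))))))))))⟩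
  · exact ⟨(-R, 2 * A + 8 * R + 2 * B - k, 3), Or.inr (Or.inr (Or.inr (Or.inr (Or.inr (Or.inr (Or.inr (Or.inr (Or.inr (Or.inr (Or.inr (⟨h.1, h.2, rfl, rfl, rfl⟩)))))))))))⟩

theorem no2 (hA : 1 ≤ A) (hAR : A < R) : ¬ ∃ t : ℤ × ℤ × ℤ,
    V2 A B R (2 * A + 8 * R + 2 * B) t.1 t.2.1 t.2.2 := by
  rintro ⟨t, h⟩
  unfold V2 at h
  omega

theorem inj2 (hAR : A < R) (hBR : B + 1 < R) {k l : ℕ} (h1 : k < l) {x y u u' : ℤ}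
    (hk : V2 A B R k x y u) (hl : V2 A B R l x y u') : False := by
  unfold V2 at hk hl
  rcases hk with hk | hk | hk | hk | hk | hk | hk | hk | hk | hk | hk | hk <;>
    rcases hl with hl | hl | hl | hl | hl | hl | hl | hl | hl | hl | hl | hl <;> omega

theorem uniq2 (hA : 1 ≤ A) (hAR : A < R) {k : ℕ} {x y u x' y' u' : ℤ}
    (hk : V2 A B R k x y u) (hl : V2 A B R k x' y' u') : x = x' ∧ y = y' ∧ u = u' := by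
  unfold V2 at hk hl
  rcases hk with hk | hk | hk | hk | hk | hk | hk | hk | hk | hk | hk | hk <;>
    rcases hl with hl | hl | hl | hl | hl | hl | hl | hl | hl | hl | hl | hl <;>
    first | (exfalso; omega) | omega

theorem nxt2 (hA : 1 ≤ A) (hB : 1 ≤ B) (hAR : A < R) (hBR : B + 1 < R) {k : ℕ} {x y u : ℤ}
    (hk : V2 A B R k x y u) (hn : k + 1 < 2 * A + 8 * R + 2 * B) :
    ∃ u', V2 A B R (k + 1) (x + (vec u).1) (y + (vec u).2) u' ∧ |u' - u| ≤ 1 := by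
  have e0 : vec 0 = (1, 0) := rfl
  have e1 : vec 1 = (0, 1) := rfl
  have e2 : vec 2 = (-1, 0) := rfl
  have e3 : vec 3 = (0, -1) := rfl
  have e4 : vec (-1) = (0, -1) := rfl
  have e5 : vec (-2) = (-1, 0) := rfl
  rcases hk with ⟨h1, h2, rfl, rfl, rfl⟩ | ⟨h1, h2, rfl, rfl, rfl⟩ | ⟨h1, h2, rfl, rfl, rfl⟩ | ⟨h1, h2, rfl, rfl, rfl⟩ | ⟨h1, h2, rfl, rfl, rfl⟩ | ⟨h1, h2, rfl, rfl, rfl⟩ | ⟨h1, h2, rfl, rfl, rfl⟩ | ⟨h1, h2, rfl, rfl, rfl⟩ | ⟨h1, h2, rfl, rfl, rfl⟩ | ⟨h1, h2, rfl, rfl, rfl⟩ | ⟨h1, h2, rfl, rfl, rfl⟩ | ⟨h1, h2, rfl, rfl, rfl⟩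
  · rw [e0]
    by_cases h : k + 1 < A
    · exact ⟨0, Or.inl ⟨by omega, h, by omega, by omega, rfl⟩, by norm_num⟩
    · exact ⟨-1, Or.inr (Or.inl ⟨by omega, by omega, by omega, by omega, rfl⟩), by norm_num⟩
  · rw [e4]
    by_cases h : k + 1 < A + 1
    · exact ⟨-1, Or.inr (Or.inl ⟨by omega, h, by omega, by omega, rfl⟩), by norm_num⟩
    · exact ⟨-2, Or.inr (Or.inr (Or.inl ⟨by omega, by omega, by omega, by omega, rfl⟩)), by norm_num⟩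
  · rw [e5]
    by_cases h : k + 1 < 2 * A + 1
    · exact ⟨-2, Or.inr (Or.inr (Or.inl ⟨by omega, h, by omega, by omega, rfl⟩)), by norm_num⟩
    · exact ⟨-1, Or.inr (Or.inr (Or.inr (Or.inl ⟨by omega, by omega, by omega, by omega, rfl⟩))), by norm_num⟩
  · rw [e4]
    by_cases h : k + 1 < 2 * A + R
    · exact ⟨-1, Or.inr (Or.inr (Or.inr (Or.inl ⟨by omega, h, by omega, by omega, rfl⟩))), by norm_num⟩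
    · exact ⟨0, Or.inr (Or.inr (Or.inr (Or.inr (Or.inl ⟨by omega, by omega, by omega, by omega, rfl⟩)))), by norm_num⟩
  · rw [e0]
    by_cases h : k + 1 < 2 * A + 2 * R - 1
    · exact ⟨0, Or.inr (Or.inr (Or.inr (Or.inr (Or.inl ⟨by omega, h, by omega, by omega, rfl⟩)))), by norm_num⟩
    · exact ⟨1, Or.inr (Or.inr (Or.inr (Or.inr (Or.inr (Or.inl ⟨by omega, by omega, by omega, by omega, rfl⟩))))), by norm_num⟩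
  · rw [e1]
    by_cases h : k + 1 < 2 * A + 2 * R - 1 + B
    · exact ⟨1, Or.inr (Or.inr (Or.inr (Or.inr (Or.inr (Or.inl ⟨by omega, h, by omega, by omega, rfl⟩))))), by norm_num⟩
    · exact ⟨0, Or.inr (Or.inr (Or.inr (Or.inr (Or.inr (Or.inr (Or.inl ⟨by omega, by omega, by omega, by omega, rfl⟩)))))), by norm_num⟩
  · rw [e0]
    by_cases h : k + 1 < 2 * A + 2 * R + B
    · exact ⟨0, Or.inr (Or.inr (Or.inr (Or.inr (Or.inr (Or.inr (Or.inl ⟨by omega, h, by omega, by omega, rfl⟩)))))), by norm_num⟩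
    · exact ⟨-1, Or.inr (Or.inr (Or.inr (Or.inr (Or.inr (Or.inr (Or.inr (Or.inl ⟨by omega, by omega, by omega, by omega, rfl⟩))))))), by norm_num⟩
  · rw [e4]
    by_cases h : k + 1 < 2 * A + 2 * R + 2 * B
    · exact ⟨-1, Or.inr (Or.inr (Or.inr (Or.inr (Or.inr (Or.inr (Or.inr (Or.inl ⟨by omega, h, by omega, by omega, rfl⟩))))))), by norm_num⟩
    · exact ⟨0, Or.inr (Or.inr (Or.inr (Or.inr (Or.inr (Or.inr (Or.inr (Or.inr (Or.inl ⟨by omega, by omega, by omega, by omega, rfl⟩)))))))), by norm_num⟩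
  · rw [e0]
    by_cases h : k + 1 < 2 * A + 3 * R + 2 * B
    · exact ⟨0, Or.inr (Or.inr (Or.inr (Or.inr (Or.inr (Or.inr (Or.inr (Or.inr (Or.inl ⟨by omega, h, by omega, by omega, rfl⟩)))))))), by norm_num⟩
    · exact ⟨1, Or.inr (Or.inr (Or.inr (Or.inr (Or.inr (Or.inr (Or.inr (Or.inr (Or.inr (Or.inl ⟨by omega, by omega, by omega, by omega, rfl⟩))))))))), by norm_num⟩
  · rw [e1]
    by_cases h : k + 1 < 2 * A + 5 * R + 2 * B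
    · exact ⟨1, Or.inr (Or.inr (Or.inr (Or.inr (Or.inr (Or.inr (Or.inr (Or.inr (Or.inr (Or.inl ⟨by omega, h, by omega, by omega, rfl⟩))))))))), by norm_num⟩
    · exact ⟨2, Or.inr (Or.inr (Or.inr (Or.inr (Or.inr (Or.inr (Or.inr (Or.inr (Or.inr (Or.inr (Or.inl ⟨by omega, by omega, by omega, by omega, rfl⟩)))))))))), by norm_num⟩
  · rw [e2]
    by_cases h : k + 1 < 2 * A + 7 * R + 2 * B
    · exact ⟨2, Or.inr (Or.inr (Or.inr (Or.inr (Or.inr (Or.inr (Or.inr (Or.inr (Or.inr (Or.inr (Or.inl ⟨by omega, h, by omega, by omega, rfl⟩)))))))))), by norm_num⟩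
    · exact ⟨3, Or.inr (Or.inr (Or.inr (Or.inr (Or.inr (Or.inr (Or.inr (Or.inr (Or.inr (Or.inr (Or.inr (⟨by omega, by omega, by omega, by omega, rfl⟩))))))))))), by norm_num⟩
  · rw [e3]
    exact ⟨3, Or.inr (Or.inr (Or.inr (Or.inr (Or.inr (Or.inr (Or.inr (Or.inr (Or.inr (Or.inr (Or.inr (⟨by omega, hn, by omega, by omega, rfl⟩))))))))))), by norm_num⟩

theorem left2 (hAR : A < R) (hBR : B + 1 < R) {k : ℕ} {x y u : ℤ} (hk : V2 A B R k x y u) :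
    sqL (x, y) u ∈ R2 A B R ∧ sqL (x, y) (u - 1) ∉ R2 A B R := by
  rcases hk with ⟨h1, h2, rfl, rfl, rfl⟩ | ⟨h1, h2, rfl, rfl, rfl⟩ | ⟨h1, h2, rfl, rfl, rfl⟩ | ⟨h1, h2, rfl, rfl, rfl⟩ | ⟨h1, h2, rfl, rfl, rfl⟩ | ⟨h1, h2, rfl, rfl, rfl⟩ | ⟨h1, h2, rfl, rfl, rfl⟩ | ⟨h1, h2, rfl, rfl, rfl⟩ | ⟨h1, h2, rfl, rfl, rfl⟩ | ⟨h1, h2, rfl, rfl, rfl⟩ | ⟨h1, h2, rfl, rfl, rfl⟩ | ⟨h1, h2, rfl, rfl, rfl⟩ <;>
    (unfold sqL R2; simp only [Set.mem_ofPred_eq]; norm_num; omega)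

end Vale.Agent.P167.H871.Q
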