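import Vale.Agent.P167.H871.Q.WinB0
import Vale.Agent.P167.H871.Q.WinB1
import Vale.Agent.P167.H871.Q.WinB2

/-!
# P167, general `q`: the windows of the holes, boundary curves
-/

namespace Vale.Agent.P167.H871.Q

open Finset
open Vale.Agent.P167.Top

/-- A closed curve given by a relation. -/
theorem bd_of {V : ℕ → ℤ → ℤ → ℤ → Prop} {n : ℕ} {D : Set (ℤ × ℤ)} {x0 y0 : ℤ}
    (hn : 1 < n) (first : V 0 x0 y0 0)
    (ex : ∀ k < n, ∃ t : ℤ × ℤ × ℤ, V k t.1 t.2.1 t.2.2)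
    (uniq : ∀ {k : ℕ} {x y u x' y' u' : ℤ}, V k x y u → V k x' y' u' → x = x' ∧ y = y' ∧ u = u')
    (nxt : ∀ {k : ℕ} {x y u : ℤ}, V k x y u → k + 1 < n →
      ∃ u', V (k + 1) (x + (vec u).1) (y + (vec u).2) u' ∧ |u' - u| ≤ 1)
    (last : V (n - 1) x0 (y0 + 1) 3)
    (inj : ∀ {k l : ℕ}, k < l → ∀ {x y u u' : ℤ}, V k x y u → V l x y u' → False)
    (left : ∀ {k : ℕ} {x y u : ℤ}, V k x y u → sqL (x, y) u ∈ D ∧ sqL (x, y) (u - 1) ∉ D) :
    ∃ P U, Bd D n P U 1 ∧ ∀ k < n, V k (P k).1 (P k).2 (U k) := by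
  classical
  choose! t ht using ex
  let p : ℕ → ℤ × ℤ := fun k => if k < n then ((t k).1, (t k).2.1) else (x0, y0)
  let u : ℕ → ℤ := fun k => if k < n then (t k).2.2 else 4
  have hV : ∀ k < n, V k (p k).1 (p k).2 (u k) := by
    intro k hk
    simp only [p, u, if_pos hk]
    exact ht k hk
  have h0 : p 0 = (x0, y0) ∧ u 0 = 0 := by
    obtain ⟨h1, h2, h3⟩ := uniq (hV 0 (by omega)) first
    exact ⟨Prod.ext h1 h2, h3⟩
  have hpn : p n = (x0, y0) ∧ u n = 4 := by simp [p, u]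
  have hnx : ∀ k < n, p (k + 1) = p k + vec (u k) ∧ |u (k + 1) - u k| ≤ 1 := by
    intro k hk
    rcases Nat.lt_or_ge (k + 1) n with h | h
    · obtain ⟨u', h1, h2⟩ := nxt (hV k hk) h
      obtain ⟨h3, h4, h5⟩ := uniq (hV (k + 1) h) h1
      exact ⟨Prod.ext h3 h4, by rw [h5]; exact h2⟩
    · obtain rfl : k = n - 1 := by omega
      rw [show n - 1 + 1 = n by omega, hpn.1, hpn.2]
      obtain ⟨h3, h4, h5⟩ := uniq (hV (n - 1) hk) last
      rw [h5]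
      have h6 : p (n - 1) = (x0, y0 + 1) := Prod.ext h3 h4
      rw [h6]
      refine ⟨?_, by norm_num⟩
      rw [show vec 3 = (0, -1) from rfl]
      ext <;> simp
  have hb := bd_fin (D := D) (n := n) (by omega) (p := p) (u := u) (σ := 1)
    (by rw [hpn.1, h0.1]) (by rw [hpn.2, h0.2]; norm_num) (fun k hk => (hnx k hk).1)
    (fun k hk => (hnx k hk).2)
    (fun k l h1 h2 h3 => inj h1 (hV k (by omega)) (by
      have := hV l h2
      rw [← h3] at this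
      exact this))
    (fun k hk => (left (hV k hk)).1) (fun k hk => (left (hV k hk)).2)
  refine ⟨_, _, hb, fun k hk => ?_⟩
  have h1 := hV k hk
  simpa [Nat.mod_eq_of_lt hk, Nat.div_eq_of_lt hk] using h1

variable {A B R : ℕ}

/-- The region of the window; `κ = 0`: flat, `κ = 1`: convex corner, `κ = -1`: reflex corner. -/
def RW (κ : ℤ) (A B R : ℕ) : Set (ℤ × ℤ) :=
  if κ = 0 then R0 A B R else if κ = 1 then R1 A B R else R2 A B R

/-- Index of the first side of the row after the hole. -/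
def tB (κ : ℤ) (A R : ℕ) : ℕ :=
  if κ = 0 then 2 * A + 4 * R - 1 else if κ = 1 then 2 * A + 6 * R - 1 else 2 * A + 2 * R - 1

/-- The sides of the rows in the window, as seen from the window: position, direction. -/
structure WinI (κ : ℤ) (A B R : ℕ) (P : ℕ → ℤ × ℤ) (U : ℕ → ℤ) : Prop where
  aD : ∀ k < A, P k = (-(R : ℤ) + k, 0) ∧ U k = 0
  aE : P A = (-(R : ℤ) + A, 0) ∧ U A = -1
  aF : ∀ k < A, P (A + 1 + k) = (-(R : ℤ) + A - k, -1) ∧ U (A + 1 + k) = -2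
  bF : ∀ k < B, P (tB κ A R + k) = Ls 0 κ ((R : ℤ) - k, -1) ∧ U (tB κ A R + k) = κ + 2
  bE : P (tB κ A R + B) = Ls 0 κ ((R : ℤ) - B, -1) ∧ U (tB κ A R + B) = κ + 1
  bD : ∀ k < B, P (tB κ A R + B + 1 + k) = Ls 0 κ ((R : ℤ) - B + k, 0) ∧
    U (tB κ A R + B + 1 + k) = κ

theorem Ls_zero (x y : ℤ) : Ls 0 0 (x, y) = (x, y) := by
  unfold Ls
  rw [show dx 0 = 1 from rfl, show dy 0 = 0 from rfl]
  simp

theorem Ls_one (x y : ℤ) : Ls 0 1 (x, y) = (-y, x) := by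
  unfold Ls
  rw [show dx 1 = 0 from rfl, show dy 1 = 1 from rfl]
  simp

theorem Ls_neg (x y : ℤ) : Ls 0 (-1) (x, y) = (y, -x) := by
  unfold Ls
  rw [show dx (-1) = 0 from rfl, show dy (-1) = -1 from rfl]
  simp

theorem win0 (hA : 1 ≤ A) (hB : 1 ≤ B) (hAR : A < R) (hBR : B + 1 < R) :
    ∃ P U, Bd (R0 A B R) (2 * A + 8 * R + 2 * B) P U 1 ∧ WinI (0) A B R P U := by
  obtain ⟨P, U, h1, h2⟩ := bd_of (V := V0 A B R) (n := 2 * A + 8 * R + 2 * B) (D := R0 A B R)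
    (x0 := -R) (y0 := 0) (by omega) (Or.inl ⟨le_rfl, hA, by simp, rfl, rfl⟩)
    (fun k hk => ex0 hAR hk) (uniq0 hA hAR) (nxt0 hA hB hAR (by omega))
    (Or.inr (Or.inr (Or.inr (Or.inr (Or.inr (Or.inr (Or.inr (Or.inr (Or.inr (Or.inr (Or.inr (⟨by omega, by omega, rfl, by omega, rfl⟩))))))))))))
    (inj0 hAR (by omega)) (left0 hAR (by omega))
  have key : ∀ k < 2 * A + 8 * R + 2 * B, ∀ x y u, V0 A B R k x y u → P k = (x, y) ∧ U k = u := by
    intro k hk x y u h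
    obtain ⟨h3, h4, h5⟩ := uniq0 hA hAR (h2 k hk) h
    exact ⟨Prod.ext h3 h4, h5⟩
  have ht : tB (0) A R = 2 * A + 4 * R - 1 := rfl
  refine ⟨P, U, h1, fun k hk => ?_, ?_, fun k hk => ?_, fun k hk => ?_, ?_, fun k hk => ?_⟩
  · exact key k (by omega) _ _ _ (Or.inl ⟨by omega, hk, by omega, rfl, rfl⟩)
  · exact key A (by omega) _ _ _ (Or.inr (Or.inl ⟨by omega, by omega, by omega, rfl, rfl⟩))
  · exact key _ (by omega) _ _ _ (Or.inr (Or.inr (Or.inl ⟨by omega, by omega, by omega, rfl, rfl⟩)))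
  · rw [ht, Ls_zero]
    exact key _ (by omega) _ _ _ (Or.inr (Or.inr (Or.inr (Or.inr (Or.inr (Or.inr (Or.inl ⟨by omega, by omega, by omega, by omega, by omega⟩)))))))
  · rw [ht, Ls_zero]
    exact key _ (by omega) _ _ _ (Or.inr (Or.inr (Or.inr (Or.inr (Or.inr (Or.inr (Or.inr (Or.inl ⟨by omega, by omega, by omega, by omega, by omega⟩))))))))
  · rw [ht, Ls_zero]
    exact key _ (by omega) _ _ _ (Or.inr (Or.inr (Or.inr (Or.inr (Or.inr (Or.inr (Or.inr (Or.inr (Or.inl ⟨by omega, by omega, by omega, by omega, by omega⟩)))))))))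

theorem win1 (hA : 1 ≤ A) (hB : 1 ≤ B) (hAR : A < R) (hBR : B + 1 < R) :
    ∃ P U, Bd (R1 A B R) (2 * A + 8 * R + 2 * B) P U 1 ∧ WinI (1) A B R P U := by
  obtain ⟨P, U, h1, h2⟩ := bd_of (V := V1 A B R) (n := 2 * A + 8 * R + 2 * B) (D := R1 A B R)
    (x0 := -R) (y0 := 0) (by omega) (Or.inl ⟨le_rfl, hA, by simp, rfl, rfl⟩)
    (fun k hk => ex1 hAR hk) (uniq1 hA hAR) (nxt1 hA hB hAR (by omega))
    (Or.inr (Or.inr (Or.inr (Or.inr (Or.inr (Or.inr (Or.inr (Or.inr (Or.inr (Or.inr (Or.inr (⟨by omega, by omega, rfl, by omega, rfl⟩))))))))))))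
    (inj1 hAR (by omega)) (left1 hAR (by omega))
  have key : ∀ k < 2 * A + 8 * R + 2 * B, ∀ x y u, V1 A B R k x y u → P k = (x, y) ∧ U k = u := by
    intro k hk x y u h
    obtain ⟨h3, h4, h5⟩ := uniq1 hA hAR (h2 k hk) h
    exact ⟨Prod.ext h3 h4, h5⟩
  have ht : tB (1) A R = 2 * A + 6 * R - 1 := rfl
  refine ⟨P, U, h1, fun k hk => ?_, ?_, fun k hk => ?_, fun k hk => ?_, ?_, fun k hk => ?_⟩
  · exact key k (by omega) _ _ _ (Or.inl ⟨by omega, hk, by omega, rfl, rfl⟩)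
  · exact key A (by omega) _ _ _ (Or.inr (Or.inl ⟨by omega, by omega, by omega, rfl, rfl⟩))
  · exact key _ (by omega) _ _ _ (Or.inr (Or.inr (Or.inl ⟨by omega, by omega, by omega, rfl, rfl⟩)))
  · rw [ht, Ls_one]
    exact key _ (by omega) _ _ _ (Or.inr (Or.inr (Or.inr (Or.inr (Or.inr (Or.inr (Or.inr (Or.inl ⟨by omega, by omega, by omega, by omega, by omega⟩))))))))
  · rw [ht, Ls_one]
    exact key _ (by omega) _ _ _ (Or.inr (Or.inr (Or.inr (Or.inr (Or.inr (Or.inr (Or.inr (Or.inr (Or.inl ⟨by omega, by omega, by omega, by omega, by omega⟩)))))))))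
  · rw [ht, Ls_one]
    exact key _ (by omega) _ _ _ (Or.inr (Or.inr (Or.inr (Or.inr (Or.inr (Or.inr (Or.inr (Or.inr (Or.inr (Or.inl ⟨by omega, by omega, by omega, by omega, by omega⟩))))))))))

theorem win2 (hA : 1 ≤ A) (hB : 1 ≤ B) (hAR : A < R) (hBR : B + 1 < R) :
    ∃ P U, Bd (R2 A B R) (2 * A + 8 * R + 2 * B) P U 1 ∧ WinI (-1) A B R P U := by
  obtain ⟨P, U, h1, h2⟩ := bd_of (V := V2 A B R) (n := 2 * A + 8 * R + 2 * B) (D := R2 A B R)
    (x0 := -R) (y0 := 0) (by omega) (Or.inl ⟨le_rfl, hA, by simp, rfl, rfl⟩)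
    (fun k hk => ex2 hAR hk) (uniq2 hA hAR) (nxt2 hA hB hAR hBR)
    (Or.inr (Or.inr (Or.inr (Or.inr (Or.inr (Or.inr (Or.inr (Or.inr (Or.inr (Or.inr (Or.inr (⟨by omega, by omega, rfl, by omega, rfl⟩))))))))))))
    (inj2 hAR hBR) (left2 hAR hBR)
  have key : ∀ k < 2 * A + 8 * R + 2 * B, ∀ x y u, V2 A B R k x y u → P k = (x, y) ∧ U k = u := by
    intro k hk x y u h
    obtain ⟨h3, h4, h5⟩ := uniq2 hA hAR (h2 k hk) h
    exact ⟨Prod.ext h3 h4, h5⟩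
  have ht : tB (-1) A R = 2 * A + 2 * R - 1 := rfl
  refine ⟨P, U, h1, fun k hk => ?_, ?_, fun k hk => ?_, fun k hk => ?_, ?_, fun k hk => ?_⟩
  · exact key k (by omega) _ _ _ (Or.inl ⟨by omega, hk, by omega, rfl, rfl⟩)
  · exact key A (by omega) _ _ _ (Or.inr (Or.inl ⟨by omega, by omega, by omega, rfl, rfl⟩))
  · exact key _ (by omega) _ _ _ (Or.inr (Or.inr (Or.inl ⟨by omega, by omega, by omega, rfl, rfl⟩)))
  · rw [ht, Ls_neg]
    exact key _ (by omega) _ _ _ (Or.inr (Or.inr (Or.inr (Or.inr (Or.inr (Or.inl ⟨by omega, by omega, by omega, by omega, by omega⟩))))))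
  · rw [ht, Ls_neg]
    exact key _ (by omega) _ _ _ (Or.inr (Or.inr (Or.inr (Or.inr (Or.inr (Or.inr (Or.inl ⟨by omega, by omega, by omega, by omega, by omega⟩)))))))
  · rw [ht, Ls_neg]
    exact key _ (by omega) _ _ _ (Or.inr (Or.inr (Or.inr (Or.inr (Or.inr (Or.inr (Or.inr (Or.inl ⟨by omega, by omega, by omega, by omega, by omega⟩))))))))

/-- **The boundary curve of the window of a hole.** -/
theorem exists_win {κ : ℤ} (hκ : κ = 0 ∨ κ = 1 ∨ κ = -1) (hA : 1 ≤ A) (hB : 1 ≤ B) (hAR : A < R)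
    (hBR : B + 1 < R) :
    ∃ P U, Bd (RW κ A B R) (2 * A + 8 * R + 2 * B) P U 1 ∧ WinI κ A B R P U := by
  rcases hκ with rfl | rfl | rfl
  · exact win0 hA hB hAR hBR
  · exact win1 hA hB hAR hBR
  · exact win2 hA hB hAR hBR

end Vale.Agent.P167.H871.Q
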